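import Crest.Agent.N337.G1.Defs
import Crest.Agent.N337.DL.Multi
import Crest.Agent.N337.Top.Defs

/-!
# Row 337, RARE (helper4): rarity of the junk of the red set at `θ = 2` by static witness trees

Joint law of the coins `ξ` and the red set `R`.  Junk `U ξ R` is increasing in `R`; base junk is a
colour blind fast chain or a red point set.  Definitions and leaf statements.
-/

set_option autoImplicit false

namespace Crest.Agent.N337.RR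

open Finset Equiv Crest.MathPhysics.SpinModel Crest.Agent.N337.Rep Free KV G1

section meas
variable {Λ : Type} [Fintype Λ] [DecidableEq Λ] {T : ℕ} [NeZero T] (ex ey : Fin T → Λ)

/-- the red points. -/
def red (ω : Rep.Env T Λ) : Finset (Fin T × Λ) := univ.filter fun v => ω v ≠ none
/-- number of points at time `0`. -/
def n0 (R : Finset (Fin T × Λ)) : ℕ := (univ.filter fun x => ((0 : Fin T), x) ∈ R).card

open Classical in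
/-- weight of an event of the coins and the red set. -/
noncomputable def WR (p : Fin T → ℝ) (b : Fin T × Λ → ℝ)
    (E : (Fin T → Bool) → Finset (Fin T × Λ) → Prop) : ℝ :=
  ∑ ξ, Pw p ξ * ∑ ω : Rep.Env T Λ,
    if (∀ v, ω (Sg ex ey ξ v) = ω v) ∧ E ξ (red ω) then zr b ω * (gm (Sg ex ey ξ) b ω).det else 0

/-- annealed Green function (target, source), unnormalised. -/
noncomputable def AG (p : Fin T → ℝ) (b : Fin T × Λ → ℝ) (v u : Fin T × Λ) : ℝ :=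
  ∑ ω, DL.nv ex ey p b ω * if ω v = none ∧ ω u = none then DL.Ge ex ey p b ω v u else 0

/-- `ξ` is possible and `R` is a union of loops of `ξ`. -/
def Cmp (p : Fin T → ℝ) (ξ : Fin T → Bool) (R : Finset (Fin T × Λ)) : Prop :=
  Pw p ξ ≠ 0 ∧ ∀ v, Sg ex ey ξ v ∈ R ↔ v ∈ R

end meas

/-- **(Bas)** elementary properties of the weights. -/
def BasStmt : Prop :=
  ∀ (Λ : Type) [Fintype Λ] [DecidableEq Λ] (T : ℕ) [NeZero T] (ex ey : Fin T → Λ)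
    (p : Fin T → ℝ), (∀ s, 0 ≤ p s ∧ p s ≤ 1 / 2) →
    let W := fun y : ℝ => WR ex ey p (Top.bt y)
    let Z := fun y : ℝ => DL.Zt ex ey p (Top.bt y)
    (∀ E, Continuous fun y => W y E) ∧ Continuous Z ∧
    (∀ E : (Fin T → Bool) → Finset (Fin T × Λ) → Prop,
      (∀ ξ R, Cmp ex ey p ξ R → E ξ R → R.Nonempty) → W 0 E = 0) ∧
    ∀ y, 0 ≤ y → y < 1 → 1 ≤ Z y ∧ W y (fun _ _ => True) = Z y ∧ (∀ E, 0 ≤ W y E) ∧
      (∀ (ι : Type) (I : Finset ι) (E : (Fin T → Bool) → Finset (Fin T × Λ) → Prop)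
        (E' : ι → (Fin T → Bool) → Finset (Fin T × Λ) → Prop),
        (∀ ξ R, Cmp ex ey p ξ R → E ξ R → ∃ i ∈ I, E' i ξ R) → W y E ≤ ∑ i ∈ I, W y (E' i)) ∧
      (∀ S : Finset (Fin T), W y (fun ξ _ => ∀ s ∈ S, ξ s = true) ≤ (∏ s ∈ S, 6 * p s) * Z y) ∧
      (∀ y', 0 < y' → y' ≤ y → Z y' ≤ Z y ∧ ∀ (N : ℕ) E,
        W y (fun ξ R => E ξ R ∧ n0 R ≤ N) ≤ (y / y') ^ N * W y' E) ∧
      ∀ (X : Finset (Fin T × Λ)) (r : Fin T × Λ → ℝ), (∀ v ∈ X, 0 < r v) →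
        (∀ v ∈ X, ∑ u ∈ X, AG ex ey p (Top.bt y) v u ≤ r v * Z y) →
        W y (fun _ R => X ⊆ R) ≤ (∏ v ∈ X, 2 * Real.exp 1 * r v) * Z y

/-- **(Ann)** the annealed Green function: increasing bad events cost their weight. -/
def AnnStmt : Prop :=
  ∀ (Λ : Type) [Fintype Λ] [DecidableEq Λ] (T : ℕ) [NeZero T] (ex ey : Fin T → Λ)
    (p : Fin T → ℝ) (b : Fin T × Λ → ℝ), (∀ s, 0 ≤ p s ∧ p s ≤ 1) → (∀ v, 0 ≤ b v ∧ b v ≤ 1) →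
    (∀ x, b (0, x) < 1) → ∀ (Bad : (Fin T → Bool) → Finset (Fin T × Λ) → Prop),
    (∀ ξ R R', R ⊆ R' → Bad ξ R → Bad ξ R') → ∀ (v u : Fin T × Λ) (γ : ℝ), 0 ≤ γ →
    (∀ ξ ω, Pw p ξ ≠ 0 → (∀ v, ω (Sg ex ey ξ v) = ω v) → ¬ Bad ξ (red ω) → ω v = none →
      ω u = none → DL.Ge ex ey p b ω v u ≤ γ) →
    AG ex ey p b v u ≤ γ * DL.Zt ex ey p b + WR ex ey p b Bad

/-! ### trees -/

open Classical in
/-- the junk levels generated by the base junk `U1`. -/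
noncomputable def Up {L : ℕ} [NeZero L] (P : Scales) (U1 : Finset (Tor 3 L)) :
    ℕ → Finset (Tor 3 L)
  | 0 => ∅
  | 1 => U1
  | m + 2 => univ.filter fun c => ¬ ∃ F : Finset (Tor 3 L), F.card ≤ P.a (m + 1) ∧
      ∀ y ∈ Up P U1 (m + 1), tdist c y ≤ 4 * P.η (m + 1) → ∃ f ∈ F, tdist f y ≤ P.σ (m + 1)

/-- number of witness trees. -/
def NT (P : Scales) (a : ℕ) : ℕ → ℕ
  | 0 => 1
  | m + 1 => ((8 * P.η (m + 1) + 1) ^ 3 * NT P a m) ^ (a + 1)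

/-- hierarchical separation of the leaves of a tree of depth `m`. -/
def Row {L : ℕ} (P : Scales) (a m : ℕ) (Y : Finset (Tor 3 L)) : Prop :=
  (∀ y ∈ Y, ∀ y' ∈ Y, y ≠ y' → P.σ 1 < 2 * tdist y y') ∧
  ∀ y ∈ Y, ∀ (φ : Tor 3 L → ℝ) (γ : ℕ → ℝ), (∀ t, 0 ≤ γ t) →
    (∀ y' ∈ Y, ∀ t, 1 ≤ t → t ≤ m → P.σ t < 2 * tdist y y' → φ y' ≤ γ t) →
    ∑ y' ∈ Y.erase y, φ y' ≤ ∑ t ∈ Icc 1 m, ((a : ℝ) + 1) ^ t * γ t

/-- **(Tree)** witness trees. -/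
def TreeStmt : Prop :=
  ∀ (L : ℕ) [NeZero L] (P : Scales) (a : ℕ), (∀ m, 1 ≤ m → P.a m = a) →
    (∀ m, 32 * P.η m ≤ P.σ (m + 1) ∧ P.σ (m + 1) ≤ P.η (m + 1)) →
    (∀ U1 U1' : Finset (Tor 3 L), U1 ⊆ U1' → ∀ m, Up P U1 m ⊆ Up P U1' m) ∧
    (∀ (U1 : Finset (Tor 3 L)) m, 1 ≤ m → CovAt P (Up P U1) m) ∧
    ∀ (m : ℕ) (c : Tor 3 L), ∃ 𝒯 : Finset (Finset (Tor 3 L)), 𝒯.card ≤ NT P a m ∧
      (∀ Y ∈ 𝒯, Y.card = (a + 1) ^ m ∧ Row P a m Y) ∧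
      ∀ U1, c ∈ Up P U1 (m + 1) → ∃ Y ∈ 𝒯, Y ⊆ U1

/-! ### base junk -/

section base
variable {L n T : ℕ} [NeZero L] [NeZero T] (ex ey : Fin T → Tor 3 L × Fin n)

/-- a chain of `k` active bonds in the time interval `[t, t1)`, starting at the site `z`. -/
def Chn (ξ : Fin T → Bool) (t1 : ℕ) : ℕ → ℕ → Tor 3 L → Prop
  | 0, _, _ => True
  | k + 1, t, z => ∃ s, t ≤ s ∧ s < t1 ∧ ξ (tm T s) = true ∧ ∃ z', z' ≠ z ∧
      (((ex (tm T s)).1 = z ∧ (ey (tm T s)).1 = z') ∨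
        ((ey (tm T s)).1 = z ∧ (ex (tm T s)).1 = z')) ∧ Chn ξ t1 k (s + 1) z'

/-- more than `f` jumps in a double window (`D` steps per window, `B` windows). -/
def Fast (D B f ρ : ℕ) (x : Tor 3 L) (ξ : Fin T → Bool) : Prop :=
  ∃ i < B, ∃ z, tdist x z ≤ ρ ∧ Chn ex ey ξ ((i + 2) * D) (f + 1) (i * D) z

/-- number of points of `R` at step `k` within `A` of `z`. -/
noncomputable def cntR (R : Finset (Fin T × (Tor 3 L × Fin n))) (k : ℕ) (z : Tor 3 L) (A : ℕ) : ℕ :=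
  (univ.filter fun y => (tm T k, y) ∈ R ∧ tdist z y.1 ≤ A).card

/-- clusters of `h` points on the grid slices `i, i + D', …, i + (k - 1) D'`. -/
def Pt (D D' i k h ρ A : ℕ) (x : Tor 3 L) (R : Finset (Fin T × (Tor 3 L × Fin n))) : Prop :=
  ∀ b < k, ∃ z, tdist x z ≤ ρ ∧ h ≤ cntR R ((i + b * D') * D) z A

/-- the clock of a nearest-neighbour word. -/
structure Word (p : Fin T → ℝ) (E w B : ℕ) (θ : ℝ) : Prop where
  hT : T = B * w * E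
  hB : 2 ≤ B
  hp : ∀ s, 0 ≤ p s ∧ p s ≤ 1 / 2
  nn : ∀ s, tdist (ex s).1 (ey s).1 ≤ 1
  few : ∀ z, (univ.filter fun s => (ex s).1 = z ∧ (ey s).1 = z ∧ p s ≠ 0).card ≤ n ^ 2
  rate : ∀ i z, ∑ a ∈ range E, (if (ex (tm T (i * E + a))).1 ≠ (ey (tm T (i * E + a))).1 ∧
    ((ex (tm T (i * E + a))).1 = z ∨ (ey (tm T (i * E + a))).1 = z)
      then p (tm T (i * E + a)) else 0) ≤ θ

end base

/-- **(Fast)** fast chains are covered by a light family of sets of coins. -/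
def FastStmt : Prop :=
  ∀ (L n T : ℕ) [NeZero L] [NeZero T] (ex ey : Fin T → Tor 3 L × Fin n) (p : Fin T → ℝ)
    (E w B : ℕ) (θ : ℝ), Word ex ey p E w B θ → 40 * θ ≤ 1 → ∀ (f ρ : ℕ) (x : Tor 3 L),
    ∃ 𝒮 : Finset (Finset (Fin T)), (∀ S ∈ 𝒮, ∀ s ∈ S, tdist x (ex s).1 ≤ ρ + f + 2) ∧
      ∑ S ∈ 𝒮, ∏ s ∈ S, 6 * p s ≤ B * (2 * (ρ : ℝ) + 1) ^ 3 * Real.exp (80 * θ * w - f) ∧
      ∀ ξ, Fast ex ey (w * E) B f ρ x ξ → ∃ S ∈ 𝒮, ∀ s ∈ S, ξ s = true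

/-- **(Det)** without fast chains everything is read on the grid slices. -/
def DetStmt : Prop :=
  ∀ (L n T : ℕ) [NeZero L] [NeZero T] (ex ey : Fin T → Tor 3 L × Fin n) (p0 : Fin T → ℝ)
    (E w B : ℕ) (θ : ℝ), Word ex ey p0 E w B θ →
    ∀ (ξ : Fin T → Bool) (R : Finset (Fin T × (Tor 3 L × Fin n))), Cmp ex ey p0 ξ R →
    ∀ (f ρ : ℕ) (c : Tor 3 L), ¬ Fast ex ey (w * E) B f ρ c ξ →
      (∀ (i k A : ℕ) (z : Tor 3 L), i * (w * E) ≤ k → k ≤ (i + 2) * (w * E) →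
        tdist c z + A + f + 1 ≤ ρ → cntR R k z A ≤ cntR R (i % B * (w * E)) z (A + f)) ∧
      ∀ (m0 j r : ℕ) (x : Tor 3 L) (p : Fin T → ℝ) (R' : Finset (Fin T × (Tor 3 L × Fin n))),
        (∀ i < B, cntR R (i * (w * E)) c ρ ≤ m0) → tdist c x + r + f + 2 ≤ ρ →
        m0 * (f + 1) * (n ^ 2 + 1) + 1 ≤ j → R' ⊆ R →
        (∀ s y, Ch ex ey p R' s y → s + 1 = 0 ∨
          (ξ s = true ∧ (y = ex s ∨ y = ey s) ∧ ((s, ex s) ∈ R ∨ (s, ey s) ∈ R))) →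
        Leaf ex ey p R' (w * E) m0 j r x

/-- **(Pt)** the point families. -/
def PtStmt : Prop :=
  ∀ (L n T : ℕ) [NeZero L] [NeZero T] (D B D' i k h ρ A : ℕ) (x : Tor 3 L), T = B * D → 1 ≤ D' →
    2 * (k * D') ≤ B →
    ∃ 𝒳 : Finset (Finset (Fin T × (Tor 3 L × Fin n))),
      𝒳.card ≤ ((2 * ρ + 1) ^ 3 * (n * (2 * A + 1) ^ 3) ^ h) ^ k ∧
      (∀ X ∈ 𝒳, X.card = h * k ∧ ∀ v ∈ X, tdist x v.2.1 ≤ ρ + A ∧ D ∣ v.1.val ∧
        ∀ u ∈ X, D' * D ≤ lag u.1 v.1 ∧ (k = 1 → u.1 = v.1)) ∧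
      ∀ R, Pt D D' i k h ρ A x R → ∃ X ∈ 𝒳, X ⊆ R

/-- **(Gen)** many generic tuples in a dense set, and the continuity argument. -/
def GenStmt : Prop :=
  (∀ (L n : ℕ) [NeZero L] (k d N : ℕ) (S : Finset (Tor 3 L × Fin n)), 2 * N ≤ S.card →
    k * (n * (2 * d + 1) ^ 3) ≤ N →
    N ^ k ≤ (univ.filter fun f : Fin k → Tor 3 L × Fin n =>
      (∀ a b, a ≠ b → d < tdist (f a).1 (f b).1) ∧ ∀ a, f a ∈ S).card) ∧
  ∀ (ι : Type) [Fintype ι] (φ : ι → ℝ → ℝ) (y0 : ℝ), (∀ i, ContinuousOn (φ i) (Set.Icc 0 y0)) →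
    (∀ i, φ i 0 ≤ 1) →
    (∀ y, 0 < y → y ≤ y0 → (∀ y', 0 ≤ y' → y' ≤ y → ∀ i, φ i y' ≤ 2) → ∀ i, φ i y ≤ 1) →
    ∀ y, 0 ≤ y → y ≤ y0 → ∀ i, φ i y ≤ 1

end Crest.Agent.N337.RR
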