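import Crest.Agent.N337.R.Defs

/-!
# Row 337, RARE: without fast chains everything is read on the grid slices (helper67)
-/

set_option autoImplicit false
set_option linter.unusedSectionVars false

namespace Crest.Agent.N337.RR

open Finset Equiv Crest.MathPhysics.SpinModel Crest.Agent.N337.Rep Free KV G1

namespace Dt

variable {L n T : ℕ} [NeZero L] [NeZero T] {ex ey : Fin T → Tor 3 L × Fin n} {ξ : Fin T → Bool}

/-! ### chains -/

lemma Chn.mono {t1 t1' k t t' : ℕ} {z : Tor 3 L} (h : Chn ex ey ξ t1 k t z) (h1 : t1 ≤ t1')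
    (h2 : t' ≤ t) : Chn ex ey ξ t1' k t' z := by
  induction k generalizing t t' z with
  | zero => trivial
  | succ k ih =>
    obtain ⟨s, a1, a2, a3, z', a4, a5, a6⟩ := h
    exact ⟨s, h2.trans a1, a2.trans_le h1, a3, z', a4, a5, ih a6 le_rfl⟩

lemma tm_add_mul (s m : ℕ) : tm T (s + m * T) = tm T s := Fin.ext (by simp [tm_val])

lemma Chn.shift {t1 k t m : ℕ} {z : Tor 3 L} (h : Chn ex ey ξ (t1 + m * T) k (t + m * T) z) :
    Chn ex ey ξ t1 k t z := by
  induction k generalizing t z with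
  | zero => trivial
  | succ k ih =>
    obtain ⟨s, a1, a2, a3, z', a4, a5, a6⟩ := h
    obtain ⟨s, rfl⟩ : ∃ s', s = s' + m * T := ⟨s - m * T, by omega⟩
    rw [tm_add_mul] at a3 a5
    exact ⟨s, by omega, by omega, a3, z', a4, a5, ih (by rwa [add_right_comm])⟩

lemma split_mod {B D : ℕ} (hT : T = B * D) (i : ℕ) : i * D = i % B * D + i / B * T := by
  conv_lhs => rw [← Nat.mod_add_div i B]
  rw [hT]; ring

lemma tm_mod {B D : ℕ} (hT : T = B * D) (i : ℕ) : tm T (i * D) = tm T (i % B * D) := by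
  rw [split_mod hT i, tm_add_mul]

lemma slow {B D f ρ : ℕ} {c : Tor 3 L} (hT : T = B * D) (h : ¬Fast ex ey D B f ρ c ξ) (i : ℕ)
    {z : Tor 3 L} (hz : tdist c z ≤ ρ) : ¬Chn ex ey ξ ((i + 2) * D) (f + 1) (i * D) z := fun h1 => by
  have hB : 0 < B := Nat.pos_of_mul_pos_right (hT ▸ Nat.pos_of_ne_zero (NeZero.ne T))
  refine h ⟨i % B, Nat.mod_lt _ hB, z, hz, Chn.shift (m := i / B) ?_⟩
  rwa [← split_mod hT, add_mul, add_right_comm, ← split_mod hT, ← add_mul]

/-! ### trajectories -/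

variable (ex ey ξ) in
/-- the flow from the time `0` -/
def Fw : ℕ → Perm (Tor 3 L × Fin n)
  | 0 => 1
  | k + 1 => sg (ex (tm T k)) (ey (tm T k)) (ξ (tm T k)) * Fw k

lemma Fw_succ (k : ℕ) (u : Tor 3 L × Fin n) :
    Fw ex ey ξ (k + 1) u = sg (ex (tm T k)) (ey (tm T k)) (ξ (tm T k)) (Fw ex ey ξ k u) := rfl

lemma Fw_inv (k : ℕ) (y : Tor 3 L × Fin n) : Fw ex ey ξ k ((Fw ex ey ξ k)⁻¹ y) = y :=
  (Fw ex ey ξ k).apply_symm_apply y

lemma Fw_mem {R : Finset (Fin T × (Tor 3 L × Fin n))} (h : ∀ v, Sg ex ey ξ v ∈ R ↔ v ∈ R) (k : ℕ)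
    (u : Tor 3 L × Fin n) : (tm T k, Fw ex ey ξ k u) ∈ R ↔ (tm T 0, u) ∈ R := by
  induction k with
  | zero => rfl
  | succ k ih => rw [← ih, ← h (tm T k, _), Sg_apply, tm_succ, Fw_succ]

variable (ex ey ξ) in
/-- the site of the trajectory -/
def st (u : Tor 3 L × Fin n) (k : ℕ) : Tor 3 L := (Fw ex ey ξ k u).1

variable (ex ey ξ) in
/-- number of jumps -/
def J (u : Tor 3 L × Fin n) (a b : ℕ) : ℕ :=
  ∑ k ∈ Ico a b, if st ex ey ξ u (k + 1) ≠ st ex ey ξ u k then 1 else 0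

variable {u : Tor 3 L × Fin n} {a b k : ℕ}

lemma jump (h : st ex ey ξ u (k + 1) ≠ st ex ey ξ u k) : ξ (tm T k) = true ∧
    (((ex (tm T k)).1 = st ex ey ξ u k ∧ (ey (tm T k)).1 = st ex ey ξ u (k + 1)) ∨
      ((ey (tm T k)).1 = st ex ey ξ u k ∧ (ex (tm T k)).1 = st ex ey ξ u (k + 1))) := by
  simp only [st, Fw_succ, sg] at h ⊢
  split_ifs at h ⊢ with e
  · refine ⟨e, ?_⟩
    by_cases h1 : Fw ex ey ξ k u = ex (tm T k)
    · left; simp [h1]
    by_cases h2 : Fw ex ey ξ k u = ey (tm T k)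
    · right; simp [h2]
    · exact absurd (by rw [swap_apply_of_ne_of_ne h1 h2]) h
  · exact absurd rfl h

lemma J_self (a : ℕ) : J ex ey ξ u a a = 0 := by simp [J]

lemma J_top (h : a ≤ b) : J ex ey ξ u a (b + 1) =
    J ex ey ξ u a b + if st ex ey ξ u (b + 1) ≠ st ex ey ξ u b then 1 else 0 := sum_Ico_succ_top h _

lemma J_bot (h : a < b) : J ex ey ξ u a b =
    (if st ex ey ξ u (a + 1) ≠ st ex ey ξ u a then 1 else 0) + J ex ey ξ u (a + 1) b :=
  sum_eq_sum_Ico_succ_bot h _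

lemma dist_le (nn : ∀ s, tdist (ex s).1 (ey s).1 ≤ 1) (h : a ≤ b) :
    tdist (st ex ey ξ u a) (st ex ey ξ u b) ≤ J ex ey ξ u a b := by
  induction b, h using Nat.le_induction with
  | base => simp [tdist_self]
  | succ b h ih =>
    rw [J_top h]
    refine (tdist_triangle _ (st ex ey ξ u b) _).trans (add_le_add ih ?_)
    split_ifs with e
    · rcases (jump e).2 with ⟨e1, e2⟩ | ⟨e1, e2⟩ <;> rw [← e1, ← e2]
      · exact nn _
      · rw [tdist_comm]; exact nn _
    · rw [not_not.1 e, tdist_self]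

lemma chn_of (h : a ≤ b) (hk : k ≤ J ex ey ξ u a b) : Chn ex ey ξ b k a (st ex ey ξ u a) := by
  induction h using Nat.decreasingInduction generalizing k with
  | self =>
    rw [J_self, Nat.le_zero] at hk
    rw [hk]; trivial
  | of_succ a h ih =>
    rw [J_bot h] at hk
    split_ifs at hk with e
    · rcases k with _ | k
      · trivial
      · exact ⟨a, le_rfl, h, (jump e).1, _, e, (jump e).2, ih (by omega)⟩
    · rw [← not_not.1 e]
      exact Chn.mono (ih (by omega)) le_rfl (Nat.le_succ a)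

lemma exists_J (h : a ≤ b) (hk : k ≤ J ex ey ξ u a b) : ∃ a', a ≤ a' ∧ a' ≤ b ∧ J ex ey ξ u a' b = k := by
  induction h using Nat.decreasingInduction with
  | self => exact ⟨b, le_rfl, le_rfl, by rw [J_self] at hk ⊢; omega⟩
  | of_succ a h ih =>
    rcases le_or_gt k (J ex ey ξ u (a + 1) b) with c | c
    · obtain ⟨a', h1, h2⟩ := ih c
      exact ⟨a', by omega, h2⟩
    · refine ⟨a, le_rfl, h.le, ?_⟩
      rw [J_bot h] at hk ⊢
      split_ifs at hk ⊢ <;> omega

lemma card_vis (h : a ≤ b) : ((Ico a (b + 1)).image (st ex ey ξ u)).card ≤ J ex ey ξ u a b + 1 := by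
  induction b, h using Nat.le_induction with
  | base => simp
  | succ b h ih =>
    rw [J_top h, ← insert_Ico_right_eq_Ico_add_one (by omega), image_insert]
    split_ifs with e
    · exact (card_insert_le _ _).trans (by omega)
    · rw [insert_eq_of_mem (not_not.1 e ▸ mem_image_of_mem _ (mem_Ico.2 ⟨h, by omega⟩))]
      exact ih

section slow

variable {B D f ρ i : ℕ} {c : Tor 3 L} (nn : ∀ s, tdist (ex s).1 (ey s).1 ≤ 1) (hT : T = B * D)
  (hF : ¬Fast ex ey D B f ρ c ξ)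
include hT hF

lemma fwd (h : tdist c (st ex ey ξ u (i * D)) ≤ ρ) : J ex ey ξ u (i * D) ((i + 2) * D) ≤ f :=
  not_lt.1 fun e => slow hT hF i h (chn_of (Nat.mul_le_mul_right _ (by omega)) e)

include nn

lemma back (h1 : i * D ≤ k) (h2 : k ≤ (i + 2) * D) (h : tdist c (st ex ey ξ u k) + f + 1 ≤ ρ) :
    tdist (st ex ey ξ u k) (st ex ey ξ u (i * D)) ≤ f := by
  rw [tdist_comm]
  refine (dist_le nn h1).trans (not_lt.1 fun e => ?_)
  obtain ⟨a, a1, a2, a3⟩ := exists_J h1 (Nat.succ_le_of_lt e)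
  have h3 := dist_le (ξ := ξ) (u := u) nn a2
  have h4 := tdist_triangle c (st ex ey ξ u k) (st ex ey ξ u a)
  rw [tdist_comm] at h3
  exact slow hT hF i (by omega) (Chn.mono (chn_of a2 a3.ge) h2 a1)

end slow

lemma card_win {D : ℕ} (hD : D ≤ T) (a : ℕ) (S : Finset (Fin T)) :
    ((Ico a (a + D)).filter fun k => tm T k ∈ S).card ≤ S.card := by
  refine card_le_card_of_injOn (tm T) (fun k hk => (mem_filter.1 hk).2) fun k hk k' hk' e => ?_
  have h1 := mem_Ico.1 (mem_filter.1 hk).1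
  have h2 := mem_Ico.1 (mem_filter.1 hk').1
  obtain ⟨k, rfl⟩ := Nat.exists_eq_add_of_le h1.1
  obtain ⟨k', rfl⟩ := Nat.exists_eq_add_of_le h2.1
  rw [(tm_add_inj a (by omega) (by omega)).1 e]

end Dt

open Dt in
theorem det : DetStmt := by
  classical
  intro L n T _ _ ex ey p0 E w B θ hW ξ R hC f ρ c hF
  obtain ⟨D, hD⟩ : ∃ D, D = w * E := ⟨_, rfl⟩
  have hT : T = B * D := by rw [hW.hT, hD, mul_assoc]
  rw [← hD] at hF ⊢
  have nn := hW.nn
  have hT0 : 0 < T := Nat.pos_of_ne_zero (NeZero.ne T)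
  have hD0 : 0 < D := Nat.pos_of_mul_pos_left (hT ▸ hT0)
  have hDT : D ≤ T := by rw [hT]; exact Nat.le_mul_of_pos_left _ (by have := hW.hB; omega)
  have lab : ∀ k y, (tm T k, y) ∈ R → (tm T 0, (Fw ex ey ξ k)⁻¹ y) ∈ R := fun k y h => by
    rwa [← Fw_mem hC.2 k, Fw_inv]
  have sti : ∀ k y, st ex ey ξ ((Fw ex ey ξ k)⁻¹ y) k = y.1 := fun k y => by rw [st, Fw_inv]
  refine ⟨fun i k A z h1 h2 h3 => ?_, fun m0 j r x p R' h1 h2 h3 h4 h5 => ?_⟩
  · refine card_le_card_of_injOn (fun y => Fw ex ey ξ (i * D) ((Fw ex ey ξ k)⁻¹ y)) (fun y hy => ?_)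
      fun y _ y' _ e => (Fw ex ey ξ k)⁻¹.injective ((Fw ex ey ξ (i * D)).injective e)
    obtain ⟨a1, a2⟩ := (mem_filter.1 hy).2
    have a3 := tdist_triangle c z y.1
    have a4 := back (u := (Fw ex ey ξ k)⁻¹ y) nn hT hF h1 h2 (by rw [sti]; omega)
    rw [sti] at a4
    refine mem_filter.2 ⟨mem_univ _, ?_, (tdist_triangle _ y.1 _).trans (add_le_add a2 a4)⟩
    rw [← tm_mod hT, Fw_mem hC.2]
    exact lab k y a1
  -- labels of the red slots near `c`
  obtain ⟨X, hX⟩ : ∃ X : ℕ → Finset (Tor 3 L × Fin n), ∀ i u, u ∈ X i ↔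
      (tm T 0, u) ∈ R ∧ tdist c (st ex ey ξ u (i * D)) ≤ ρ :=
    ⟨fun i => univ.filter fun u => (tm T 0, u) ∈ R ∧ tdist c (st ex ey ξ u (i * D)) ≤ ρ, by simp⟩
  have x1 : ∀ i, (X i).card ≤ m0 := fun i => by
    refine le_trans (card_le_card_of_injOn (Fw ex ey ξ (i * D)) (fun u hu => ?_)
      (Fw ex ey ξ (i * D)).injective.injOn) (h1 (i % B) (Nat.mod_lt _ (by have := hW.hB; omega)))
    obtain ⟨a1, a2⟩ := (hX i u).1 hu
    refine mem_filter.2 ⟨mem_univ _, ?_, a2⟩
    rwa [← tm_mod hT, Fw_mem hC.2]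
  have x2 : ∀ i k y, i * D ≤ k → k ≤ (i + 2) * D → (tm T k, y) ∈ R → tdist x y.1 ≤ r + 1 →
      (Fw ex ey ξ k)⁻¹ y ∈ X i := fun i k y a1 a2 a3 a4 => by
    have a5 := tdist_triangle c x y.1
    have a6 := back (u := (Fw ex ey ξ k)⁻¹ y) nn hT hF a1 a2 (by rw [sti]; omega)
    rw [sti] at a6
    exact (hX i _).2 ⟨lab k y a3, (tdist_triangle _ y.1 _).trans (by omega)⟩
  have x3 : ∀ i, ∀ u ∈ X i, J ex ey ξ u (i * D) ((i + 2) * D) ≤ f := fun i u hu =>
    fwd hT hF ((hX i u).1 hu).2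
  have x4 : ∀ i, ∀ u ∈ X i, ((Ico (i * D) ((i + 2) * D + 1)).image (st ex ey ξ u)).card ≤ f + 1 :=
    fun i u hu => (card_vis (Nat.mul_le_mul_right _ (by omega))).trans (by have := x3 i u hu; omega)
  refine ⟨fun s => ?_, fun i => ?_, fun i => ?_⟩
  · refine le_trans (card_le_card_of_injOn (fun y => (Fw ex ey ξ s.val)⁻¹ y) (fun y hy => ?_)
      (Fw ex ey ξ s.val)⁻¹.injective.injOn) (x1 (s.val / D))
    obtain ⟨a1, a2⟩ := (mem_filter.1 hy).2
    have a3 := Nat.lt_div_mul_add (a := s.val) hD0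
    exact x2 _ _ y (Nat.div_mul_le_self _ _) (by rw [add_mul]; omega) (by rw [tm_fin]; exact h4 a1)
      (by omega)
  · have e : (i + 1) * D = i * D + D := by ring
    have e2 : (i + 2) * D = i * D + D + D := by ring
    rw [e]
    refine le_trans (card_le_card (t := ((Ico (i * D) (i * D + D)).filter fun k => tm T k ∈ ({-1} :
      Finset (Fin T))) ∪ (X i).biUnion fun u =>
        ((Ico (i * D) ((i + 2) * D)).filter fun k => st ex ey ξ u (k + 1) ≠ st ex ey ξ u k) ∪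
        ((Ico (i * D) ((i + 2) * D + 1)).image (st ex ey ξ u)).biUnion fun z =>
          (Ico (i * D) (i * D + D)).filter fun k => tm T k ∈
            univ.filter fun s => (ex s).1 = z ∧ (ey s).1 = z ∧ p0 s ≠ 0) fun k hk => ?_) ?_
    · obtain ⟨a1, y, a2, a3⟩ := mem_filter.1 hk
      have a0 := mem_Ico.1 a1
      rcases h5 _ _ a3 with a4 | ⟨a4, a5, a6⟩
      · exact mem_union_left _ (mem_filter.2 ⟨a1, mem_singleton.2 (eq_neg_of_add_eq_zero_left a4)⟩)
      obtain ⟨v, b1, b2⟩ : ∃ v, (v = ex (tm T k) ∨ v = ey (tm T k)) ∧ (tm T k, v) ∈ R :=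
        a6.elim (fun h => ⟨_, Or.inl rfl, h⟩) fun h => ⟨_, Or.inr rfl, h⟩
      have b3 : tdist y.1 v.1 ≤ 1 := by
        have := nn (tm T k)
        rcases a5 with e | e <;> rcases b1 with e' | e' <;> rw [e, e']
        · rw [tdist_self]; omega
        · exact this
        · rwa [tdist_comm]
        · rw [tdist_self]; omega
      have b4 := x2 i k v a0.1 (by omega) b2 ((tdist_triangle _ y.1 _).trans (by omega))
      refine mem_union_right _ (mem_biUnion.2 ⟨_, b4, ?_⟩)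
      by_cases b5 : (ex (tm T k)).1 = (ey (tm T k)).1
      · refine mem_union_right _ (mem_biUnion.2 ⟨v.1, mem_image.2 ⟨k, mem_Ico.2 ⟨a0.1, by omega⟩, sti _ _⟩,
          mem_filter.2 ⟨a1, mem_filter.2 ⟨mem_univ _, ?_, ?_, fun h => hC.1 ?_⟩⟩⟩)
        · rcases b1 with e | e <;> rw [e]
          exact b5
        · rcases b1 with e | e <;> rw [e]
          exact b5.symm
        · exact prod_eq_zero (mem_univ (tm T k)) (by rw [wb, if_pos a4, h])
      · refine mem_union_left _ (mem_filter.2 ⟨mem_Ico.2 ⟨a0.1, by omega⟩, ?_⟩)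
        rw [sti, st, Fw_succ, Fw_inv, sg, if_pos a4]
        rcases b1 with e | e <;> rw [e]
        · rw [swap_apply_left]; exact Ne.symm b5
        · rw [swap_apply_right]; exact b5
    · refine (card_union_le _ _).trans (le_trans (add_le_add (card_win hDT _ _)
        (card_biUnion_le_card_mul _ _ (f + (f + 1) * n ^ 2) fun u hu => ?_)) ?_)
      · refine (card_union_le _ _).trans (add_le_add ?_ ((card_biUnion_le_card_mul _ _ (n ^ 2)
          fun z _ => (card_win hDT _ _).trans (hW.few z)).trans (Nat.mul_le_mul_right _ (x4 i u hu))))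
        rw [card_filter]
        exact x3 i u hu
      · rw [card_singleton, add_comm]
        refine le_trans (Nat.add_le_add_right ?_ 1) h3
        rw [mul_assoc]
        exact Nat.mul_le_mul (x1 i) (by nlinarith)
  · refine le_trans (card_le_card (t := (X i).biUnion fun u =>
      ((Ico (i * D) ((i + 2) * D + 1)).image (st ex ey ξ u)) ×ˢ univ) fun y hy => ?_) ?_
    · simp only [mem_filter] at hy
      obtain ⟨-, a1, k, a2, a3⟩ := hy
      have a0 := mem_Ico.1 a2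
      exact mem_biUnion.2 ⟨_, x2 i k y a0.1 a0.2.le (h4 a3) (by omega), mem_product.2
        ⟨mem_image.2 ⟨k, mem_Ico.2 ⟨a0.1, by omega⟩, sti _ _⟩, mem_univ _⟩⟩
    · refine (card_biUnion_le_card_mul _ _ ((f + 1) * (n ^ 2 + 1)) fun u hu => ?_).trans ?_
      · rw [card_product, card_univ, Fintype.card_fin]
        exact Nat.mul_le_mul (x4 i u hu) (by nlinarith)
      · refine le_trans ?_ (le_trans (Nat.le_succ _) h3)
        rw [mul_assoc]
        exact Nat.mul_le_mul_right _ (x1 i)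

end Crest.Agent.N337.RR
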