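import Crest.Agent.N337.R.Defs

/-!
# Row 337, RARE: the point families (helper19)
-/

set_option autoImplicit false

namespace Crest.Agent.N337.RR

open Finset Free KV Geo G1

namespace PtP

variable {T : ℕ} [NeZero T]

theorem lag_tm (c : ℕ) {m : ℕ} (h0 : 0 < m) (hm : m ≤ T) : lag (tm T c) (tm T (c + m)) = m := by
  rcases hm.eq_or_lt with rfl | hm
  · rw [lag, if_pos (by rw [add_comm, tm_add_self])]
  · have h1 : tm T (c + m) ≠ tm T c := fun h =>
      h0.ne' ((tm_add_inj c hm (NeZero.pos T)).1 h)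
    have h2 : tm T (c + m) = tm T c + tm T m := Fin.ext (by simp [tm_val, Fin.val_add])
    rw [lag, if_neg h1, h2, add_sub_cancel_left, tm_val_of_lt hm]

theorem lag_ge (c : ℕ) {d k b b' : ℕ} (hd : 0 < d) (hk : 2 * (k * d) ≤ T) (hb : b < k)
    (hb' : b' < k) : d ≤ lag (tm T (c + b * d)) (tm T (c + b' * d)) := by
  have h1 : (b + 1) * d ≤ k * d := Nat.mul_le_mul_right d hb
  have h2 : (b' + 1) * d ≤ k * d := Nat.mul_le_mul_right d hb'
  rw [add_one_mul] at h1 h2
  rcases lt_or_ge b b' with h | h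
  · have h3 : (b + 1) * d ≤ b' * d := Nat.mul_le_mul_right d h
    rw [add_one_mul] at h3
    rw [show c + b' * d = c + b * d + (b' * d - b * d) by omega, lag_tm _ (by omega) (by omega)]
    omega
  · have h3 : b' * d ≤ b * d := Nat.mul_le_mul_right d h
    rw [← tm_add_self (c + b' * d), show T + (c + b' * d) = c + b * d + (T + b' * d - b * d) by omega,
      lag_tm _ (by omega) (by omega)]
    omega

end PtP

theorem pt : PtStmt := by
  classical
  intro L n T _ _ D B D' i k h ρ A x hT hD' hB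
  have hD : 0 < D := Nat.pos_of_ne_zero fun e => NeZero.ne T (by rw [hT, e, mul_zero])
  have hd : 0 < D' * D := by positivity
  have hk : 2 * (k * (D' * D)) ≤ T := by
    rw [hT, ← mul_assoc k, ← mul_assoc]
    exact Nat.mul_le_mul_right D hB
  have cb : ∀ (u : Tor 3 L) (a : ℕ), (bl u a).card ≤ (2 * a + 1) ^ 3 := fun u a => by
    exact_mod_cast card_bl u a
  let τ : Fin k → Fin T := fun b => tm T ((i + b * D') * D)
  have hτ : ∀ b, τ b = tm T (i * D + b * (D' * D)) := fun b => by rw [← mul_assoc, ← add_mul]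
  have inj : ∀ b b', τ b = τ b' → b = b' := fun b b' e => by
    have h1 : ∀ b : Fin k, b * (D' * D) < T := fun b => by
      have := Nat.mul_lt_mul_of_lt_of_le b.2 (le_refl (D' * D)) hd
      omega
    rw [hτ, hτ, tm_add_inj _ (h1 b) (h1 b')] at e
    exact Fin.ext (Nat.eq_of_mul_eq_mul_right hd e)
  let P : Finset (Finset (Tor 3 L × Fin n)) :=
    (bl x ρ).biUnion fun z => powersetCard h (bl z A ×ˢ univ)
  have hP : P.card ≤ (2 * ρ + 1) ^ 3 * (n * (2 * A + 1) ^ 3) ^ h := by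
    refine (card_biUnion_le_card_mul _ _ _ fun z _ => ?_).trans (Nat.mul_le_mul_right _ (cb x ρ))
    rw [card_powersetCard, card_product, card_univ, Fintype.card_fin, mul_comm]
    exact (Nat.choose_le_pow _ _).trans (Nat.pow_le_pow_left (Nat.mul_le_mul_left _ (cb z A)) _)
  let X : (Fin k → Finset (Tor 3 L × Fin n)) → Finset (Fin T × (Tor 3 L × Fin n)) :=
    fun Y => univ.biUnion fun b => (Y b).image (Prod.mk (τ b))
  have mX : ∀ Y v, v ∈ X Y ↔ ∃ b, ∃ y ∈ Y b, (τ b, y) = v := fun Y v => by simp [X]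
  refine ⟨(Fintype.piFinset fun _ : Fin k => P).image X, card_image_le.trans ?_, ?_, ?_⟩
  · rw [Fintype.card_piFinset_const]
    exact Nat.pow_le_pow_left hP k
  · intro X' hX
    obtain ⟨Y, hY, rfl⟩ := mem_image.1 hX
    have hY : ∀ b, ∃ z, tdist x z ≤ ρ ∧ Y b ⊆ bl z A ×ˢ univ ∧ (Y b).card = h := fun b => by
      obtain ⟨z, hz, h1⟩ := mem_biUnion.1 (Fintype.mem_piFinset.1 hY b)
      exact ⟨z, mem_bl.1 hz, mem_powersetCard.1 h1⟩
    choose z h1 h2 h3 using hY
    refine ⟨?_, fun v hv => ?_⟩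
    · rw [card_biUnion, sum_congr rfl (g := fun _ => h) fun b _ => by
        rw [card_image_of_injective _ (Prod.mk_right_injective _), h3]]
      · simp [mul_comm]
      · intro b _ b' _ hb
        refine disjoint_left.2 fun v hv hv' => hb (inj b b' ?_)
        obtain ⟨y, -, rfl⟩ := mem_image.1 hv
        obtain ⟨y', -, e⟩ := mem_image.1 hv'
        exact (congrArg Prod.fst e).symm
    · obtain ⟨b, y, hy, rfl⟩ := (mX Y v).1 hv
      refine ⟨(tdist_triangle x (z b) y.1).trans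
        (add_le_add (h1 b) (mem_bl.1 (mem_product.1 (h2 b hy)).1)), ?_, fun u hu => ?_⟩
      · exact (Nat.dvd_mod_iff (hT ▸ dvd_mul_left D B)).2 (dvd_mul_left _ _)
      · obtain ⟨b', y', -, rfl⟩ := (mX Y u).1 hu
        refine ⟨?_, fun e => congrArg τ (Fin.ext (by omega))⟩
        simp only [hτ]
        exact PtP.lag_ge _ hd hk b'.2 b.2
  · intro R hR
    have h1 : ∀ b : Fin k, ∃ Y ∈ P, ∀ y ∈ Y, (τ b, y) ∈ R := fun b => by
      obtain ⟨z, hz, h1⟩ := hR b b.2
      obtain ⟨Y, h2, h3⟩ := exists_subset_card_eq h1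
      refine ⟨Y, mem_biUnion.2 ⟨z, mem_bl.2 hz, mem_powersetCard.2 ⟨fun y hy => ?_, h3⟩⟩,
        fun y hy => (mem_filter.1 (h2 hy)).2.1⟩
      exact mem_product.2 ⟨mem_bl.2 (mem_filter.1 (h2 hy)).2.2, mem_univ _⟩
    choose Y h2 h3 using h1
    refine ⟨X Y, mem_image_of_mem _ (Fintype.mem_piFinset.2 h2), fun v hv => ?_⟩
    obtain ⟨b, y, hy, rfl⟩ := (mX Y v).1 hv
    exact h3 b y hy

end Crest.Agent.N337.RR
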