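import Crest.Agent.N337.R.Defs
import Crest.Agent.N337.A.Fast

/-!
# Row 337, RARE: fast chains are covered by a light family of sets of coins (helper19)
-/

set_option autoImplicit false

namespace Crest.Agent.N337.RR

open Finset Free KV Geo

namespace FastP

theorem sum_biUnion_le {ι α : Type} [DecidableEq α] (I : Finset ι) (F : ι → Finset α) (f : α → ℝ)
    (hf : ∀ a, 0 ≤ f a) : ∑ a ∈ I.biUnion F, f a ≤ ∑ i ∈ I, ∑ a ∈ F i, f a := by
  classical
  induction I using Finset.induction_on with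
  | empty => simp
  | insert i I hi ih =>
    rw [biUnion_insert, sum_insert hi]
    have h1 := sum_union_inter (s₁ := F i) (s₂ := I.biUnion F) (f := f)
    have h2 : 0 ≤ ∑ a ∈ F i ∩ I.biUnion F, f a := sum_nonneg fun a _ => hf a
    linarith

variable {L n T : ℕ} [NeZero T] {ex ey : Fin T → Tor 3 L × Fin n} {p : Fin T → ℝ}
  {E w B : ℕ} {θ : ℝ}

theorem fam (hW : Word ex ey p E w B θ) (hθ : 40 * θ ≤ 1) {t0 ns : ℕ} (hT : ns * E ≤ t0 + T)
    (k : ℕ) : ∀ (t : ℕ) (z : Tor 3 L), t0 ≤ t → t ≤ ns * E → ∃ F : Finset (Finset (Fin T)),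
      (∀ S ∈ F, ∀ s' ∈ S, tdist z (ex s').1 ≤ k ∧ ∃ s, t ≤ s ∧ s < ns * E ∧ s' = tm T s) ∧
      ∑ S ∈ F, ∏ s ∈ S, 6 * p s ≤ Real.exp (40 * θ * (ns - (t / E : ℕ)) - k) ∧
      ∀ ξ, Chn ex ey ξ (ns * E) k t z → ∃ S ∈ F, ∀ s ∈ S, ξ s = true := by
  classical
  have hE : 0 < E := Nat.pos_of_ne_zero fun h => NeZero.ne T (by rw [hW.hT, h, mul_zero])
  have hp : ∀ s, 0 ≤ p s := fun s => (hW.hp s).1
  have h0 : 0 ≤ θ := le_trans (sum_nonneg fun a _ => by split_ifs; exacts [hp _, le_rfl])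
    (hW.rate 0 0)
  have hP : ∀ S : Finset (Fin T), 0 ≤ ∏ s ∈ S, 6 * p s := fun S =>
    prod_nonneg fun s _ => by linarith [hp s]
  induction k with
  | zero =>
    intro t z _ ht
    refine ⟨{∅}, by simp, ?_, fun ξ _ => ⟨∅, by simp, by simp⟩⟩
    have : ((t / E : ℕ) : ℝ) ≤ ns := by exact_mod_cast Nat.div_le_of_le_mul (mul_comm ns E ▸ ht)
    simp only [sum_singleton, prod_empty, Nat.cast_zero, sub_zero]
    exact Real.one_le_exp (mul_nonneg (by linarith) (by linarith))
  | succ k ih =>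
    intro t z ht0 ht
    choose! F hF1 hF2 hF3 using ih
    let ot : ℕ → Tor 3 L := fun s =>
      if (ex (tm T s)).1 = z then (ey (tm T s)).1 else (ex (tm T s)).1
    let c : ℕ → Prop := fun s => (ex (tm T s)).1 ≠ (ey (tm T s)).1 ∧
      ((ex (tm T s)).1 = z ∨ (ey (tm T s)).1 = z)
    set I := (Ico t (ns * E)).filter c with hI
    have mI : ∀ s ∈ I, t ≤ s ∧ s < ns * E ∧ c s := fun s hs => by
      simpa only [hI, mem_filter, mem_Ico, and_assoc] using hs
    have d1 : ∀ s ∈ I, tdist z (ex (tm T s)).1 ≤ 1 ∧ tdist z (ot s) ≤ 1 := fun s hs => by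
      have h1 := hW.nn (tm T s)
      by_cases h : (ex (tm T s)).1 = z
      · simp only [ot, if_pos h]
        rw [h] at h1 ⊢
        exact ⟨by rw [tdist_self]; omega, h1⟩
      · simp only [ot, if_neg h]
        rw [(mI s hs).2.2.2.resolve_left h, tdist_comm] at h1
        exact ⟨h1, h1⟩
    refine ⟨I.biUnion fun s => (F (s + 1) (ot s)).image (insert (tm T s)), ?_, ?_, ?_⟩
    · intro S hS s' hs'
      obtain ⟨s, hs, hS⟩ := mem_biUnion.1 hS
      obtain ⟨S', hS', rfl⟩ := mem_image.1 hS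
      obtain ⟨a1, a2, -⟩ := mI s hs
      rcases mem_insert.1 hs' with rfl | h
      · exact ⟨by have := (d1 s hs).1; omega, s, a1, a2, rfl⟩
      · obtain ⟨b1, r, b2, b3⟩ := hF1 (s + 1) (ot s) (by omega) a2 S' hS' s' h
        exact ⟨by have := (d1 s hs).2; have := tdist_triangle z (ot s) (ex s').1; omega,
          r, by omega, b3⟩
    · set φ : ℕ → ℝ := fun j => Real.exp (40 * θ * (ns - j) - k) with hφ
      have a2 : ∀ s ∈ I, ∑ S ∈ (F (s + 1) (ot s)).image (insert (tm T s)), ∏ s ∈ S, 6 * p s ≤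
          6 * p (tm T s) * φ (s / E) := by
        intro s hs
        obtain ⟨a1, a2, -⟩ := mI s hs
        refine (sum_image_le_of_nonneg fun S _ => hP S).trans ?_
        have hn : ∀ S ∈ F (s + 1) (ot s), tm T s ∉ S := fun S hS h => by
          obtain ⟨-, r, b2, b3, b4⟩ := hF1 (s + 1) (ot s) (by omega) a2 S hS _ h
          rw [show s = t0 + (s - t0) by omega, show r = t0 + (r - t0) by omega,
            tm_add_inj t0 (by omega) (by omega)] at b4
          omega
        rw [sum_congr rfl fun S hS => prod_insert (hn S hS), ← mul_sum]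
        refine mul_le_mul_of_nonneg_left ((hF2 (s + 1) (ot s) (by omega) a2).trans
          (Real.exp_le_exp.2 ?_)) (by linarith [hp (tm T s)])
        have : ((s / E : ℕ) : ℝ) ≤ ((s + 1) / E : ℕ) := by
          exact_mod_cast Nat.div_le_div_right (Nat.le_succ s)
        nlinarith
      refine (sum_biUnion_le _ _ _ hP).trans ((sum_le_sum a2).trans ?_)
      have a3 : ∀ s ∈ I, s / E ∈ Ico (t / E) ns := fun s hs =>
        mem_Ico.2 ⟨Nat.div_le_div_right (mI s hs).1, (Nat.div_lt_iff_lt_mul hE).2 (mI s hs).2.1⟩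
      rw [← sum_fiberwise_of_maps_to a3]
      have a4 : ∀ j ∈ Ico (t / E) ns, ∑ s ∈ I with s / E = j, 6 * p (tm T s) * φ (s / E) ≤
          Real.exp (-1) * (φ j - φ (j + 1)) := by
        intro j _
        have b1 : ∑ s ∈ I with s / E = j, 6 * p (tm T s) * φ (s / E) =
            6 * (∑ s ∈ I with s / E = j, if c s then p (tm T s) else 0) * φ j := by
          rw [mul_sum, sum_mul]
          exact sum_congr rfl fun s hs => by
            rw [(mem_filter.1 hs).2, if_pos (mI s (mem_filter.1 hs).1).2.2]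
        have b2 : (∑ s ∈ I with s / E = j, if c s then p (tm T s) else 0) ≤ θ := by
          refine le_trans (sum_le_sum_of_subset_of_nonneg (t := Ico (j * E) (j * E + E))
            (fun s hs => ?_) fun s _ _ => by split_ifs; exacts [hp _, le_rfl]) ?_
          · rw [← (mem_filter.1 hs).2]
            exact mem_Ico.2 ⟨Nat.div_mul_le_self s E, Nat.lt_div_mul_add hE⟩
          · rw [sum_Ico_eq_sum_range, Nat.add_sub_cancel_left]
            exact hW.rate j z
        have b3 : φ (j + 1) = Real.exp (40 * θ * (ns - j) - k - 40 * θ) := by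
          simp only [hφ]; push_cast; ring_nf
        rw [b1, b3]
        refine le_trans ?_ (A.Fast.step_le h0 hθ _)
        have : 0 < φ j := Real.exp_pos _
        exact mul_le_mul_of_nonneg_right (by linarith) this.le
      refine (sum_le_sum a4).trans ?_
      rw [← mul_sum, A.Fast.tele φ _ ns (Nat.div_le_of_le_mul (mul_comm ns E ▸ ht))]
      have : 0 < φ ns := Real.exp_pos _
      have e : Real.exp (40 * θ * (ns - (t / E : ℕ)) - ((k + 1 : ℕ) : ℝ)) =
          Real.exp (-1) * φ (t / E) := by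
        simp only [hφ]; rw [← Real.exp_add, Nat.cast_add, Nat.cast_one]; ring_nf
      rw [e]
      exact mul_le_mul_of_nonneg_left (by linarith) (Real.exp_pos _).le
    · rintro ξ ⟨s, a1, a2, a3, z', a4, a5, a6⟩
      have e : ot s = z' ∧ c s := by
        rcases a5 with ⟨h1, h2⟩ | ⟨h1, h2⟩
        · exact ⟨by simp only [ot, if_pos h1, h2], by rw [h1, h2]; exact a4.symm, .inl h1⟩
        · exact ⟨by simp only [ot, h2, if_neg a4], by rw [h1, h2]; exact a4, .inr h1⟩
      obtain ⟨S, hS, h⟩ := hF3 (s + 1) z' (by omega) a2 ξ a6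
      refine ⟨insert (tm T s) S, mem_biUnion.2 ⟨s, mem_filter.2 ⟨mem_Ico.2 ⟨a1, a2⟩, e.2⟩,
        mem_image_of_mem _ (e.1 ▸ hS)⟩, fun r hr => ?_⟩
      rcases mem_insert.1 hr with rfl | hr
      exacts [a3, h r hr]

end FastP

theorem fast : FastStmt := by
  classical
  intro L n T _ _ ex ey p E w B θ hW hθ f ρ x
  have hE : 0 < E := Nat.pos_of_ne_zero fun h => NeZero.ne T (by rw [hW.hT, h, mul_zero])
  have hP : ∀ S : Finset (Fin T), 0 ≤ ∏ s ∈ S, 6 * p s := fun S =>
    prod_nonneg fun s _ => by linarith [(hW.hp s).1]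
  have key := fun (i : ℕ) (z : Tor 3 L) => FastP.fam hW hθ (t0 := i * w * E) (ns := (i + 2) * w)
    (by
      have := Nat.mul_le_mul_right (w * E) hW.hB
      rw [hW.hT]
      nlinarith) (f + 1) (i * w * E) z le_rfl (by gcongr; omega)
  choose F h1 h2 h3 using key
  refine ⟨(range B).biUnion fun i => (bl x ρ).biUnion (F i), fun S hS s hs => ?_, ?_, ?_⟩
  · obtain ⟨i, -, hS⟩ := mem_biUnion.1 hS
    obtain ⟨z, hz, hS⟩ := mem_biUnion.1 hS
    have := (h1 i z S hS s hs).1
    have := mem_bl.1 hz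
    have := tdist_triangle x z (ex s).1
    omega
  · have a1 : ∀ i z, ∑ S ∈ F i z, ∏ s ∈ S, 6 * p s ≤ Real.exp (80 * θ * w - f) := fun i z => by
      refine (h2 i z).trans (Real.exp_le_exp.2 ?_)
      rw [Nat.mul_div_cancel _ hE]
      push_cast
      linarith
    refine (FastP.sum_biUnion_le _ _ _ hP).trans ((sum_le_card_nsmul _ _
      ((2 * (ρ : ℝ) + 1) ^ 3 * Real.exp (80 * θ * w - f)) fun i _ => ?_).trans (le_of_eq ?_))
    · refine (FastP.sum_biUnion_le _ _ _ hP).trans ((sum_le_card_nsmul _ _ _ fun z _ =>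
        a1 i z).trans ?_)
      rw [nsmul_eq_mul]
      exact mul_le_mul_of_nonneg_right (by exact_mod_cast card_bl x ρ) (Real.exp_pos _).le
    · rw [card_range, nsmul_eq_mul, mul_assoc (B : ℝ)]
  · rintro ξ ⟨i, hi, z, hz, h⟩
    obtain ⟨S, hS, h⟩ := h3 i z ξ (by rwa [mul_assoc, mul_assoc])
    exact ⟨S, mem_biUnion.2 ⟨i, mem_range.2 hi, mem_biUnion.2 ⟨z, mem_bl.2 hz, hS⟩⟩, h⟩

end Crest.Agent.N337.RR
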