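import Crest.Agent.N337.R.Core1
import Crest.Agent.N337.G1.Core

/-!
# Row 337, RARE (helper4): the environment of `DL.Multi` as an environment of G1
-/

set_option autoImplicit false
set_option linter.unusedSectionVars false

namespace Crest.Agent.N337.RR

open Finset Equiv Crest.MathPhysics.SpinModel Crest.Agent.N337.Rep Free KV G1

section gen
variable {Λ : Type} [Fintype Λ] [DecidableEq Λ] {T : ℕ} [NeZero T] {ex ey : Fin T → Λ}
  {p : Fin T → ℝ} {ξ : Fin T → Bool} {ω : Rep.Env T Λ}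

theorem mem_red {v : Fin T × Λ} : v ∈ red ω ↔ ω v ≠ none := by simp [red]

theorem inv_step (hi : ∀ v, ω (Sg ex ey ξ v) = ω v) (s : Fin T) (x : Λ) :
    ω (s + 1, sg (ex s) (ey s) (ξ s) x) = ω (s, x) := by
  have := hi (s, x); rwa [Sg_apply] at this

theorem th_free (hi : ∀ v, ω (Sg ex ey ξ v) = ω v) {s : Fin T} (h : ω (s, ex s) = ω (s, ey s)) :
    th ex ey p ω s = p s := by
  have h1 : ∀ x, ω (s, swap (ex s) (ey s) x) = ω (s, x) := fun x => by
    rcases eq_or_ne x (ex s) with rfl | a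
    · rw [swap_apply_left, h]
    rcases eq_or_ne x (ey s) with rfl | b
    · rw [swap_apply_right, h]
    · rw [swap_apply_of_ne_of_ne a b]
  have h2 : ∀ b x, ω (s + 1, sg (ex s) (ey s) b x) = ω (s, x) := fun b x => by
    have e := inv_step hi s (sg (ex s) (ey s) (ξ s) (sg (ex s) (ey s) b x))
    rw [sg_sg] at e
    rw [e]
    cases b <;> cases ξ s <;> simp [sg, h1]
  simp [th, wc, h2, wb]

theorem act_of_th (hi : ∀ v, ω (Sg ex ey ξ v) = ω v) {s : Fin T} (h : th ex ey p ω s ≠ 0) {y : Λ}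
    (hy : ω (s, swap (ex s) (ey s) y) ≠ ω (s, y)) : ξ s = true := by
  by_contra hx
  have h1 : ∀ x, ω (s + 1, sg (ex s) (ey s) true x) = ω (s, x) := by
    by_contra h'
    exact h (by simp only [th, wc, if_neg h', zero_div])
  have h2 := inv_step hi s (swap (ex s) (ey s) y)
  have h3 := h1 y
  simp only [Bool.not_eq_true] at hx
  simp only [sg, hx, if_true, Bool.false_eq_true, if_false, Perm.one_apply] at h2 h3
  exact hy (h2.symm.trans h3)

/-- the Green function of `DL.Multi` is dominated by the one of G1 at fugacity `≥ 1 / 2`. -/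
theorem Ge_le (hp : ∀ s, 0 ≤ p s ∧ p s ≤ 1) {y Y : ℝ} (h0 : 0 ≤ y) (h1 : y ≤ Y) (h2 : 1 / 2 ≤ Y)
    (h3 : Y < 1) (ω : Rep.Env T Λ) {u : Fin T × Λ} (hu : ω u = none) :
    ∃ g, Grn ex ey (th ex ey p ω) (zg (Top.bt Y) ω) u Y g ∧
      ∀ v, DL.Ge ex ey p (Top.bt y) ω v u ≤ 2 * (g v - if v = u then 1 else 0) := by
  have hY : 0 ≤ Y := h0.trans h1
  have key : ∀ {z : ℝ}, 0 ≤ z → z ≤ Y → ∀ w, _ := fun {z} a b w =>
    grn_inv (ex := ex) (ey := ey) (th_mem ex ey hp ω) (DL.zg_mem (bt_mem a (b.trans_lt h3)) ω)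
      ⟨hY, h3⟩ ⟨0, fun x => by
        unfold zg; split_ifs
        · simpa [Top.bt] using b
        · exact hY⟩ w
  refine ⟨_, (key hY le_rfl u).2, fun v => ?_⟩
  set K := LY0.Kb ex ey (th ex ey p ω)
  set A := 1 - K * Matrix.diagonal (zg (Top.bt Y) ω)
  have e1 : DL.Ge ex ey p (Top.bt y) ω v u ≤ (A⁻¹ * K) v u := by
    unfold DL.Ge WN.Gi
    rw [Matrix.mul_apply, Matrix.mul_apply]
    refine sum_le_sum fun w _ => mul_le_mul_of_nonneg_right
      ((key h0 h1 w).2.mono (key hY le_rfl w).2 (fun v => ?_) v)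
      (LY0.Kb_nonneg ex ey (th_mem ex ey hp ω) _ _)
    unfold zg Top.bt; split_ifs
    exacts [h1, le_rfl, le_rfl]
  have e2 : A⁻¹ * K * Matrix.diagonal (zg (Top.bt Y) ω) = A⁻¹ - 1 := by
    have h := Matrix.nonsing_inv_mul A (Ne.isUnit (key hY le_rfl u).1)
    rw [Matrix.mul_sub, Matrix.mul_one, ← Matrix.mul_assoc] at h
    exact eq_sub_of_add_eq' (sub_eq_iff_eq_add.1 h).symm
  have e3 := congrFun (congrFun e2 v) u
  rw [Matrix.mul_diagonal, Matrix.sub_apply, Matrix.one_apply] at e3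
  have e4 : 0 ≤ (A⁻¹ * K) v u := by
    rw [Matrix.mul_apply]
    exact sum_nonneg fun w _ => mul_nonneg ((key hY le_rfl w).2.nn v)
      (LY0.Kb_nonneg ex ey (th_mem ex ey hp ω) _ _)
  have e5 : 1 / 2 ≤ zg (Top.bt Y) ω u := by
    unfold zg Top.bt; rw [if_pos hu]; split_ifs
    exacts [h2, by norm_num]
  rw [← e3]
  nlinarith

end gen

variable {L n T : ℕ} [NeZero L] [NeZero T] {ex ey : Fin T → Tor 3 L × Fin n} {p : Fin T → ℝ}
  {ξ : Fin T → Bool} {ω : Rep.Env T (Tor 3 L × Fin n)}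

theorem env_red (hn : ∀ s, tdist (ex s).1 (ey s).1 ≤ 1) (hi : ∀ v, ω (Sg ex ey ξ v) = ω v)
    (Y : ℝ) : G1.Env ex ey (th ex ey p ω) p (zg (Top.bt Y) ω) (fun s => if s = 0 then Y else 1)
      (red ω) ∅ where
  nn s _ := hn s
  bR v hv := if_neg (mem_red.1 hv)
  bZ v hv := absurd hv (notMem_empty _)
  bf v hv _ := if_pos (by simpa [red] using hv)
  free s h1 h2 := Or.inl (th_free hi (by
    rw [mem_red, not_not] at h1 h2
    rw [h1, h2]))

theorem ch_red (hi : ∀ v, ω (Sg ex ey ξ v) = ω v) (s : Fin T) (y : Tor 3 L × Fin n)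
    (h : Ch ex ey (th ex ey p ω) (red ω) s y) : s + 1 = 0 ∨
      (ξ s = true ∧ (y = ex s ∨ y = ey s) ∧ ((s, ex s) ∈ red ω ∨ (s, ey s) ∈ red ω)) := by
  right
  rcases h with h | ⟨h1, h2, h3, h4⟩
  · have e := inv_step hi s (sg (ex s) (ey s) (ξ s) y)
    rw [sg_sg] at e
    rw [mem_red, mem_red, e] at h
    have hx : ξ s = true := by
      by_contra hx
      simp only [Bool.not_eq_true] at hx
      simp [sg, hx] at h
    simp only [sg, hx, if_true] at h
    refine ⟨hx, ?_⟩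
    rw [mem_red, mem_red]
    rcases eq_or_ne y (ex s) with rfl | a
    · rw [swap_apply_left] at h
      exact ⟨Or.inl rfl, by tauto⟩
    rcases eq_or_ne y (ey s) with rfl | b
    · rw [swap_apply_right] at h
      exact ⟨Or.inr rfl, by tauto⟩
    · rw [swap_apply_of_ne_of_ne a b] at h
      exact absurd Iff.rfl h
  · refine ⟨act_of_th hi h3 (y := y) fun e => h4 ?_, h1, ?_⟩
    · rwa [mem_red, e, ← mem_red]
    · rcases h1 with rfl | rfl
      exacts [Or.inl h2, Or.inr h2]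

end Crest.Agent.N337.RR
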