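import Crest.Agent.N337.R.Defs
import Crest.Agent.N337.Top.BAlg

/-!
# Row 337, RARE: the annealed Green function (`AnnStmt`)
-/

set_option autoImplicit false
set_option linter.unusedSectionVars false

namespace Crest.Agent.N337.RR

open Finset Equiv Function Matrix Crest.Agent.N337.Rep Crest.Agent.N337.LY0

namespace Ann

section gen
variable {S : Type} [Fintype S] [DecidableEq S]

/-- a column-substochastic matrix without eigenvalue one is transient. -/
lemma tr_of_det {P : Matrix S S ℝ} (h0 : ∀ i j, 0 ≤ P i j) (hc : ∀ j, ∑ i, P i j ≤ 1)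
    (hd : (1 - P).det ≠ 0) : ZM.Tr P := by
  refine ⟨h0, fun h hh hle => ?_⟩
  have h1 : ∑ i, (P *ᵥ h) i ≤ ∑ i, h i := by
    simp only [mulVec, dotProduct]
    rw [sum_comm]
    refine sum_le_sum fun j _ => ?_
    rw [← sum_mul]
    exact mul_le_of_le_one_left (hh j) (hc j)
  have h2 : ∀ i ∈ (univ : Finset S), h i = (P *ᵥ h) i :=
    (sum_eq_sum_iff_of_le fun i _ => hle i).1 (le_antisymm (sum_le_sum fun i _ => hle i) h1)
  have h3 : (1 - P) *ᵥ h = 0 := by
    funext i
    rw [sub_mulVec, one_mulVec, Pi.sub_apply, ← h2 i (mem_univ i), sub_self]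
    rfl
  exact fun i => congrFun (eq_zero_of_mulVec_eq_zero hd h3) i

lemma cof (K : Matrix S S ℝ) (b : S → ℝ) (hN : (1 - K * diagonal b).det ≠ 0) (v : S) :
    (1 - K * diagonal b).det * (1 - K * diagonal b)⁻¹ v v =
      (1 - K * diagonal (update b v 0)).det := by
  have e : (1 - K * diagonal b).updateCol v (Pi.single v 1) = 1 - K * diagonal (update b v 0) := by
    ext i j
    by_cases hj : j = v
    · subst hj
      simp [one_apply, Pi.single_apply]
    · simp [updateCol_ne hj, update_of_ne hj]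
  rw [← e, ← adj_col, Matrix.inv_def, Ring.inverse_eq_inv', Matrix.smul_apply, smul_eq_mul,
    mul_inv_cancel_left₀ hN]

/-- weight of one loop in a given state. -/
noncomputable def lwt (π : Perm S) (b : S → ℝ) (g : Orb π) (k : Option Bool) : ℝ :=
  if k = none then 1 - pr π b g else pr π b g

lemma W_comp (π : Perm S) (b : S → ℝ) (c : Orb π → Option Bool) :
    zr b (c ∘ o π) * (gm π b (c ∘ o π)).det = ∏ g, lwt π b g (c g) := by
  rw [zr_comp, det_gm, ← prod_mul_distrib]
  refine prod_congr rfl fun g _ => ?_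
  rw [pr_zg, lwt]
  split_ifs <;> simp

lemma Y_comp (π : Perm S) (b : S → ℝ) (c : Orb π → Option Bool) (v : S)
    (hv : c (o π v) = none) :
    zr b (c ∘ o π) * ∏ g, (1 - pr π (update (zg b (c ∘ o π)) v 0) g) =
      ∏ g ∈ univ.erase (o π v), lwt π b g (c g) := by
  rw [zr_comp, ← prod_mul_distrib, ← mul_prod_erase _ _ (mem_univ (o π v)), if_pos hv,
    pr_zero (v := v) rfl (update_self ..), sub_zero, one_mul, one_mul]
  refine prod_congr rfl fun g hg => ?_
  have e : pr π (update (zg b (c ∘ o π)) v 0) g = pr π (zg b (c ∘ o π)) g :=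
    pr_congr fun w hw => update_of_ne (fun h => (mem_erase.1 hg).1 (by rw [← hw, h])) _ _
  rw [e, pr_zg, lwt]
  split_ifs <;> simp

open Classical in
lemma key (π : Perm S) {b : S → ℝ} (hb : ∀ v, 0 ≤ b v ∧ b v ≤ 1) (B : Finset S → Prop)
    (hB : ∀ R R', R ⊆ R' → B R → B R') (v : S) :
    ∑ ω : S → Option Bool, (if (∀ w, ω (π w) = ω w) ∧ B (univ.filter fun w => ω w ≠ none) ∧
        ω v = none then zr b ω * ∏ g, (1 - pr π (update (zg b ω) v 0) g) else 0) ≤
      ∑ ω : S → Option Bool, if (∀ w, ω (π w) = ω w) ∧ B (univ.filter fun w => ω w ≠ none) then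
        zr b ω * (gm π b ω).det else 0 := by
  simp only [ite_and]
  rw [sum_inv, sum_inv]
  set g0 := o π v
  set f : (Orb π → Option Bool) → ℝ := fun c =>
    if B (univ.filter fun w => (c ∘ o π) w ≠ none) then ∏ g, lwt π b g (c g) else 0 with hf
  have hl : ∀ g k, 0 ≤ lwt π b g k := fun g k => by
    unfold lwt
    split_ifs
    exacts [sub_nonneg.2 (pr_le_one (fun v => (hb v).1) (fun v => (hb v).2) g),
      pr_nonneg (fun v => (hb v).1) g]
  have hf0 : ∀ c, 0 ≤ f c := fun c => by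
    simp only [hf]
    split_ifs
    exacts [prod_nonneg fun g _ => hl g _, le_rfl]
  simp only [W_comp]
  change _ ≤ ∑ c, f c
  have h1 : ∀ c : Orb π → Option Bool,
      (if B (univ.filter fun w => (c ∘ o π) w ≠ none) then if (c ∘ o π) v = none then
        zr b (c ∘ o π) * ∏ g, (1 - pr π (update (zg b (c ∘ o π)) v 0) g) else 0 else 0) ≤
      if c g0 = none then f c + f (update c g0 (some true)) else 0 := by
    intro c
    by_cases hc : c g0 = none
    · rw [if_pos hc, if_pos (show (c ∘ o π) v = none from hc)]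
      split_ifs with h
      · have h' : B (univ.filter fun w => (update c g0 (some true) ∘ o π) w ≠ none) := by
          refine hB _ _ (fun w hw => ?_) h
          simp only [mem_filter, mem_univ, true_and, Function.comp_apply] at hw ⊢
          by_cases e : o π w = g0
          · rw [e, update_self]; simp
          · rwa [update_of_ne e]
        simp only [hf]
        rw [if_pos h, if_pos h', Y_comp π b c v hc, ← mul_prod_erase _ _ (mem_univ g0),
          ← mul_prod_erase _ (fun g => lwt π b g (update c g0 (some true) g)) (mem_univ g0),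
          update_self, hc, prod_congr rfl fun g hg =>
            (by rw [update_of_ne (mem_erase.1 hg).1] :
              lwt π b g (update c g0 (some true) g) = lwt π b g (c g)), ← add_mul]
        simp [lwt, g0]
      · exact add_nonneg (hf0 _) (hf0 _)
    · rw [if_neg hc, if_neg (show ¬ (c ∘ o π) v = none from hc), ite_self]
  refine (sum_le_sum fun c _ => h1 c).trans ?_
  rw [← sum_filter, sum_add_distrib, ← sum_filter_add_sum_filter_not univ (fun c => c g0 = none) f]
  refine add_le_add le_rfl ?_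
  rw [← sum_image (s := univ.filter fun c : Orb π → Option Bool => c g0 = none)
    (g := fun c => update c g0 (some true)) (f := f)]
  · refine sum_le_sum_of_subset_of_nonneg (fun c hc => ?_) fun c _ _ => hf0 c
    obtain ⟨c', -, rfl⟩ := mem_image.1 hc
    simp
  · intro c hc c' hc' h
    funext g
    by_cases e : g = g0
    · rw [e, (mem_filter.1 hc).2, (mem_filter.1 hc').2]
    · have := congrFun h g
      simpa only [update_of_ne e] using this

end gen

variable {Λ : Type} [Fintype Λ] [DecidableEq Λ] {T : ℕ} [NeZero T] (ex ey : Fin T → Λ)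
  {p : Fin T → ℝ} {b : Fin T × Λ → ℝ}

lemma Kb_col (p : Fin T → ℝ) (c : Fin T × Λ) : ∑ a, Kb ex ey p a c = 1 := by
  obtain ⟨s, x⟩ := c
  rw [Fintype.sum_prod_type]
  simp [Kb_apply, sum_add_distrib]

lemma GK_le (hp : ∀ s, 0 ≤ p s ∧ p s ≤ 1) (hb : ∀ v, 0 ≤ b v ∧ b v ≤ 1)
    (hb0 : ∀ x, b (0, x) < 1) (v u : Fin T × Λ) :
    (WN.Gi ex ey p b * Kb ex ey p) v u ≤ WN.Gi ex ey p b v v := by
  have hc : ∀ j, ∑ i, (Kb ex ey p * diagonal b) i j ≤ 1 := fun j => by
    simp only [mul_diagonal]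
    rw [← sum_mul, Kb_col, one_mul]
    exact (hb j).2
  have hT : ZM.Tr (Kb ex ey p * diagonal b) :=
    tr_of_det (fun i j => by
      rw [mul_diagonal]; exact mul_nonneg (Kb_nonneg ex ey hp i j) (hb j).1) hc
      (DL.Zg_pos ex ey hp hb hb0).ne'
  rw [mul_apply]
  calc ∑ w, WN.Gi ex ey p b v w * Kb ex ey p w u
      ≤ ∑ w, WN.Gi ex ey p b v v * Kb ex ey p w u :=
        sum_le_sum fun w _ => mul_le_mul_of_nonneg_right (hT.row_le hc v w) (Kb_nonneg ex ey hp w u)
    _ = _ := by rw [← mul_sum, Kb_col, mul_one]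

lemma nv_Gi (hp : ∀ s, 0 ≤ p s ∧ p s ≤ 1) (hb : ∀ v, 0 ≤ b v ∧ b v ≤ 1)
    (hb0 : ∀ x, b (0, x) < 1) (ω : Rep.Env T Λ) (v : Fin T × Λ) :
    DL.nv ex ey p b ω * WN.Gi ex ey (th ex ey p ω) (zg b ω) v v = ∑ ξ, Pw p ξ *
      if ∀ w, ω (Sg ex ey ξ w) = ω w then
        zr b ω * ∏ g, (1 - pr (Sg ex ey ξ) (update (zg b ω) v 0) g) else 0 := by
  have hZ := (DL.Zg_pos ex ey (th_mem ex ey hp ω) (DL.zg_mem hb ω) (DL.zg_lt hb0 ω)).ne'
  rw [DL.cond_env ex ey hp, DL.nv, mul_assoc, WN.Zg, WN.Gi, cof _ _ hZ, ← avg_green]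
  simp only [mul_sum]
  exact sum_congr rfl fun ξ _ => by ring

end Ann

open Classical in
theorem ann : AnnStmt := by
  intro Λ _ _ T _ ex ey p b hp hb hb0 Bad hBad v u γ hγ H
  have hY : ∀ ξ (ω : Rep.Env T Λ),
      0 ≤ zr b ω * ∏ g, (1 - pr (Sg ex ey ξ) (update (zg b ω) v 0) g) := fun ξ ω => by
    refine mul_nonneg (zr_nonneg (fun v => (hb v).1) ω) (prod_nonneg fun g _ => sub_nonneg.2 ?_)
    refine pr_le_one (fun w => ?_) (fun w => ?_) g <;> rw [update_apply] <;> split_ifs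
    exacts [le_rfl, (DL.zg_mem hb ω w).1, zero_le_one, (DL.zg_mem hb ω w).2]
  have h1 : ∀ ω : Rep.Env T Λ,
      DL.nv ex ey p b ω * (if ω v = none ∧ ω u = none then DL.Ge ex ey p b ω v u else 0) ≤
        γ * DL.nv ex ey p b ω + ∑ ξ, Pw p ξ *
          if (∀ w, ω (Sg ex ey ξ w) = ω w) ∧ Bad ξ (red ω) ∧ ω v = none then
            zr b ω * ∏ g, (1 - pr (Sg ex ey ξ) (update (zg b ω) v 0) g) else 0 := by
    intro ω
    have hn := DL.nv_nonneg ex ey hp hb hb0 ω
    have h2 : 0 ≤ ∑ ξ, Pw p ξ *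
        if (∀ w, ω (Sg ex ey ξ w) = ω w) ∧ Bad ξ (red ω) ∧ ω v = none then
          zr b ω * ∏ g, (1 - pr (Sg ex ey ξ) (update (zg b ω) v 0) g) else 0 :=
      sum_nonneg fun ξ _ => mul_nonneg (Pw_nonneg hp ξ) (by split_ifs; exacts [hY ξ ω, le_rfl])
    split_ifs with h
    · by_cases hG : ∃ ξ, Pw p ξ ≠ 0 ∧ (∀ w, ω (Sg ex ey ξ w) = ω w) ∧ ¬ Bad ξ (red ω)
      · obtain ⟨ξ, a1, a2, a3⟩ := hG
        have := mul_le_mul_of_nonneg_left (H ξ ω a1 a2 a3 h.1 h.2) hn
        linarith
      · have h3 := mul_le_mul_of_nonneg_left (Ann.GK_le ex ey (th_mem ex ey hp ω) (DL.zg_mem hb ω)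
          (DL.zg_lt hb0 ω) v u) hn
        rw [Ann.nv_Gi ex ey hp hb hb0] at h3
        refine h3.trans (le_add_of_nonneg_of_le (mul_nonneg hγ hn) (le_of_eq ?_))
        refine sum_congr rfl fun ξ _ => ?_
        by_cases a1 : Pw p ξ = 0
        · rw [a1, zero_mul, zero_mul]
        · congr 1
          refine if_congr ⟨fun a2 => ⟨a2, ?_, h.1⟩, fun a2 => a2.1⟩ rfl rfl
          by_contra a3
          exact hG ⟨ξ, a1, a2, a3⟩
    · rw [mul_zero]
      exact add_nonneg (mul_nonneg hγ hn) h2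
  refine (sum_le_sum fun ω _ => h1 ω).trans ?_
  rw [sum_add_distrib, ← mul_sum, DL.sum_nv ex ey hp, sum_comm]
  refine add_le_add le_rfl (sum_le_sum fun ξ _ => ?_)
  rw [← mul_sum]
  refine mul_le_mul_of_nonneg_left ?_ (Pw_nonneg hp ξ)
  convert Ann.key (Sg ex ey ξ) hb (Bad ξ) (hBad ξ) v using 3 <;> rfl

end Crest.Agent.N337.RR
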