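import Crest.Agent.N337.R.Defs
import Crest.Agent.N337.A.Bas

/-!
# Row 337, RARE: elementary properties of the weights of (coins, red set) (helper64)
-/

set_option autoImplicit false
set_option linter.unusedSectionVars false

namespace Crest.Agent.N337.RR

open Finset Equiv Matrix Crest.Agent.N337.Rep

namespace BasAux

variable {Λ : Type} [Fintype Λ] [DecidableEq Λ] {T : ℕ} [NeZero T] (ex ey : Fin T → Λ)
  {p : Fin T → ℝ} {b : Fin T × Λ → ℝ}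

lemma mem_red {ω : Rep.Env T Λ} {v : Fin T × Λ} : v ∈ red ω ↔ ω v ≠ none := by simp [red]

lemma cmp {ξ : Fin T → Bool} {ω : Rep.Env T Λ} (h : Pw p ξ ≠ 0)
    (hω : ∀ v, ω (Sg ex ey ξ v) = ω v) : Cmp ex ey p ξ (red ω) :=
  ⟨h, fun v => by rw [mem_red, mem_red, hω]⟩

lemma zr_bt (y : ℝ) (ω : Rep.Env T Λ) : zr (Top.bt y) ω = y ^ n0 (red ω) := by
  rw [n0, ← A.Bs.prod_time0 (fun v => v ∈ red ω) y, zr]
  refine prod_congr rfl fun v _ => ?_
  by_cases h : ω v = none <;> simp [h, mem_red, Top.bt]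

lemma n0_pos {ξ : Fin T → Bool} {ω : Rep.Env T Λ} (hω : ∀ v, ω (Sg ex ey ξ v) = ω v)
    (h : (red ω).Nonempty) : 0 < n0 (red ω) := by
  obtain ⟨v, hv⟩ := h
  obtain ⟨x, hx⟩ := exists_time ex ey ξ (o (Sg ex ey ξ) v) 0
  exact card_pos.2 ⟨x, mem_filter.2 ⟨mem_univ _, by
    rwa [mem_red, A.Bs.inv_eq hω hx, ← mem_red]⟩⟩

lemma bt_mem {y : ℝ} (h0 : 0 ≤ y) (h1 : y ≤ 1) (v : Fin T × Λ) :
    0 ≤ Top.bt y v ∧ Top.bt y v ≤ 1 := by
  unfold Top.bt; split_ifs; exacts [⟨h0, h1⟩, ⟨zero_le_one, le_rfl⟩]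

lemma bt_mono {y y' : ℝ} (h : y' ≤ y) (v : Fin T × Λ) : Top.bt y' v ≤ Top.bt y v := by
  unfold Top.bt; split_ifs; exacts [h, le_rfl]

lemma cont_bt (v : Fin T × Λ) : Continuous fun y => Top.bt y v := by
  unfold Top.bt; split_ifs; exacts [continuous_id, continuous_const]

lemma tw_nonneg (hb : ∀ v, 0 ≤ b v ∧ b v ≤ 1) (ξ : Fin T → Bool) (ω : Rep.Env T Λ) :
    0 ≤ zr b ω * (gm (Sg ex ey ξ) b ω).det :=
  mul_nonneg (zr_nonneg (fun v => (hb v).1) ω) (det_gm_nonneg (fun v => (hb v).1) (fun v => (hb v).2) _ ω)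

lemma cont_WR (E : (Fin T → Bool) → Finset (Fin T × Λ) → Prop) :
    Continuous fun y => WR ex ey p (Top.bt y) E := by
  refine continuous_finsetSum _ fun ξ _ => continuous_const.mul
    (continuous_finsetSum _ fun ω _ => ?_)
  split_ifs
  · simp only [zr_bt, det_gm]
    refine (continuous_pow _).mul (continuous_finsetProd _ fun g _ => continuous_const.sub
      (continuous_finsetProd _ fun v _ => ?_))
    unfold zg
    split_ifs
    exacts [cont_bt v, continuous_const]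
  · exact continuous_const

lemma sum_tw (b : Fin T × Λ → ℝ) (ξ : Fin T → Bool) : ∑ ω : Rep.Env T Λ,
    (if ∀ v, ω (Sg ex ey ξ v) = ω v then zr b ω * (gm (Sg ex ey ξ) b ω).det else 0) =
      A.lw ex ey b ξ := by
  rw [sum0_eq, sumD_eq, A.lw]

lemma WR_coin (Q : (Fin T → Bool) → Prop) [DecidablePred Q] :
    WR ex ey p b (fun ξ _ => Q ξ) = ∑ ξ, Pw p ξ * A.lw ex ey b ξ * if Q ξ then 1 else 0 := by
  refine sum_congr rfl fun ξ _ => ?_
  rw [mul_assoc, ← sum_tw]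
  by_cases h : Q ξ <;> simp [h]

lemma WR_true : WR ex ey p b (fun _ _ => True) = DL.Zt ex ey p b := by
  rw [WR_coin ex ey fun _ => True]
  simp [DL.Zt, A.lw]

lemma WR_nonneg (hp : ∀ s, 0 ≤ p s ∧ p s ≤ 1) (hb : ∀ v, 0 ≤ b v ∧ b v ≤ 1)
    (E : (Fin T → Bool) → Finset (Fin T × Λ) → Prop) : 0 ≤ WR ex ey p b E :=
  sum_nonneg fun ξ _ => mul_nonneg (Pw_nonneg hp ξ) (sum_nonneg fun ω _ => by
    split_ifs; exacts [tw_nonneg ex ey hb ξ ω, le_rfl])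

lemma WR_union (hp : ∀ s, 0 ≤ p s ∧ p s ≤ 1) (hb : ∀ v, 0 ≤ b v ∧ b v ≤ 1) {ι : Type}
    (I : Finset ι) (E : (Fin T → Bool) → Finset (Fin T × Λ) → Prop)
    (E' : ι → (Fin T → Bool) → Finset (Fin T × Λ) → Prop)
    (h : ∀ ξ R, Cmp ex ey p ξ R → E ξ R → ∃ i ∈ I, E' i ξ R) :
    WR ex ey p b E ≤ ∑ i ∈ I, WR ex ey p b (E' i) := by
  unfold WR
  rw [sum_comm]
  refine sum_le_sum fun ξ _ => ?_
  rw [← mul_sum, sum_comm]
  by_cases h0 : Pw p ξ = 0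
  · simp [h0]
  refine mul_le_mul_of_nonneg_left (sum_le_sum fun ω _ => ?_) (Pw_nonneg hp ξ)
  have hn := tw_nonneg ex ey hb ξ ω
  split_ifs with h1
  · obtain ⟨i, hi, h2⟩ := h ξ _ (cmp ex ey h0 h1.1) h1.2
    refine le_trans (le_of_eq ?_) (single_le_sum (fun i hi => ?_) hi)
    · rw [if_pos ⟨h1.1, h2⟩]
    · split_ifs; exacts [hn, le_rfl]
  · refine sum_nonneg fun i _ => ?_
    split_ifs; exacts [hn, le_rfl]

lemma WR_zero (E : (Fin T → Bool) → Finset (Fin T × Λ) → Prop)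
    (h : ∀ ξ R, Cmp ex ey p ξ R → E ξ R → R.Nonempty) : WR ex ey p (Top.bt 0) E = 0 := by
  refine sum_eq_zero fun ξ _ => ?_
  by_cases h0 : Pw p ξ = 0
  · rw [h0, zero_mul]
  rw [sum_eq_zero, mul_zero]
  intro ω _
  split_ifs with h1
  · rw [zr_bt, zero_pow (n0_pos ex ey h1.1 (h ξ _ (cmp ex ey h0 h1.1) h1.2)).ne', zero_mul]
  · rfl

lemma pr_mono {S : Type} [Fintype S] [DecidableEq S] {π : Perm S} {a a' : S → ℝ}
    (h0 : ∀ v, 0 ≤ a v) (h : ∀ v, a v ≤ a' v) (g : Orb π) : pr π a g ≤ pr π a' g :=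
  prod_le_prod (fun v _ => h0 v) fun v _ => h v

lemma Zt_mono (hp : ∀ s, 0 ≤ p s ∧ p s ≤ 1) {b' : Fin T × Λ → ℝ} (h0 : ∀ v, 0 ≤ b v)
    (h : ∀ v, b v ≤ b' v) : DL.Zt ex ey p b ≤ DL.Zt ex ey p b' :=
  sum_le_sum fun ξ _ => mul_le_mul_of_nonneg_left (prod_le_prod
    (fun g _ => add_nonneg zero_le_one (pr_nonneg h0 g))
    fun g _ => add_le_add le_rfl (pr_mono h0 h g)) (Pw_nonneg hp ξ)

lemma det_anti {b' : Fin T × Λ → ℝ} (h0 : ∀ v, 0 ≤ b v) (h : ∀ v, b v ≤ b' v)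
    (hb : ∀ v, 0 ≤ b' v ∧ b' v ≤ 1) (ξ : Fin T → Bool) (ω : Rep.Env T Λ) :
    (gm (Sg ex ey ξ) b' ω).det ≤ (gm (Sg ex ey ξ) b ω).det := by
  rw [det_gm, det_gm]
  refine prod_le_prod (fun g _ => sub_nonneg.2 (pr_le_one (fun v => (DL.zg_mem hb ω v).1)
    (fun v => (DL.zg_mem hb ω v).2) g)) fun g _ => sub_le_sub_left (pr_mono (fun v => ?_)
      (fun v => ?_) g) 1
  · unfold zg; split_ifs; exacts [h0 v, le_rfl]
  · unfold zg; split_ifs; exacts [h v, le_rfl]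

lemma WR_tilt (hp : ∀ s, 0 ≤ p s ∧ p s ≤ 1) {y y' : ℝ} (h0 : 0 < y') (h : y' ≤ y) (h1 : y ≤ 1)
    (N : ℕ) (E : (Fin T → Bool) → Finset (Fin T × Λ) → Prop) :
    WR ex ey p (Top.bt y) (fun ξ R => E ξ R ∧ n0 R ≤ N) ≤
      (y / y') ^ N * WR ex ey p (Top.bt y') E := by
  have hq : 1 ≤ y / y' := (one_le_div h0).2 h
  have hb := bt_mem (T := T) (Λ := Λ) (h0.le.trans h) h1
  have hb' := bt_mem (T := T) (Λ := Λ) h0.le (h.trans h1)
  unfold WR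
  rw [mul_sum]
  refine sum_le_sum fun ξ _ => ?_
  rw [mul_left_comm, mul_sum (a := (y / y') ^ N)]
  refine mul_le_mul_of_nonneg_left (sum_le_sum fun ω _ => ?_) (Pw_nonneg hp ξ)
  split_ifs with h2 h3
  · rw [zr_bt, zr_bt, ← mul_assoc]
    refine mul_le_mul ?_ (det_anti ex ey (fun v => (hb' v).1) (bt_mono h) hb ξ ω)
      (det_gm_nonneg (fun v => (hb v).1) (fun v => (hb v).2) _ ω) (by positivity)
    calc y ^ n0 (red ω) = (y / y') ^ n0 (red ω) * y' ^ n0 (red ω) := by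
          rw [← mul_pow, div_mul_cancel₀ _ h0.ne']
      _ ≤ _ := mul_le_mul_of_nonneg_right (pow_le_pow_right₀ hq h2.2.2) (by positivity)
  · exact absurd ⟨h2.1, h2.2.1⟩ h3
  · exact mul_nonneg (by positivity) (tw_nonneg ex ey hb' ξ ω)
  · rw [mul_zero]

lemma WR_sub (hp : ∀ s, 0 ≤ p s ∧ p s ≤ 1) (X : Finset (Fin T × Λ)) :
    WR ex ey p b (fun _ R => X ⊆ R) =
      ∑ ω, DL.nv ex ey p b ω * (if ∀ v ∈ X, ω v ≠ none then 1 else 0) := by
  simp only [WR, DL.nv_eq ex ey hp, sum_mul, mul_sum]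
  rw [sum_comm]
  refine sum_congr rfl fun ω _ => sum_congr rfl fun ξ _ => ?_
  have e : X ⊆ red ω ↔ ∀ v ∈ X, ω v ≠ none := by simp only [subset_iff, mem_red]
  by_cases h1 : ∀ v, ω (Sg ex ey ξ v) = ω v
  · by_cases h2 : ∀ v ∈ X, ω v ≠ none
    · rw [if_pos ⟨h1, e.2 h2⟩, if_pos h1, if_pos h2, mul_one]
    · rw [if_neg fun h => h2 (e.1 h.2), if_neg h2, mul_zero, mul_zero]
  · rw [if_neg fun h => h1 h.1, if_neg h1, mul_zero, zero_mul]

lemma E1_eq (s t : Fin T × Λ → ℝ) :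
    DL.E1 ex ey p b s t = ∑ v, t v * ∑ u, s u * AG ex ey p b v u := by
  simp only [DL.E1, AG, dotProduct, mulVec, mul_sum]
  rw [sum_comm]
  refine sum_congr rfl fun v _ => ?_
  rw [sum_comm]
  refine sum_congr rfl fun u _ => sum_congr rfl fun ω _ => ?_
  unfold DL.gr
  by_cases h1 : ω v = none <;> by_cases h2 : ω u = none <;> simp [h1, h2]
  ring

lemma WR_red (hp : ∀ s, 0 ≤ p s ∧ p s ≤ 1) (hb : ∀ v, 0 ≤ b v ∧ b v ≤ 1) (hb0 : ∀ x, b (0, x) < 1)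
    (X : Finset (Fin T × Λ)) (r : Fin T × Λ → ℝ) (hr : ∀ v ∈ X, 0 < r v)
    (h : ∀ v ∈ X, ∑ u ∈ X, AG ex ey p b v u ≤ r v * DL.Zt ex ey p b) :
    WR ex ey p b (fun _ R => X ⊆ R) ≤ (∏ v ∈ X, 2 * Real.exp 1 * r v) * DL.Zt ex ey p b := by
  have hZ := DL.Zt_pos ex ey hp fun v => (hb v).1
  have h1 := DL.red_bound ex ey hp hb hb0 (s := fun v => if v ∈ X then 1 else 0)
    (t := fun v => if v ∈ X then (r v)⁻¹ else 0) (fun v => by split_ifs <;> norm_num)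
    (fun v => by split_ifs with hv; exacts [(inv_pos.2 (hr v hv)).le, le_rfl]) X
  have h2 : DL.E1 ex ey p b (fun v => if v ∈ X then 1 else 0)
      (fun v => if v ∈ X then (r v)⁻¹ else 0) / DL.Zt ex ey p b ≤ X.card * 1 := by
    rw [div_le_iff₀ hZ, E1_eq, mul_one, ← nsmul_eq_mul, ← sum_const]
    simp only [ite_mul, one_mul, zero_mul, sum_ite_mem, univ_inter]
    exact sum_le_sum fun v hv => (inv_mul_le_iff₀ (hr v hv)).2 (h v hv)
  rw [← WR_sub ex ey hp, prod_congr rfl (g := fun v => (r v)⁻¹) fun v hv => by simp [hv],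
    prod_inv_distrib, inv_mul_le_iff₀ (prod_pos hr)] at h1
  refine h1.trans ?_
  rw [prod_mul_distrib, prod_const, mul_pow, ← Real.exp_nat_mul]
  have h3 := prod_pos hr
  calc _ ≤ (∏ v ∈ X, r v) * (2 ^ X.card * (DL.Zt ex ey p b * Real.exp (X.card * 1))) := by
        gcongr
    _ = _ := by ring

end BasAux

open BasAux

theorem bas : BasStmt := by
  intro Λ _ _ T _ ex ey p hp W Z
  have hp' : ∀ s, 0 ≤ p s ∧ p s ≤ 1 := fun s => ⟨(hp s).1, by linarith [(hp s).2]⟩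
  refine ⟨cont_WR ex ey, ?_, WR_zero ex ey, fun y h0 h1 => ?_⟩
  · simpa only [WR_true] using cont_WR ex ey (p := p) fun _ _ => True
  have hb := bt_mem (T := T) (Λ := Λ) h0 h1.le
  have hM : A.Mdl.Ok ⟨p, Top.bt (Λ := Λ) y⟩ y := ⟨hp', hb, fun x => by simp [Top.bt]⟩
  refine ⟨?_, WR_true ex ey, WR_nonneg ex ey hp' hb, fun ι => WR_union ex ey hp' hb, fun S => ?_,
    fun y' h2 h3 => ⟨Zt_mono ex ey hp' (fun v => (bt_mem h2.le (h3.trans h1.le) v).1) (bt_mono h3),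
      WR_tilt ex ey hp' h2 h3 h1.le⟩, WR_red ex ey hp' hb fun x => by simpa [Top.bt] using h1⟩
  · rw [← sum_Pw p]
    exact sum_le_sum fun ξ _ =>
      le_mul_of_one_le_right (Pw_nonneg hp' ξ) (A.Bs.one_le_lw ex ey (fun v => (hb v).1) ξ)
  · exact (WR_coin ex ey _).trans_le (A.Bs.sum_coins ex ey hM S fun s _ => (hp s).2)

end Crest.Agent.N337.RR
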