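import Crest.Agent.N337.R.Cfg
import Crest.Agent.N337.Top.BWord

/-!
# Row 337, RARE: the clocks of the word of the torus (`RR.WordStmt`)

Everything is read off `Top/BWord`; only the rates are recomputed with the constant `8 n²`.
-/

set_option autoImplicit false

namespace Crest.Agent.N337.RR

open Finset Crest.MathPhysics.SpinModel Free KV G1 Crest.Agent.N337.Top ZM.Wd

theorem word : WordStmt := by
  intro n _ L _ hL β hβ sy hs w
  have hn : (1 : ℝ) ≤ n := by exact_mod_cast NeZero.one_le
  have hq := q_pos w hβ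
  have hw := wq w hβ
  have hB := two_le_B hβ
  have hM : (⌊β⌋₊ + 1) * (w + 1) = MM β w := rfl
  have h2 : 2 * (w + 1) ≤ MM β w := Nat.mul_le_mul_right _ hB
  refine ⟨?_, fun y hy hy1 => ?_⟩
  · have h := ZM.word' hL hβ hs w
    refine ⟨h.hT, h.hB, h.hp, h.nn, h.few, fun i z => (h.rate i z).trans ?_⟩
    rw [le_div_iff₀ (by positivity)]
    nlinarith [hw.2, sq_nonneg (n : ℝ)]
  obtain ⟨hC, hP, -, -⟩ := ZM.word L n hL β hβ sy hs w y hy hy1
  refine ⟨⟨hC.hT, hC.hq, by nlinarith, ⟨by nlinarith, by nlinarith⟩, hC.hp0, hC.edge,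
    fun i hi hb z => ?_, hC.one⟩, ⟨fun i z => ?_, hP.hb0, hP.fug⟩⟩
  · have h := sweep_tch w hβ hs i z
    simp only [mem_insert, mem_singleton, not_or] at hb
    rw [Nat.mod_eq_of_lt (hM ▸ hi), if_neg (by omega), add_zero] at h
    exact h.trans (mul_le_mul_of_nonneg_right (by nlinarith) hq.le)
  · rw [sum_Ico_eq_sum_range, show (i + 2) * ((w + 1) * (lay sy).length) -
      i * ((w + 1) * (lay sy).length) = 2 * (w + 1) * (lay sy).length by
        rw [add_mul i, Nat.add_sub_cancel_left, mul_assoc], sum_range_mul]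
    have h : ∀ j ∈ range (2 * (w + 1)), ∑ a ∈ range (lay sy).length,
        tch (ex β w sy) (ey β w sy) (pp β w sy) z
          (i * ((w + 1) * (lay sy).length) + (j * (lay sy).length + a)) ≤
        6 * n * (β / (2 * MM β w)) +
          if (i * (w + 1) + j) % MM β w + 1 = MM β w then (n : ℝ) ^ 2 / 2 else 0 := by
      intro j _
      refine le_trans (le_of_eq (sum_congr rfl fun a _ => ?_)) (sweep_tch w hβ hs _ z)
      congr 1
      ring
    refine (sum_le_sum h).trans ?_
    rw [sum_add_distrib, sum_const, card_range, nsmul_eq_mul]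
    have h3 := sum_once h2 (i * (w + 1)) (x := (n : ℝ) ^ 2 / 2) (by positivity)
    have h4 : ((2 * (w + 1) : ℕ) : ℝ) * (6 * n * (β / (2 * MM β w))) =
        12 * n * (((w + 1 : ℕ) : ℝ) * (β / (2 * MM β w))) := by push_cast; ring
    rw [h4]
    nlinarith [hw.2]

end Crest.Agent.N337.RR
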