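import Crest.Agent.N337.R.Defs

/-! # Row 337, RARE: witness trees (helper66) -/

set_option autoImplicit false

namespace Crest.Agent.N337.RR

open Finset Free G1

namespace Tr

variable {L : ℕ} [NeZero L] {P : Scales} {a : ℕ} {U1 U1' : Finset (Tor 3 L)}

theorem mem_Up {m : ℕ} {c : Tor 3 L} : c ∈ Up P U1 (m + 2) ↔ ¬ ∃ F : Finset (Tor 3 L),
    F.card ≤ P.a (m + 1) ∧ ∀ y ∈ Up P U1 (m + 1), tdist c y ≤ 4 * P.η (m + 1) →
      ∃ f ∈ F, tdist f y ≤ P.σ (m + 1) := by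
  simp only [Up, mem_filter, mem_univ, true_and]

theorem mono (h : U1 ⊆ U1') : ∀ m, Up P U1 m ⊆ Up P U1' m
  | 0 => Subset.rfl
  | 1 => h
  | m + 2 => fun _ hc => mem_Up.2 fun ⟨F, h1, h2⟩ =>
    mem_Up.1 hc ⟨F, h1, fun y hy => h2 y (mono h (m + 1) hy)⟩

omit [NeZero L] in
theorem greedy {V : Finset (Tor 3 L)} {c : Tor 3 L} {r s : ℕ}
    (h : ¬ ∃ F : Finset (Tor 3 L), F.card ≤ a ∧ ∀ y ∈ V, tdist c y ≤ r → ∃ f ∈ F, tdist f y ≤ s)
    (k : ℕ) (hk : k ≤ a + 1) : ∃ F : Finset (Tor 3 L), F.card = k ∧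
      (∀ y ∈ F, y ∈ V ∧ tdist c y ≤ r) ∧ ∀ y ∈ F, ∀ z ∈ F, y ≠ z → s < tdist y z := by
  induction k with
  | zero => exact ⟨∅, rfl, by simp, by simp⟩
  | succ k ih =>
    obtain ⟨F, h1, h2, h3⟩ := ih (by omega)
    push Not at h
    obtain ⟨x, k1, k2, k3⟩ := h F (by omega)
    have k4 : x ∉ F := fun hx => by simpa [tdist_self] using k3 x hx
    refine ⟨cons x F k4, by rw [card_cons, h1], (forall_mem_cons k4 _).2 ⟨⟨k1, k2⟩, h2⟩,
      (forall_mem_cons k4 _).2 ⟨(forall_mem_cons k4 _).2 ⟨fun e => absurd rfl e, fun z hz _ => ?_⟩,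
        fun y hy => (forall_mem_cons k4 _).2 ⟨fun _ => k3 y hy, h3 y hy⟩⟩⟩
    rw [tdist_comm]; exact k3 z hz

theorem fam (ha : ∀ m, 1 ≤ m → P.a m = a)
    (hs : ∀ m, 32 * P.η m ≤ P.σ (m + 1) ∧ P.σ (m + 1) ≤ P.η (m + 1)) (m : ℕ) :
    ∀ c : Tor 3 L, ∃ 𝒯 : Finset (Finset (Tor 3 L)), 𝒯.card ≤ NT P a m ∧
      (∀ Y ∈ 𝒯, (Y.card = (a + 1) ^ m ∧ Row P a m Y) ∧ ∀ y ∈ Y, tdist c y ≤ 8 * P.η m) ∧
      ∀ U1, c ∈ Up P U1 (m + 1) → ∃ Y ∈ 𝒯, Y ⊆ U1 := by
  classical
  have hσ : ∀ m, P.σ 1 ≤ P.σ (m + 1) := fun m => by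
    induction m with
    | zero => exact le_rfl
    | succ m ih => have := (hs m).2; have := (hs (m + 1)).1; omega
  induction m with
  | zero =>
    refine fun c => ⟨{{c}}, le_rfl, fun Y hY => ?_, fun U1 h => ⟨_, mem_singleton_self _,
      singleton_subset_iff.2 h⟩⟩
    rw [mem_singleton.1 hY]
    simp [Row, tdist_self]
  | succ m ih =>
    choose T h1 h2 h3 using ih
    intro c
    obtain ⟨s1, s2⟩ := hs m
    set B := (univ.filter fun y => tdist c y ≤ 4 * P.η (m + 1)).sigma T with hB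
    refine ⟨((B.powersetCard (a + 1)).filter fun G => ∀ p ∈ G, ∀ q ∈ G, p ≠ q →
      P.σ (m + 1) < tdist p.1 q.1).image fun G => G.biUnion fun p => p.2, ?_, fun Y hY => ?_,
      fun U1 hc => ?_⟩
    · refine card_image_le.trans ((card_filter_le _ _).trans ?_)
      rw [card_powersetCard]
      refine (Nat.choose_le_pow _ _).trans (Nat.pow_le_pow_left ?_ _)
      rw [hB, card_sigma]
      refine (sum_le_card_nsmul _ _ _ fun y _ => h1 y).trans (Nat.mul_le_mul_right _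
        ((card_ball_le c _).trans_eq (by ring)))
    · obtain ⟨G, hG, rfl⟩ := mem_image.1 hY
      obtain ⟨hG, far⟩ := mem_filter.1 hG
      obtain ⟨hG, hc⟩ := mem_powersetCard.1 hG
      have k1 : ∀ p ∈ G, tdist c p.1 ≤ 4 * P.η (m + 1) := fun p hp =>
        (mem_filter.1 (mem_sigma.1 (hG hp)).1).2
      have k2 := fun p (hp : p ∈ G) => h2 p.1 p.2 (mem_sigma.1 (hG hp)).2
      have k3 : ∀ p ∈ G, ∀ q ∈ G, p ≠ q → ∀ y ∈ p.2, ∀ z ∈ q.2, P.σ (m + 1) < 2 * tdist y z := by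
        intro p hp q hq hne y hy z hz
        have := far p hp q hq hne
        have := (k2 p hp).2 y hy
        have := (k2 q hq).2 z hz
        have := tdist_triangle p.1 y q.1
        have := tdist_triangle y z q.1
        have := tdist_comm z q.1
        omega
      have k4 : (G.biUnion fun p => p.2).card = (a + 1) ^ (m + 1) := by
        rw [card_biUnion fun p hp q hq hne => disjoint_left.2 fun y hy hy' => by
          simpa [tdist_self] using k3 p hp q hq hne y hy y hy',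
          sum_congr rfl fun p hp => (k2 p hp).1.1, sum_const, hc, smul_eq_mul, pow_succ']
      refine ⟨⟨k4, fun y hy z hz hne => ?_, fun y hy φ γ hγ hφ => ?_⟩, fun y hy => ?_⟩ <;>
        obtain ⟨p, hp, hy⟩ := mem_biUnion.1 hy
      · obtain ⟨q, hq, hz⟩ := mem_biUnion.1 hz
        by_cases e : p = q
        · exact (k2 p hp).1.2.1 y hy z (e ▸ hz) hne
        · exact (hσ m).trans_lt (k3 p hp q hq e y hy z hz)
      · have hsub : p.2 ⊆ G.biUnion fun p => p.2 := subset_biUnion_of_mem (fun p => p.2) hp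
        rw [← sum_sdiff (erase_subset_erase y hsub), sum_Icc_succ_top (by omega), add_comm]
        refine add_le_add ((k2 p hp).1.2.2 y hy φ γ hγ fun z hz t t1 t2 =>
          hφ z (hsub hz) t t1 (by omega)) ((sum_le_card_nsmul _ _ (γ (m + 1)) fun z hz => ?_).trans ?_)
        · obtain ⟨hz, hz'⟩ := mem_sdiff.1 hz
          obtain ⟨hne, hz⟩ := mem_erase.1 hz
          obtain ⟨q, hq, hzq⟩ := mem_biUnion.1 hz
          exact hφ z hz _ (by omega) le_rfl
            (k3 p hp q hq (fun e => hz' (mem_erase.2 ⟨hne, e ▸ hzq⟩)) y hy z hzq)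
        · rw [nsmul_eq_mul]
          refine mul_le_mul_of_nonneg_right ?_ (hγ _)
          exact_mod_cast (card_le_card (sdiff_subset.trans (erase_subset _ _))).trans k4.le
      · have := k1 p hp
        have := (k2 p hp).2 y hy
        have := tdist_triangle c p.1 y
        omega
    · rw [mem_Up, ha _ (by omega)] at hc
      obtain ⟨F, f1, f2, f3⟩ := greedy hc _ le_rfl
      choose! g g1 g2 using fun y (hy : y ∈ F) => h3 y U1 (f2 y hy).1
      refine ⟨_, mem_image_of_mem _ (a := F.image fun y => ⟨y, g y⟩) (mem_filter.2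
        ⟨mem_powersetCard.2 ⟨image_subset_iff.2 fun y hy => mem_sigma.2
          ⟨mem_filter.2 ⟨mem_univ _, (f2 y hy).2⟩, g1 y hy⟩, ?_⟩, ?_⟩),
        biUnion_subset.2 (forall_mem_image.2 g2)⟩
      · rw [card_image_of_injective _ fun y z e => congrArg Sigma.fst e, f1]
      · exact forall_mem_image.2 fun y hy => forall_mem_image.2 fun z hz e =>
          f3 y hy z hz fun e' => e (by rw [e'])

end Tr

theorem tree : TreeStmt := fun _ _ _ _ ha hs =>
  ⟨fun _ _ h => Tr.mono h, fun _ m hm c hc => by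
    obtain ⟨m, rfl⟩ := Nat.exists_eq_add_of_le' hm
    exact not_not.1 fun h => hc (Tr.mem_Up.2 h), fun m c =>
    let ⟨𝒯, h1, h2, h3⟩ := Tr.fam ha hs m c
    ⟨𝒯, h1, fun Y hY => (h2 Y hY).1, h3⟩⟩

end Crest.Agent.N337.RR
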