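import Crest.Agent.N337.R.Core1
import Crest.Agent.N337.R.Det
import Crest.Agent.N337.R.Tree

/-!
# Row 337, RARE (helper4): off the base junk the leaves of G1 hold
-/

set_option autoImplicit false
set_option linter.unusedSectionVars false

namespace Crest.Agent.N337.RR

open Finset Equiv Crest.MathPhysics.SpinModel Crest.Agent.N337.Rep Free KV G1

variable {L n T : ℕ} [NeZero L] [NeZero T] {ex ey : Fin T → Tor 3 L × Fin n} {p0 : Fin T → ℝ}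
  {Q : Par} {θ : ℝ} {ξ : Fin T → Bool} {R : Finset (Fin T × (Tor 3 L × Fin n))}

theorem cntR_congr {k k' : ℕ} (h : k % T = k' % T) (z : Tor 3 L) (A : ℕ) :
    cntR R k z A = cntR R k' z A := by
  unfold cntR
  rw [show tm T k = tm T k' from Fin.ext h]

theorem cntR_rad (k : ℕ) (z : Tor 3 L) {A A' : ℕ} (h : A ≤ A') : cntR R k z A ≤ cntR R k z A' :=
  card_le_card fun y hy => by
    simp only [mem_filter, mem_univ, true_and] at hy ⊢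
    exact ⟨hy.1, hy.2.trans h⟩

theorem mod_win (hW : Word ex ey p0 Q.E Q.w Q.B θ) {i i' : ℕ} (h : i % Q.B = i' % Q.B) :
    i * Q.D % T = i' * Q.D % T := by
  rw [hW.hT, mul_assoc]
  exact Nat.ModEq.mul_right' _ h

/-- counts in a window are read on its first slice. -/
theorem win (hW : Word ex ey p0 Q.E Q.w Q.B θ) (hc : Cmp ex ey p0 ξ R) {ρ : ℕ} {x : Tor 3 L}
    (hF : ¬ Fast ex ey Q.D Q.B Q.f ρ x ξ) {i i' A : ℕ} (hi : i % Q.B = i' % Q.B) {z : Tor 3 L}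
    (hz : tdist x z + A + Q.f + 1 ≤ ρ) (hA : A + Q.f ≤ Q.A) {k : ℕ}
    (hk : k ∈ Ico (i * Q.D) ((i + 1) * Q.D)) : cntR R k z A ≤ cntR R (i' * Q.D) z Q.A := by
  rw [mem_Ico] at hk
  refine ((det L n T ex ey p0 _ _ _ θ hW ξ R hc _ ρ x hF).1 i k A z hk.1
    (hk.2.le.trans (Nat.mul_le_mul_right _ (by omega))) hz).trans ?_
  rw [cntR_congr (mod_win hW (i := i % Q.B) (i' := i') (by rw [Nat.mod_mod, hi]))]
  exact cntR_rad _ _ hA

theorem not_cl (hW : Word ex ey p0 Q.E Q.w Q.B θ) (hc : Cmp ex ey p0 ξ R) {x : Tor 3 L} {i : ℕ}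
    (h : ¬ Cl ex ey Q ξ R x i) {A : ℕ} {z : Tor 3 L} (hz : tdist x z + A + Q.f + 1 ≤ Q.r)
    (hA : A + Q.f ≤ Q.A) {k : ℕ} (hk : k ∈ Ico (i * Q.D) ((i + 1) * Q.D)) : cntR R k z A ≤ 5 := by
  rw [Cl, not_or] at h
  refine (win hW hc h.1 rfl hz hA hk).trans (Nat.le_of_lt_succ (not_le.1 fun h6 => h.2 ?_))
  intro b hb
  obtain rfl : b = 0 := by omega
  exact ⟨z, by omega, by simpa using h6⟩

theorem not_U1 {c : Tor 3 L} (h : c ∉ UU ex ey Q ξ R 1) :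
    ¬ Fast ex ey Q.D Q.B Q.f Q.ρ c ξ ∧ ¬ PtEv Q c R := by
  simpa [UU, Up, U1] using h

/-- among `k D'` consecutive windows one has no cluster. -/
theorem leaf3_of (hW : Word ex ey p0 Q.E Q.w Q.B θ) (hc : Cmp ex ey p0 ξ R) {c : Tor 3 L}
    (h : c ∉ UU ex ey Q ξ R 1) (hD : 1 ≤ Q.D') (i : ℕ) : ∃ i' ∈ Ico i (i + Q.k * Q.D'),
      ∀ A z, tdist c z + A + Q.f + 1 ≤ Q.ρ → A + Q.f ≤ Q.A →
        ∀ k ∈ Ico (i' * Q.D) ((i' + 1) * Q.D), cntR R k z A ≤ 5 := by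
  obtain ⟨hF, hP⟩ := not_U1 h
  have hB : 0 < Q.B := by have := hW.hB; omega
  have h1 : ¬ Pt Q.D Q.D' (i % Q.B) Q.k 6 Q.ρ Q.A c R := fun h' =>
    hP (Or.inr ⟨_, Nat.mod_lt _ hB, h'⟩)
  simp only [Pt, not_forall, not_exists, not_and, not_le] at h1
  obtain ⟨b, hb, H⟩ := h1
  refine ⟨i + b * Q.D', mem_Ico.2 ⟨by omega, ?_⟩, fun A z hz hA k hk => ?_⟩
  · have := Nat.mul_lt_mul_of_lt_of_le hb (le_refl Q.D') hD
    omega
  · exact (win hW hc hF (i' := i % Q.B + b * Q.D') (by rw [Nat.mod_add_mod]) hz hA hk).trans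
      (Nat.le_of_lt_succ (H z (by omega)))

/-- the leaves J1, J2. -/
theorem leaf_of (hW : Word ex ey p0 Q.E Q.w Q.B θ) (hc : Cmp ex ey p0 ξ R) {c : Tor 3 L}
    (h : c ∉ UU ex ey Q ξ R 1) {j r : ℕ} {x : Tor 3 L} (hx : tdist c x + r + Q.f + 2 ≤ Q.ρ)
    (hj : Q.P.a 0 * (Q.f + 1) * (n ^ 2 + 1) + 1 ≤ j) {p : Fin T → ℝ}
    {O : Finset (Fin T × (Tor 3 L × Fin n))} (hO : O ⊆ R)
    (hch : ∀ s y, Ch ex ey p O s y → s + 1 = 0 ∨
      (ξ s = true ∧ (y = ex s ∨ y = ey s) ∧ ((s, ex s) ∈ R ∨ (s, ey s) ∈ R))) :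
    Leaf ex ey p O Q.D (Q.P.a 0) j r x := by
  obtain ⟨hF, hP⟩ := not_U1 h
  refine (det L n T ex ey p0 _ _ _ θ hW ξ R hc _ _ c hF).2 _ j r x p O (fun i hi => ?_) hx hj hO hch
  refine Nat.le_of_lt_succ (not_le.1 fun h' => hP (Or.inl ⟨i, hi, fun b hb => ?_⟩))
  obtain rfl : b = 0 := by omega
  exact ⟨c, by rw [tdist_self], by simpa using h'⟩

end Crest.Agent.N337.RR
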