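import Crest.Agent.N337.R.Main
import Crest.Agent.N337.R.Geo
import Crest.Agent.N337.R.Env

/-!
# Row 337, RARE (helper4): `GoodStmt`, `GBStmt` from G1, and `ZM.RareStmt`
-/

set_option autoImplicit false

namespace Crest.Agent.N337.RR

open Finset Filter Crest.MathPhysics.SpinModel Crest.Agent.N337.Rep Free KV G1 Mn

theorem exp_of {L n T : ℕ} [NeZero L] [NeZero T] {O R : Finset (Fin T × (Tor 3 L × Fin n))}
    (hO : O ⊆ R) {k A : ℕ} {z : Tor 3 L} (h : cntR R k z A ≤ 5) : Exp O A k z := by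
  classical
  refine le_trans (le_trans (card_le_card fun y hy => ?_) (card_image_le (f := Prod.fst))) h
  obtain ⟨h1, c, h2⟩ := mem_filter.1 hy
  exact mem_image.2 ⟨(y, c), mem_filter.2 ⟨mem_univ _, hO h2, Geo.mem_bl.1 h1⟩, rfl⟩

theorem good : GoodStmt := by
  intro n
  filter_upwards [pol n 1 le_rfl, sclS 1 le_rfl, eventually_ge_atTop 400] with g hP hS hg
  intro L T _ _ ex ey p0 E w B mt θ hW hok ξ R hc hU
  obtain ⟨⟨-, -, p3, p4, p5, -⟩, -⟩ := hP (g ^ 400) le_rfl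
    (Nat.pow_le_pow_right (by omega) (by norm_num)) mt L E 1 0 0 0 le_rfl
  set Q := par g mt L E w B
  have hW' : Word ex ey p0 Q.E Q.w Q.B θ := hW
  have e0 : (scl g mt).η 0 = g ^ 22 := rfl
  have hT := tree L (scl g mt) 127 (fun m hm => if_neg (by omega)) (hS.1 mt)
  refine ⟨hU, fun p O hO hch => ⟨⟨hok, fun m hm _ c _ hc => hT.2.1 _ m hm c hc,
    fun c h x hx => leaf_of hW' hc h (show _ + _ + g + 2 ≤ g ^ 23 by omega) p3 hO hch,
    le_rfl, by omega⟩, fun c0 κ hp => ⟨hp, fun c h i => ?_, p4, p4.le⟩⟩⟩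
  obtain ⟨i', h1, h2⟩ := leaf3_of hW' hc h (Nat.one_le_pow _ _ (by omega)) i
  exact ⟨i', h1, fun k hk z hz => exp_of hO
    (h2 A6 z (show _ + _ + g + 1 ≤ g ^ 23 by omega) le_rfl k hk)⟩

namespace GbP

theorem dyad {L : ℕ} (hL : 1 ≤ L) : ∃ K : ℕ, 2 * (2 ^ K - 1) < L ∧ L ≤ 2 * (2 * (2 ^ K - 1) + 1) := by
  have h1 := Nat.pow_log_le_self 2 (show L + 1 ≠ 0 by omega)
  have h2 := Nat.lt_pow_succ_log_self (b := 2) (by norm_num) (L + 1)
  obtain ⟨K, hK⟩ : ∃ K, Nat.log 2 (L + 1) = K + 1 :=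
    Nat.exists_eq_succ_of_ne_zero (Nat.log_pos (by norm_num) (by omega)).ne'
  rw [hK] at h1 h2
  simp only [Nat.succ_eq_add_one, pow_succ] at h1 h2
  have : 1 ≤ 2 ^ K := Nat.one_le_two_pow
  exact ⟨K, by omega, by omega⟩

/-- the constant of the capacity bounds. -/
noncomputable def cc : ℝ := 2 * (16 * A6 + 6 * 10 ^ 6)

theorem cc_ge : 32 ≤ cc := by
  have : (0 : ℝ) ≤ A6 := by positivity
  unfold cc; nlinarith

theorem Cc_le (P : Scales) (t : ℕ) {d d' : ℕ} (h : d' ≤ d) :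
    2 * Cc P A6 t d' ≤ cc * (P.K (t - 1) * (1 + (Nat.log 2 d : ℝ)) ^ 2) := by
  have h1 := one_le_K P (t - 1)
  have h2 : (Nat.log 2 d' : ℝ) ≤ Nat.log 2 d := Nat.cast_le.2 (Nat.log_mono_right h)
  have h3 : (1 + (Nat.log 2 d' : ℝ)) ^ 2 ≤ (1 + (Nat.log 2 d : ℝ)) ^ 2 := by gcongr
  have h4 : 1 ≤ (1 + (Nat.log 2 d : ℝ)) ^ 2 :=
    one_le_pow₀ (le_add_of_nonneg_right (by positivity))
  have h5 := one_le_mul_of_one_le_of_one_le h1 h4
  have h6 := mul_le_mul_of_nonneg_left h3 (zero_le_one.trans h1)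
  have h7 := le_mul_of_one_le_right (by positivity : (0 : ℝ) ≤ A6) h5
  unfold Cc cc
  linarith

theorem space (P : Scales) (t : ℕ) {d d' : ℕ} (h : d' ≤ d) (h' : d ≤ 2 * d') :
    Cc P A6 t d' * P.η (t - 1) / d' ≤ cc * gam 1 P t d := by
  rcases Nat.eq_zero_or_pos d' with rfl | h0
  · obtain rfl : d = 0 := by omega
    simp [gam]
  have h1 : (0 : ℝ) < d' := by exact_mod_cast h0
  have h2 : (d : ℝ) ≤ 2 * d' := by exact_mod_cast h'
  have h3 : (0 : ℝ) < d := by exact_mod_cast h0.trans_le h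
  have h4 := Cc_nonneg (P := P) (A := A6) (m1 := t) (nmax := d')
  calc _ = 2 * Cc P A6 t d' * P.η (t - 1) / (2 * d') := by field_simp
    _ ≤ 2 * Cc P A6 t d' * P.η (t - 1) / d := by gcongr
    _ ≤ cc * (P.K (t - 1) * (1 + (Nat.log 2 d : ℝ)) ^ 2) * P.η (t - 1) / d :=
        div_le_div_of_nonneg_right (mul_le_mul_of_nonneg_right (Cc_le P t h) (by positivity)) h3.le
    _ = _ := by unfold gam; ring

theorem time (P : Scales) {N N' : ℕ} (h0 : 1 ≤ N) (h : N ≤ 2 * N') :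
    Cc P A6 1 1 / N' ≤ cc * (P.K 0 / N) := by
  have h1 : (0 : ℝ) < N := by exact_mod_cast h0
  have h2 : (N : ℝ) ≤ 2 * N' := by exact_mod_cast h
  have h4 := Cc_nonneg (P := P) (A := A6) (m1 := 1) (nmax := 1)
  have h5 := Cc_le P 1 (le_refl 1)
  simp only [Nat.log_one_right, Nat.cast_zero, add_zero, one_pow, mul_one, Nat.sub_self] at h5
  calc _ = 2 * Cc P A6 1 1 / (2 * N') := by
        rw [mul_div_mul_left _ _ (by norm_num : (2 : ℝ) ≠ 0)]
    _ ≤ 2 * Cc P A6 1 1 / N := by gcongr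
    _ ≤ cc * P.K 0 / N := by gcongr
    _ = _ := by ring

theorem gam_mul (C : ℝ) (P : Scales) (t d : ℕ) : gam C P t d = C * gam 1 P t d := by
  simp [gam]

theorem eta_mono {g : ℕ} (hg : 1 ≤ g) (mt : ℕ) {m m' : ℕ} (h : m ≤ m') :
    (scl g mt).η m ≤ (scl g mt).η m' :=
  Nat.pow_le_pow_right hg (Nat.mul_le_mul_left _ (Nat.pow_le_pow_right (by norm_num) h))

theorem ten {η : ℕ} (h : 4 ≤ η) : 16 * η ≤ η ^ 10 :=
  calc 16 * η ≤ η ^ 2 * η := Nat.mul_le_mul_right _ (by nlinarith)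
    _ = η ^ 3 := by ring
    _ ≤ η ^ 10 := Nat.pow_le_pow_right (by omega) (by norm_num)

theorem fin_le {G c k μ X X' r e m : ℝ} (h : G ≤ k * (μ + X + r)) (hk : 0 ≤ k) (hc : 32 ≤ c)
    (h1 : μ ≤ 32 * m) (h2 : X ≤ c * X') (h3 : r ≤ e) (hm : 0 ≤ m) (he : 0 ≤ e) (hX : 0 ≤ X') :
    2 * G ≤ (2 * k * c + 1) * X' + (2 * k * c + 1) * (m + e) := by
  have a5 : μ + X + r ≤ c * (X' + (m + e)) := by nlinarith
  have a6 := h.trans (mul_le_mul_of_nonneg_left a5 hk)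
  nlinarith

end GbP

open GbP

theorem gb : GBStmt := by
  intro n
  have hc := cc_ge
  have hg0 : 0 ≤ Cg (8 * n ^ 2) := by unfold Cg; positivity
  set C := 2 * Cg (8 * n ^ 2) * cc + 1 with hCdef
  have hC : 1 ≤ C := le_add_of_nonneg_left (by positivity)
  refine ⟨C, hC, ?_⟩
  filter_upwards [good n, pol n 1 le_rfl, sclS 1 le_rfl, eventually_ge_atTop 2] with g hG hP hS hg
  intro L T _ _ ex ey p E w B mt κ u0 e q Bd hB1 hB2 hmt hL Q S y1 y2 hW hCP hw he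
  obtain ⟨⟨-, -, -, p4, -, p6, p7, p8, p9⟩, -⟩ := hP B hB1 hB2 mt L E 1 0 0 0 le_rfl
  have hη := eta_ge hg mt (mt - 1)
  have hL3 : 16 * (scl g mt).η (mt - 1) ≤ L := (ten (le_trans (by omega) hη)).trans hL
  have hok := hS.2.1 mt L (by omega) (by omega)
  obtain ⟨K, hK, hK'⟩ := dyad (show 1 ≤ L by omega)
  have hKη : ∀ m < mt, (scl g mt).η m ≤ 2 ^ K - 1 := fun m hm => by
    have := eta_mono (by omega : 1 ≤ g) mt (show m ≤ mt - 1 by omega)
    omega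
  have hW' : Word ex ey p Q.E Q.w Q.B S.θ := hW
  have e0 : (scl g mt).η 0 = g ^ 22 := rfl
  have e1 : (scl g mt).σ 1 = g ^ 176 := rfl
  have core : ∀ y, 0 < y → y ≤ S.y0 → ∀ ξ ω, Pw p ξ ≠ 0 → (∀ v, ω (Sg ex ey ξ v) = ω v) →
      ∀ u, ω u = none → UU ex ey Q ξ (red ω) mt = ∅ →
      ∃ (p' b0 : Fin T → ℝ) (b gg : Fin T × (Tor 3 L × Fin n) → ℝ) (Y μ : ℝ),
        Grn ex ey p' b u Y gg ∧
        Data ex ey p' p b b0 (red ω) ∅ E w B q (8 * n ^ 2) Bd (scl g mt) (UU ex ey Q ξ (red ω))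
          (g ^ 2) A6 ∧
        Data3 ex ey p b0 (red ω) E w (8 * n ^ 2) (scl g mt) (UU ex ey Q ξ (red ω)) (g ^ 2) A6
          (25000 * g ^ 18) (g ^ 22) ∧
        0 ≤ μ ∧ Top (fun v => b v * gg v) ((2 * (2 ^ K - 1) + 1) ^ 3) μ ∧
        ∀ v (X X' : ℝ), (gg v - if v = u then 1 else 0) ≤
          Cg (8 * n ^ 2) * (μ + X + err q Y L n B) → X ≤ cc * X' → 0 ≤ X' →
          DL.Ge ex ey p (Top.bt y) ω v u ≤ C * X' + S.μ y := by
    intro y h0 hy ξ ω hξ hi u hu hU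
    have hY : max y (1 / 2) ≤ S.y0 := max_le hy y1
    have hY1 := hY.trans_lt y2
    obtain ⟨gg, G, hle⟩ := Ge_le (ex := ex) (ey := ey) hW.hp1 h0.le (le_max_left y (1 / 2))
      (le_max_right _ _) hY1 ω hu
    obtain ⟨c1, c2⟩ := hCP _ (le_max_right y (1 / 2)) hY1.le
    obtain ⟨g1, g2⟩ := (hG L T ex ey p E w B mt _ hW hok ξ _ (cmp_of hξ hi) hU).2 _ _ Subset.rfl
      (ch_red (p := p) hi)
    have h1Y : 0 < 1 - max y (1 / 2) := by linarith
    refine ⟨_, _, _, gg, _, _, G, ⟨env_red hW.nn hi _, c1, g1, hw⟩, g2 _ _ c2, by positivity,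
      top_mass G (Nat.one_le_pow _ _ (by omega)), fun v X X' h hX hX' => (hle v).trans ?_⟩
    show _ ≤ C * X' + C * (1 / (1 - min (max y (1 / 2)) S.y0) / (L : ℝ) ^ 3 + e)
    rw [min_eq_left hY]
    have a1 : err q (max y (1 / 2)) L n B ≤ e := by
      refine le_trans ?_ he
      have : 0 < 1 - S.y0 := by linarith
      unfold err
      gcongr
    have a2 : 4 / (1 - max y (1 / 2)) / (((2 * (2 ^ K - 1) + 1) ^ 3 : ℕ) : ℝ) ≤
        32 * (1 / (1 - max y (1 / 2)) / (L : ℝ) ^ 3) := by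
      have b1 : L ^ 3 ≤ 8 * (2 * (2 ^ K - 1) + 1) ^ 3 :=
        (Nat.pow_le_pow_left hK' 3).trans_eq (by ring)
      have b2 : (L : ℝ) ^ 3 ≤ 8 * (((2 * (2 ^ K - 1) + 1) ^ 3 : ℕ) : ℝ) := by exact_mod_cast b1
      have b3 : (0 : ℝ) < (L : ℝ) ^ 3 := pow_pos (Nat.cast_pos.2 (by omega)) _
      generalize (((2 * (2 ^ K - 1) + 1) ^ 3 : ℕ) : ℝ) = V at b2
      have b4 : 0 < V := by linarith
      calc _ = 32 * (1 / (1 - max y (1 / 2)) / (8 * V)) := by field_simp; ring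
        _ ≤ _ := by gcongr
    have a3 : 0 ≤ 1 / (1 - max y (1 / 2)) / (L : ℝ) ^ 3 := by positivity
    have a4 : 0 ≤ e := err_nonneg.trans he
    exact fin_le h hg0 hc a2 hX a1 a3 a4 hX'
  have hγ := fun t d => gam_nonneg zero_le_one (scl g mt) t d
  have hK0 := zero_le_one.trans (one_le_K (scl g mt) 0)
  refine ⟨fun y h0 hy ξ ω hξ hi v u _ hu t ht ht' hd hb => ?_,
    fun y h0 hy ξ ω hξ hi v u _ hu hd hb => ?_, fun v u _ hd => ?_⟩
  · rw [BadD, not_or, not_not, not_not] at hb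
    obtain ⟨p', b0, b, gg, Y, μ, G, D, D3, hμ, top, H⟩ := core y h0 hy ξ ω hξ hi u hu hb.1
    have a1 : A6 ≤ (scl g mt).η (t - 1) :=
      le_trans (by omega) (eta_mono (by omega : 1 ≤ g) mt (Nat.zero_le (t - 1)))
    have a2 : 5 * (scl g mt).η (t - 1) ≤ (scl g mt).σ t / 4 := by
      have b1 := (hS.1 mt (t - 1)).1
      rw [Nat.sub_add_cancel ht] at b1
      omega
    have hcl : Clean (scl g mt) (UU ex ey Q ξ (red ω)) v.2.1 t ((scl g mt).σ t / 4 - A6 + A6) :=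
      Clean.mono hb.2 (show _ ≤ (scl g mt).σ t / 4 by omega)
    have := H v _ _ (G1d_clean G D D3 hb.1 ht ht'.le hcl hK (fun m hm => hKη m (hm.trans ht')) hμ
      top (Or.inr rfl) (le_trans (Nat.sub_le _ _) hd) (by omega))
      (space _ t (Nat.sub_le _ _) (by omega)) (hγ _ _)
    rwa [← gam_mul] at this
  · rw [BadD, not_or, not_not, not_not] at hb
    obtain ⟨p', b0, b, gg, Y, μ, G, D, D3, hμ, top, H⟩ := core y h0 hy ξ ω hξ hi u hu hb.1
    have hcl : Clean (scl g mt) (UU ex ey Q ξ (red ω)) v.2.1 1 (2 * (g ^ 176 / 8)) :=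
      Clean.mono hb.2 (show _ ≤ g ^ 176 / 4 by omega)
    have hlag : B / (25000 * g ^ 18 + 2) * (25000 * g ^ 18 + 2) * (w * E) ≤ lag u.1 v.1 := by
      rw [lag, if_pos hd.symm, hW.hT, mul_assoc B]
      exact Nat.mul_le_mul_right _ (Nat.div_mul_le_self _ _)
    have := H v _ ((scl g mt).K 0 / (B / (25000 * g ^ 18 + 2) : ℕ) + gam 1 (scl g mt) 1 (g ^ 176 / 8))
      (G1t_clean G D D3 hb.1 hcl hK (hKη 0 (by omega)) hμ top (Or.inr rfl) (by omega) p9 hlag)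
      (by rw [mul_add]; exact add_le_add (time _ p9 (by omega)) (space _ 1 le_rfl (by omega)))
      (add_nonneg (by positivity) (hγ _ _))
    rwa [mul_add, ← gam_mul] at this
  · have hD : 2 ≤ g ^ 18 := hg.trans (Nat.le_self_pow (by norm_num) g)
    have hd' : g ^ 18 * (w * E) ≤ lag u.1 v.1 := hd
    refine ⟨Ico (u.1.val / (w * E) + 1) (u.1.val / (w * E) + g ^ 18),
      by rw [Nat.card_Ico]; show _ ≤ g ^ 18; omega, fun y h0 hy ξ ω hξ hi _ hu hb hI => ?_⟩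
    rw [BadD, not_or, not_not, not_not] at hb
    obtain ⟨p', b0, b, gg, Y, μ, G, D, D3, hμ, top, H⟩ := core y h0 hy ξ ω hξ hi u hu hb.1
    have hcl : Clean (scl g mt) (UU ex ey Q ξ (red ω)) v.2.1 1 (g ^ 42 + A6) :=
      Clean.mono hb.2 (show _ ≤ g ^ 176 / 4 by omega)
    have := H v _ ((scl g mt).K 0 / (g ^ 18 : ℕ) + gam 1 (scl g mt) 1 (g ^ 42))
      (G1w_clean G D D3 hb.1 hcl hK (hKη 0 (by omega)) hμ top (Or.inr rfl) (by omega) _
        (nonempty_Ico.2 (by omega)) fun i h => ⟨fun k hk z hz => exp_of Subset.rfl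
          (not_cl hW' (cmp_of hξ hi) (hI i h) (show _ + _ + g + 1 ≤ g ^ 43 by omega) le_rfl hk), ?_⟩)
      (by
        rw [mul_add]
        exact add_le_add (time _ (by omega) (by rw [Nat.card_Ico]; omega))
          (space _ 1 le_rfl (by omega)))
      (add_nonneg (by positivity) (hγ _ _))
    · rwa [mul_add, ← gam_mul] at this
    · rw [mem_Ico] at h
      have b1 := Nat.lt_div_mul_add (a := u.1.val) D.pos
      have b2 := Nat.div_mul_le_self u.1.val (w * E)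
      have b3 := Nat.mul_le_mul_right (w * E) h.1
      have b4 := Nat.mul_le_mul_right (w * E) (Nat.succ_le_of_lt h.2)
      rw [add_mul] at b3 b4
      exact ⟨by omega, b4.trans (by omega)⟩

/-- **TOP (C)**. -/
theorem rare : ZM.RareStmt := rare_of good gb

end Crest.Agent.N337.RR
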