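import Crest.Agent.N337.R.Par

/-!
# Row 337, RARE (helper4): the explicit parameters and the numerical statements

`g = ⌊β^(1/400)⌋` is the small scale, `η m = g^(22·48^m)`, `σ (m+1) = (η m)^8`.
-/

set_option autoImplicit false

namespace Crest.Agent.N337.RR

open Finset Filter G1

/-- the scales. -/
def scl (g mt : ℕ) : Scales where
  mt := mt
  a m := if m = 0 then 24999 else 127
  σ m := if m = 0 then 0 else g ^ (176 * 48 ^ (m - 1))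
  η m := g ^ (22 * 48 ^ m)

/-- radius of the six-site clusters (independent of `g`). -/
noncomputable def A6 : ℕ := 11 * (scl 0 0).ρ 0 + 6

/-- the integer parameters. -/
noncomputable def par (g mt L E w B : ℕ) : Par where
  P := scl g mt
  a := 127
  E := E
  w := w
  B := B
  f := g
  ρ := g ^ 23
  A := A6 + g
  k := 25000
  D' := g ^ 18
  r := g ^ 43
  N := L ^ 3 / g ^ 75

/-- the Green bound of G1d. -/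
noncomputable def gam (C : ℝ) (P : Scales) (t d : ℕ) : ℝ :=
  C * (P.K (t - 1) * (1 + (Nat.log 2 d : ℝ)) ^ 2 * P.η (t - 1) / d)

/-- probabilities of the levels. -/
noncomputable def pmf (g m : ℕ) : ℝ := 1 / (g : ℝ) ^ (5000 * 128 ^ (m - 1))
/-- tail sums. -/
noncomputable def tauf (g t : ℕ) : ℝ := 1 / (g : ℝ) ^ (700 * 128 ^ (t - 1))

/-- the real parameters; `C` is the constant of G1, `e` the Trotter error. -/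
noncomputable def rpar (n g mt L w B : ℕ) (C κ u0 e : ℝ) : RPar where
  θ := 3 * n ^ 2 / w
  y0 := Real.exp (-(u0 / (L : ℝ) ^ 3))
  ε := 1 / (g : ℝ) ^ 12000
  c1 := 1 / (g : ℝ) ^ 78
  c3 := 1 / (g : ℝ) ^ 74
  c4 := 1 / (g : ℝ) ^ 79
  cS := 1 / (g : ℝ) ^ 17
  cF := 1 / (g : ℝ) ^ 73
  π6 := 1 / (g : ℝ) ^ 100
  γT := C * ((scl g mt).K 0 / (B / (25000 * g ^ 18 + 2) : ℕ)) + gam C (scl g mt) 1 (g ^ 176 / 8)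
  γS := C * ((scl g mt).K 0 / (g ^ 18 : ℕ)) + gam C (scl g mt) 1 (g ^ 42)
  γD t := gam C (scl g mt) t ((scl g mt).σ t / 4)
  τ := tauf g
  pm := pmf g
  μ y := C * (1 / (1 - min (max y (1 / 2)) (Real.exp (-(u0 / (L : ℝ) ^ 3)))) / (L : ℝ) ^ 3 + e)
  δ y := max (y ^ (κ * (L : ℝ) ^ 3)) (Real.exp (-(175000 * 128 ^ mt : ℕ)))

/-- **(Scl)** the scales: admissibility, tree entropy, tails, Green bounds. -/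
def SclStmt : Prop :=
  ∀ C : ℝ, 1 ≤ C → ∀ᶠ g : ℕ in atTop,
    (∀ mt m, 32 * (scl g mt).η m ≤ (scl g mt).σ (m + 1) ∧
      (scl g mt).σ (m + 1) ≤ (scl g mt).η (m + 1)) ∧
    (∀ mt L, 1 ≤ mt → 2 * (scl g mt).η (mt - 1) < L → (scl g mt).Ok L) ∧
    (∀ mt m, (scl g mt).K m ≤ ((scl g mt).η m : ℝ) ^ 2) ∧
    (∀ mt m, NT (scl g mt) 127 m * (2 * (1 / (g : ℝ) ^ 12000)) ^ (127 + 1) ^ m ≤ pmf g (m + 1)) ∧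
    (∀ mt t d, 1 ≤ t → d ≤ (scl g mt).η t →
      4 * ∑ m ∈ Ico t mt, (2 * ((d + 2 * (scl g mt).η m : ℕ) : ℝ) + 1) ^ 3 * pmf g m ≤ tauf g t) ∧
    (∀ mt t, 1 ≤ t → 175000 * 256 ^ (t + 1) *
      (gam C (scl g mt) t ((scl g mt).σ t / 4) + tauf g t) ≤ 1 / (g : ℝ) ^ 80) ∧
    ∀ q : ℕ, ∀ M : ℕ, ∀ᶠ L : ℕ in atTop, ∃ mt, M ≤ mt ∧ (scl g mt).η (mt - 1) ^ q ≤ L ∧
      4 * (L : ℝ) ^ 3 * pmf g mt ≤ tauf g mt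

/-- **(Fld)** the conditions that depend on the fugacity. -/
def FldStmt : Prop :=
  ∀ (n g : ℕ) (C κ : ℝ), 1 ≤ C → 2 ≤ g → 0 < κ → κ ≤ 1 / (g : ℝ) ^ 100 → 1000 * (n + 1) * C ≤ g →
    ∀ᶠ u0 : ℝ in atTop, ∀ᶠ mt : ℕ in atTop, ∀ L : ℕ, (scl g mt).η (mt - 1) ^ 10 ≤ L → u0 ≤ L →
      ∃ e0 : ℝ, 0 < e0 ∧ ∀ e, 0 ≤ e → e ≤ e0 → ∀ E w B : ℕ,
        let Q := par g mt L E w B
        let S := rpar n g mt L w B C κ u0 e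
        1 ≤ Q.N ∧ (0 ≤ S.y0 ∧ S.y0 < 1) ∧ 1 / 2 ≤ S.y0 ∧ (∀ y, 0 ≤ S.μ y) ∧
        (∀ y, 0 ≤ y → y ≤ S.y0 → 0 < S.δ y) ∧ ContinuousOn S.δ (Set.Icc 0 S.y0) ∧
        (∀ y, 0 < y → y ≤ S.y0 → S.μ y + 2 * S.δ y ≤ S.c4) ∧
        (∀ y, 0 < y → y ≤ S.y0 → ∀ k : ℕ, k ≤ Q.k0 * (Q.a + 1) ^ Q.P.mt →
          y ≤ Real.exp (-(k / Q.N)) → k * (S.μ y + 2 * S.δ y) ≤ S.c3) ∧
        ∀ y, 0 < y → y ≤ S.y0 → ∃ k : ℕ, Real.exp (-k) ≤ S.δ y ∧ k ≤ 175000 * 128 ^ mt ∧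
          k * (n * (2 * (Q.P.σ (Q.P.mt - 1) / 4) + 1) ^ 3) ≤ Q.N ∧
          k * (S.μ y + 2 * S.δ y) ≤ S.c1 ∧
          2 * Real.exp 2 * (n * (L : ℝ) ^ 3) * (3 * S.c1) ≤ Q.N

/-- **(Pol)** the polynomial inequalities in `g`. -/
def PolStmt : Prop :=
  ∀ (n : ℕ) (C : ℝ), 1 ≤ C → ∀ᶠ g : ℕ in atTop, ∀ B : ℕ, g ^ 400 ≤ B → B ≤ g ^ 401 →
    ∀ (mt L E w : ℕ) (κ u0 e : ℝ), 1 ≤ w →
      let Q := par g mt L E w B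
      let S := rpar n g mt L w B C κ u0 e
      (8 * (Q.ρ + Q.A + Q.f + 2) ≤ Q.P.σ 1 ∧ 2 * (Q.k * Q.D') ≤ Q.B ∧
        24999 * (g + 1) * (n ^ 2 + 1) + 1 ≤ g ^ 2 ∧
        (25000 * g ^ 18 + 1) * (g ^ 2 * (2 * A6 + 1)) + A6 < g ^ 22 ∧
        8 * g ^ 22 + A6 + g + 2 ≤ g ^ 23 ∧ 4 * g ^ 42 + 4 * A6 + g + 1 ≤ g ^ 43 ∧
        4 * g ^ 22 ≤ g ^ 42 ∧ 16 * g ^ 42 ≤ g ^ 176 / 8 ∧ 1 ≤ B / (25000 * g ^ 18 + 2)) ∧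
      (0 ≤ S.γT ∧ S.γT + S.τ 1 + S.c4 ≤ S.c1) ∧
      (Q.B * (2 * (Q.r : ℝ) + 1) ^ 3 * Real.exp (80 * S.θ * Q.w - Q.f) +
        (2 * (Q.r : ℝ) + 1) ^ 3 * (n * (2 * (Q.A : ℝ) + 1) ^ 3) ^ 6 *
          (2 * Real.exp 1 * (6 * S.c1)) ^ 6 ≤ S.π6) ∧
      (0 ≤ S.γS ∧ S.γS + S.τ 1 + S.c4 + Q.D' * S.π6 ≤ S.cS) ∧
      Q.B * (2 * (Q.ρ : ℝ) + 1) ^ 3 * Real.exp (80 * S.θ * Q.w - Q.f) ≤ S.ε ^ 2 ∧
      Q.B * (n * (2 * (Q.ρ : ℝ) + 1) ^ 3 *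
          (2 * Real.exp 3 * ((Q.P.a 0 + 1) * S.c1 + S.cF))) ^ (Q.P.a 0 + 1) +
        Q.B * ((2 * (Q.ρ : ℝ) + 1) ^ 3 * (n * (2 * (Q.A : ℝ) + 1) ^ 3 *
          (2 * Real.exp 3 * (6 * Q.k * S.cS + S.cF))) ^ 6) ^ Q.k ≤ S.ε ^ 2

/-- **(Word)** the word of the torus has the clocks of G1 and of RARE. -/
def WordStmt : Prop :=
  ∀ (n : ℕ) [NeZero n] (L : ℕ) [NeZero L], 3 ≤ L → ∀ β : ℝ, 1 ≤ β →
    ∀ sy : List (Top.Sl L n × Top.Sl L n × ℝ), Top.Sym sy → ∀ w : ℕ,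
      Word (Top.ex β w sy) (Top.ey β w sy) (Top.pp β w sy) (Top.lay sy).length (w + 1) (⌊β⌋₊ + 1)
        (3 * n ^ 2 / (w + 1 : ℕ)) ∧
      ∀ y : ℝ, 1 / 2 ≤ y → y ≤ 1 →
        Clock (Top.ex β w sy) (Top.ey β w sy) (Top.pp β w sy) (fun s => if s = 0 then y else 1)
          (Top.lay sy).length (w + 1) (⌊β⌋₊ + 1) (β / (2 * Top.MM β w)) (8 * n ^ 2)
          {0, Top.MM β w - 1} ∧
        Pers (Top.ex β w sy) (Top.ey β w sy) (Top.pp β w sy) (fun s => if s = 0 then y else 1)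
          (Top.lay sy).length (w + 1) (8 * n ^ 2)

end Crest.Agent.N337.RR
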