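import Crest.Agent.N337.R.Core1

/-!
# Row 337, RARE (helper4): the core theorem (trees, tilt, continuity in the fugacity)
-/

set_option autoImplicit false
set_option linter.unusedSectionVars false

namespace Crest.Agent.N337.RR

open Finset Equiv Crest.MathPhysics.SpinModel Crest.Agent.N337.Rep Free KV G1

variable {L n T : ℕ} [NeZero L] [NeZero T] {ex ey : Fin T → Tor 3 L × Fin n} {p : Fin T → ℝ}
  {Q : Par} {S : RPar} (C : Ctx ex ey p Q S)
include C

theorem Ctx.σ_mono {t : ℕ} (ht : 1 ≤ t) : Q.P.σ 1 ≤ Q.P.σ t := by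
  induction t, ht using Nat.le_induction with
  | base => exact le_rfl
  | succ t ht ih =>
    obtain ⟨t, rfl⟩ := Nat.exists_eq_add_of_le' ht
    have h1 := (C.N.hs t).2
    have h2 := (C.N.hs (t + 1)).1
    omega

theorem Ctx.cS_pos : 0 < S.cS := by
  have := C.N.cS; have := C.N.nn.2.1; have := C.N.nn.2.2.2.1 1; have := C.N.nn.2.2.2.2.2.1
  have : 0 ≤ Q.D' * S.π6 := mul_nonneg (Nat.cast_nonneg _) C.π6_nonneg
  linarith

theorem Ctx.cF_nonneg : 0 ≤ S.cF := by
  refine le_trans (add_nonneg (mul_nonneg (Nat.cast_nonneg _) (sum_nonneg fun t _ => ?_))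
    C.N.nn.2.2.2.2.2.2) C.N.cF
  have := C.N.nn.2.2.1 t; have := C.N.nn.2.2.2.1 t
  positivity

/-- the row sum of a base witness. -/
noncomputable def rr (Q : Par) (S : RPar) (b : Bool) : ℝ :=
  if b then (Q.P.a 0 + 1) * S.c1 else 6 * Q.k * S.cS

theorem Ctx.rr_pos (b : Bool) : 0 < rr Q S b := by
  have := C.c1_pos; have := C.cS_pos
  have : (0 : ℝ) < Q.k := by exact_mod_cast C.N.hk
  unfold rr; split_ifs <;> positivity

/-- the point families of one cell. -/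
theorem Ctx.fam (c : Tor 3 L) : ∃ 𝒜 : Finset (Finset (Fin T × (Tor 3 L × Fin n)) × Bool),
    (∀ A ∈ 𝒜, A.1.Nonempty ∧ A.1.card ≤ Q.k0 ∧ ∀ v ∈ A.1, tdist c v.2.1 ≤ Q.ρ + Q.A ∧
      ∀ y, 0 < y → y ≤ S.y0 → Rare ex ey p Q S 2 y →
        ∑ u ∈ A.1, AG ex ey p (Top.bt y) v u ≤ rr Q S A.2 * DL.Zt ex ey p (Top.bt y)) ∧
    ∑ A ∈ 𝒜, (2 * Real.exp 3 * (rr Q S A.2 + S.cF)) ^ A.1.card ≤ S.ε ^ 2 ∧
    ∀ R, PtEv Q c R → ∃ A ∈ 𝒜, A.1 ⊆ R := by
  classical
  have hT : T = Q.B * Q.D := by rw [C.W.hT, mul_assoc]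
  have hB' : 2 * (1 * Q.D') ≤ Q.B :=
    le_trans (Nat.mul_le_mul_left 2 (Nat.mul_le_mul_right _ C.N.hk)) C.N.hB
  choose X1 a1 a2 a3 using fun i => C.pt L n T Q.D Q.B Q.D' i 1 (Q.P.a 0 + 1) 0 Q.ρ c hT C.N.hD hB'
  choose X3 b1 b2 b3 using fun i => C.pt L n T Q.D Q.B Q.D' i Q.k 6 Q.ρ Q.A c hT C.N.hD C.N.hB
  have hk := C.N.hk
  refine ⟨((range Q.B).biUnion X1).image (fun X => (X, true)) ∪
    ((range Q.B).biUnion X3).image (fun X => (X, false)), fun A hA => ?_, ?_, fun R h => ?_⟩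
  · simp only [mem_union, mem_image, mem_biUnion] at hA
    rcases hA with ⟨X, ⟨i, -, hX⟩, rfl⟩ | ⟨X, ⟨i, -, hX⟩, rfl⟩
    · have := a2 i X hX
      refine ⟨card_pos.1 (by rw [this.1]; omega), by rw [this.1, Par.k0]; omega,
        fun v hv => ⟨by have := (this.2 v hv).1; omega, fun y h0 hy H => ?_⟩⟩
      refine (sum_le_sum fun u hu => C.same h0 hy H (((this.2 v hv).2.2 u hu).2 rfl)).trans ?_
      rw [sum_const, this.1, nsmul_eq_mul]
      exact le_of_eq (by simp only [rr]; push_cast; ring)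
    · have := b2 i X hX
      refine ⟨card_pos.1 (by rw [this.1]; omega), by rw [this.1, Par.k0]; omega,
        fun v hv => ⟨(this.2 v hv).1, fun y h0 hy H => ?_⟩⟩
      refine (sum_le_sum fun u hu => C.short h0 hy H (this.2 v hv).2.1
        ((this.2 v hv).2.2 u hu).1).trans ?_
      rw [sum_const, this.1, nsmul_eq_mul]
      exact le_of_eq (by simp only [rr]; push_cast; ring)
  · have hp : ∀ b, 0 ≤ 2 * Real.exp 3 * (rr Q S b + S.cF) := fun b => by
      have := C.rr_pos b; have := C.cF_nonneg; positivity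
    have key : ∀ (b : Bool) (X : ℕ → Finset (Finset (Fin T × (Tor 3 L × Fin n)))) (M j : ℕ),
        (∀ i, (X i).card ≤ M) → (∀ i, ∀ Y ∈ X i, Y.card = j) →
        ∑ A ∈ ((range Q.B).biUnion X).image (fun X => (X, b)),
          (2 * Real.exp 3 * (rr Q S A.2 + S.cF)) ^ A.1.card ≤
            Q.B * (M * (2 * Real.exp 3 * (rr Q S b + S.cF)) ^ j) := fun b X M j h1 h2 => by
      rw [sum_image fun _ _ _ _ h => (Prod.mk.inj h).1]
      have : ∀ Y ∈ (range Q.B).biUnion X, (2 * Real.exp 3 * (rr Q S b + S.cF)) ^ Y.card =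
          (2 * Real.exp 3 * (rr Q S b + S.cF)) ^ j := fun Y hY => by
        obtain ⟨i, -, hi⟩ := mem_biUnion.1 hY
        rw [h2 i Y hi]
      rw [sum_congr rfl this, sum_const, nsmul_eq_mul, ← mul_assoc]
      refine mul_le_mul_of_nonneg_right ?_ (pow_nonneg (hp b) _)
      have := card_biUnion_le_card_mul (range Q.B) X M fun i _ => h1 i
      rw [card_range] at this
      exact_mod_cast this
    refine ((le_add_of_nonneg_right (sum_nonneg fun A _ => pow_nonneg (hp _) _)).trans_eq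
      sum_union_inter).trans
      ((add_le_add (key true X1 _ _ a1 fun i Y h => (a2 i Y h).1)
        (key false X3 _ _ b1 fun i Y h => (b2 i Y h).1)).trans (le_trans (le_of_eq ?_) C.N.eP))
    simp only [rr]
    push_cast
    simp only [mul_pow, ← pow_mul]
    ring
  · rcases h with ⟨i, hi, h⟩ | ⟨i, hi, h⟩
    · obtain ⟨X, h1, h2⟩ := a3 i R h
      exact ⟨(X, true), mem_union_left _ (mem_image_of_mem _
        (mem_biUnion.2 ⟨i, mem_range.2 hi, h1⟩)), h2⟩
    · obtain ⟨X, h1, h2⟩ := b3 i R h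
      exact ⟨(X, false), mem_union_right _ (mem_image_of_mem _
        (mem_biUnion.2 ⟨i, mem_range.2 hi, h1⟩)), h2⟩

/-- fast chains at separated cells. -/
theorem Ctx.fasts {y : ℝ} (h0 : 0 ≤ y) (hy : y ≤ S.y0) {Y : Finset (Tor 3 L)}
    (hY : ∀ c ∈ Y, ∀ c' ∈ Y, c ≠ c' → Q.P.σ 1 < 2 * tdist c c') :
    WR ex ey p (Top.bt y) (fun ξ _ => ∀ c ∈ Y, Fast ex ey Q.D Q.B Q.f Q.ρ c ξ) ≤
      (S.ε ^ 2) ^ Y.card * DL.Zt ex ey p (Top.bt y) := by
  classical
  choose 𝒮 a1 a2 a3 using fun c => C.fast L n T ex ey p _ _ _ _ C.W C.N.hθ Q.f Q.ρ c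
  have hB := ((C.bas _ T ex ey p C.W.hp).2.2.2 y h0 (C.lt hy)).2.2.2.2.1
  refine (WR_pi C.W.hp1 (bt_mem h0 (C.lt hy)) (fun c : Y => 𝒮 c)
    (E' := fun g ξ _ => ∀ s ∈ univ.biUnion g, ξ s = true) (fun S => ∏ s ∈ S, 6 * p s)
    (Z := DL.Zt ex ey p (Top.bt y)) (fun ξ _ _ h => ?_) fun g hg => ?_).trans
    (mul_le_mul_of_nonneg_right ?_ (C.Zpos h0).le)
  · choose g h1 h2 using fun c : Y => a3 c ξ (h c c.2)
    refine ⟨g, h1, fun s hs => ?_⟩
    obtain ⟨c, -, hc⟩ := mem_biUnion.1 hs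
    exact h2 c s hc
  · rw [← prod_biUnion]
    · exact hB _
    intro c _ c' _ hne
    refine disjoint_left.2 fun s h1 h2 => ?_
    have e1 := a1 c _ (hg c) s h1
    have e2 := a1 c' _ (hg c') s h2
    have e3 := hY c c.2 c' c'.2 fun h => hne (Subtype.ext h)
    have e4 := tdist_triangle c.1 (ex s).1 c'.1
    rw [tdist_comm (ex s).1] at e4
    have := C.N.sep
    omega
  · rw [← Fintype.card_coe Y, ← card_univ, ← prod_const]
    refine prod_le_prod (fun c _ => sum_nonneg fun S _ => prod_nonneg fun s _ => ?_)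
      fun c _ => (a2 c).trans C.N.eF
    have := (C.W.hp s).1
    positivity

/-- red witnesses at separated cells. -/
theorem Ctx.pts {y : ℝ} (h0 : 0 ≤ y) (hy : y ≤ S.y0)
    (H : ∀ y', 0 < y' → y' ≤ y → Rare ex ey p Q S 2 y') {m : ℕ} (hm : m < Q.P.mt)
    {Y Y' : Finset (Tor 3 L)} (hY : Row Q.P Q.a m Y) (hc : Y.card = (Q.a + 1) ^ m) (hY' : Y' ⊆ Y) :
    WR ex ey p (Top.bt y) (fun _ R => (∀ c ∈ Y', PtEv Q c R) ∧ n0 R ≤ 2 * Q.N) ≤
      (S.ε ^ 2) ^ Y'.card * DL.Zt ex ey p (Top.bt y) := by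
  classical
  choose 𝒜 a1 a2 a3 using C.fam
  have hB := C.bas _ T ex ey p C.W.hp
  dsimp only at hB
  have hF := C.cF_nonneg
  have hZ := C.Zpos h0
  refine (WR_pi C.W.hp1 (bt_mem h0 (C.lt hy)) (fun c : Y' => 𝒜 c)
    (E' := fun g _ R => univ.biUnion (fun c => (g c).1) ⊆ R ∧ n0 R ≤ 2 * Q.N)
    (fun A => (2 * Real.exp 3 * (rr Q S A.2 + S.cF)) ^ A.1.card)
    (Z := DL.Zt ex ey p (Top.bt y)) (fun ξ R _ h => ?_) fun g hg => ?_).trans
    (mul_le_mul_of_nonneg_right ?_ hZ.le)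
  · choose g h1 h2 using fun c : Y' => a3 c R (h.1 c c.2)
    exact ⟨g, h1, biUnion_subset.2 fun c _ => h2 c, h.2⟩
  swap
  · rw [← Fintype.card_coe Y', ← card_univ, ← prod_const]
    refine prod_le_prod (fun c _ => sum_nonneg fun A _ => ?_) fun c _ => a2 c
    have := C.rr_pos A.2
    positivity
  set X := univ.biUnion fun c => (g c).1 with hX
  have hpos : ∀ c, 0 < 2 * Real.exp 3 * (rr Q S (g c).2 + S.cF) := fun c => by
    have := C.rr_pos (g c).2
    positivity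
  -- distances
  have dist : ∀ (c c' : Y') (t : ℕ), 1 ≤ t → Q.P.σ t < 2 * tdist c.1 c'.1 → ∀ v ∈ (g c).1,
      ∀ u ∈ (g c').1, Q.P.σ t < 4 * tdist u.2.1 v.2.1 := fun c c' t ht h v hv u hu => by
    have e1 := ((a1 c _ (hg c)).2.2 v hv).1
    have e2 := ((a1 c' _ (hg c')).2.2 u hu).1
    have e3 := tdist_triangle c.1 v.2.1 c'.1
    have e4 := tdist_triangle v.2.1 u.2.1 c'.1
    rw [tdist_comm u.2.1 c'.1, tdist_comm v.2.1 u.2.1] at e4
    have := C.N.sep
    have := C.σ_mono ht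
    omega
  have disj : ((univ : Finset Y') : Set Y').PairwiseDisjoint fun c => (g c).1 := by
    intro c _ c' _ hne
    refine disjoint_left.2 fun v h1 h2 => ?_
    have := dist c c' 1 le_rfl (hY.1 c (hY' c.2) c' (hY' c'.2) fun h => hne (Subtype.ext h))
      v h1 v h2
    rw [tdist_self] at this
    omega
  rcases h0.eq_or_lt with rfl | h0'
  · by_cases hne : Y'.Nonempty
    · rw [hB.2.2.1 _ fun ξ R _ h => ?_]
      · exact mul_nonneg (prod_nonneg fun c _ => (pow_pos (hpos c) _).le) hZ.le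
      · obtain ⟨c, hc⟩ := hne
        obtain ⟨v, hv⟩ := (a1 c _ (hg ⟨c, hc⟩)).1
        exact ⟨v, h.1 (mem_biUnion.2 ⟨⟨c, hc⟩, mem_univ _, hv⟩)⟩
    · have : IsEmpty Y' := ⟨fun c => hne ⟨c, c.2⟩⟩
      rw [univ_eq_empty, prod_empty, one_mul, ← (hB.2.2.2 0 le_rfl one_pos).2.1]
      exact WR_mono C.W.hp1 (bt_mem le_rfl one_pos) fun _ _ _ _ => trivial
  have hN : (0 : ℝ) < Q.N := by exact_mod_cast C.N.hN
  set k := X.card with hk
  have hkc : k = ∑ c, (g c).1.card := card_biUnion disj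
  have hkl : k ≤ Q.k0 * (Q.a + 1) ^ Q.P.mt := by
    rw [hkc]
    refine (sum_le_sum fun (c : Y') _ => (a1 c _ (hg c)).2.1).trans ?_
    rw [sum_const, card_univ, Fintype.card_coe, smul_eq_mul, mul_comm]
    exact Nat.mul_le_mul_left _ ((card_le_card hY').trans
      (hc ▸ Nat.pow_le_pow_right (Nat.succ_pos _) hm.le))
  set y' := min y (Real.exp (-(k / Q.N))) with hy'
  have p0 : 0 < y' := lt_min h0' (Real.exp_pos _)
  have p1 : y' ≤ y := min_le_left _ _
  have p2 : y' ≤ S.y0 := p1.trans hy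
  have H' := H y' p0 p1
  have hZ' := C.Zpos p0.le
  obtain ⟨t1, t2⟩ := (hB.2.2.2 y h0 (C.lt hy)).2.2.2.2.2.1 y' p0 p1
  have tilt : (y / y') ^ (2 * Q.N) ≤ Real.exp 2 ^ k := by
    have : y / y' ≤ Real.exp (k / Q.N) := by
      rw [div_le_iff₀ p0]
      rcases le_total y (Real.exp (-(k / Q.N))) with h | h
      · rw [hy', min_eq_left h]
        exact le_mul_of_one_le_left h0 (Real.one_le_exp (by positivity))
      · rw [hy', min_eq_right h, ← Real.exp_add, add_neg_cancel, Real.exp_zero]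
        exact (C.lt hy).le
    refine (pow_le_pow_left₀ (by positivity) this _).trans (le_of_eq ?_)
    rw [← Real.exp_nat_mul, ← Real.exp_nat_mul]
    congr 1; push_cast; field_simp
  set r : Fin T × (Tor 3 L × Fin n) → ℝ :=
    fun v => ∑ c, if v ∈ (g c).1 then rr Q S (g c).2 + S.cF else 0 with hr
  have r_eq : ∀ c, ∀ v ∈ (g c).1, r v = rr Q S (g c).2 + S.cF := fun c v hv => by
    rw [hr]
    refine (sum_eq_single c (fun c' _ hne => if_neg fun h => ?_) (by simp)).trans (if_pos hv)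
    exact disjoint_left.1 (disj (mem_coe.2 (mem_univ c')) (mem_coe.2 (mem_univ c)) hne) h hv
  have main := (hB.2.2.2 y' p0.le (C.lt p2)).2.2.2.2.2.2 X r (fun v hv => by
    obtain ⟨c, -, hc⟩ := mem_biUnion.1 hv
    rw [r_eq c v hc]
    have := C.rr_pos (g c).2
    positivity) fun v hv => by
    obtain ⟨c, -, hc⟩ := mem_biUnion.1 hv
    set Z' := DL.Zt ex ey p (Top.bt y')
    set ν := S.μ y' + 2 * S.δ y'
    have hν : 0 ≤ ν := by
      have := C.N.nn.2.2.2.2.1 y'; have := C.N.δ0 y' p0.le p2; positivity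
    rw [r_eq c v hc, hX, sum_biUnion disj, ← add_sum_erase _ _ (mem_univ c), add_mul]
    refine add_le_add (((a1 c _ (hg c)).2.2 v hc).2 y' p0 p2 H') ?_
    have row := hY.2 c (hY' c.2) (fun c' => if h : c' ∈ Y' then
      ∑ u ∈ (g ⟨c', h⟩).1, (AG ex ey p (Top.bt y') v u - ν * Z') else 0)
      (fun t => Q.k0 * (S.γD t + S.τ t) * Z') (fun t => by
        have := C.N.nn.2.2.1 t; have := C.N.nn.2.2.2.1 t; positivity) fun c' _ t h1 h2 h3 => by
      have := C.N.nn.2.2.1 t; have := C.N.nn.2.2.2.1 t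
      split_ifs with h
      · refine (sum_le_sum (g := fun _ => (S.γD t + S.τ t) * Z') fun u hu => ?_).trans ?_
        · have e1 := dist c ⟨c', h⟩ t h1 h3 v hc u hu
          have := C.far p0 p2 H' h1 (h2.trans_lt hm) (v := v) (u := u) (by omega)
          linarith
        · rw [sum_const, nsmul_eq_mul, mul_assoc]
          exact mul_le_mul_of_nonneg_right (by exact_mod_cast (a1 c' _ (hg ⟨c', h⟩)).2.1)
            (by positivity)
      · positivity
    have e1 : ∑ c' ∈ univ.erase c, ∑ u ∈ (g c').1, (AG ex ey p (Top.bt y') v u - ν * Z') =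
        ∑ c' ∈ Y.erase c.1, if h : c' ∈ Y' then
          ∑ u ∈ (g ⟨c', h⟩).1, (AG ex ey p (Top.bt y') v u - ν * Z') else 0 := by
      symm
      refine sum_bij_ne_zero (fun c' _ h => ⟨c', by by_contra h'; exact h (dif_neg h')⟩)
        (fun c' h1 h2 => ?_) (fun _ _ _ _ _ _ h => congrArg Subtype.val h) (fun c' h1 h2 => ?_)
        fun c' h1 h2 => ?_
      · exact mem_erase.2 ⟨fun h => (mem_erase.1 h1).1 (congrArg Subtype.val h), mem_univ _⟩
      · exact ⟨c'.1, mem_erase.2 ⟨fun h => (mem_erase.1 h1).1 (Subtype.ext h), hY' c'.2⟩,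
          by rw [dif_pos c'.2]; exact h2, rfl⟩
      · exact dif_pos _
    have e2 : ∑ c' ∈ univ.erase c, ∑ u ∈ (g c').1, ν * Z' ≤ S.c3 * Z' := by
      refine le_trans ?_ (mul_le_mul_of_nonneg_right (C.N.h2 y' p0 p2 k hkl (min_le_right _ _))
        hZ'.le)
      simp only [sum_const, nsmul_eq_mul]
      rw [← sum_mul, mul_assoc]
      refine mul_le_mul_of_nonneg_right ?_ (by positivity)
      rw [hkc]; push_cast
      exact sum_le_sum_of_subset_of_nonneg (erase_subset _ _) fun _ _ _ => Nat.cast_nonneg _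
    have e3 : ∑ t ∈ Icc 1 m, ((Q.a : ℝ) + 1) ^ t * (Q.k0 * (S.γD t + S.τ t) * Z') ≤
        Q.k0 * (∑ t ∈ Icc 1 (Q.P.mt - 1), ((Q.a : ℝ) + 1) ^ t * (S.γD t + S.τ t)) * Z' := by
      rw [mul_sum, sum_mul]
      refine le_trans (le_of_eq (sum_congr rfl fun t _ => by ring))
        (sum_le_sum_of_subset_of_nonneg (Icc_subset_Icc_right (by omega)) fun t _ _ => ?_)
      have := C.N.nn.2.2.1 t; have := C.N.nn.2.2.2.1 t; positivity
    have e4 := mul_le_mul_of_nonneg_right C.N.cF hZ'.le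
    simp only [sum_sub_distrib] at e1 row
    linarith
  refine (t2 _ _).trans ((mul_le_mul tilt main ((hB.2.2.2 y' p0.le (C.lt p2)).2.2.1 _)
    (by positivity)).trans ?_)
  rw [← mul_assoc]
  refine mul_le_mul (le_of_eq ?_) t1 hZ'.le (prod_nonneg fun c _ => (pow_pos (hpos c) _).le)
  rw [hkc, ← prod_pow_eq_pow_sum, hX, prod_biUnion disj, ← prod_mul_distrib]
  refine prod_congr rfl fun c _ => ?_
  rw [prod_congr rfl fun v hv => by rw [r_eq c v hv], prod_const, ← mul_pow]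
  congr 1
  rw [show (3 : ℝ) = 2 + 1 by norm_num, Real.exp_add]; ring

/-- the junk levels. -/
theorem Ctx.level {y : ℝ} (h0 : 0 ≤ y) (hy : y ≤ S.y0)
    (H : ∀ y', 0 < y' → y' ≤ y → Rare ex ey p Q S 2 y') {m : ℕ} (hm : m < Q.P.mt) (x : Tor 3 L) :
    WR ex ey p (Top.bt y) (fun ξ R => x ∈ UU ex ey Q ξ R (m + 1) ∧ n0 R ≤ 2 * Q.N) ≤
      S.pm (m + 1) * DL.Zt ex ey p (Top.bt y) := by
  classical
  have hb := bt_mem (T := T) (Λ := Tor 3 L × Fin n) h0 (C.lt hy)
  have hZ := (C.Zpos h0).le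
  have hε := C.N.hε
  obtain ⟨𝒯, a1, a2, a3⟩ := (C.tree L Q.P Q.a C.N.ha C.N.hs).2.2 m x
  refine (WR_union C.W.hp1 hb 𝒯 (E' := fun Y ξ R => Y ⊆ U1 ex ey Q ξ R ∧ n0 R ≤ 2 * Q.N)
    fun ξ R _ h => ?_).trans ((sum_le_sum (g := fun _ => (2 * S.ε) ^ (Q.a + 1) ^ m *
      DL.Zt ex ey p (Top.bt y)) fun Y hY => ?_).trans ?_)
  · obtain ⟨Y, h1, h2⟩ := a3 _ h.1
    exact ⟨Y, h1, h2, h.2⟩
  · obtain ⟨b1, b2⟩ := a2 Y hY
    refine (WR_union C.W.hp1 hb Y.powerset (E' := fun Y' ξ R => ((∀ c ∈ Y', PtEv Q c R) ∧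
      n0 R ≤ 2 * Q.N) ∧ ∀ c ∈ Y \ Y', Fast ex ey Q.D Q.B Q.f Q.ρ c ξ) fun ξ R _ h => ?_).trans
      ((sum_le_sum (g := fun _ => S.ε ^ Y.card * DL.Zt ex ey p (Top.bt y)) fun Y' hY' => ?_).trans
        (le_of_eq ?_))
    · refine ⟨Y.filter fun c => PtEv Q c R, mem_powerset.2 (filter_subset _ _),
        ⟨fun c hc => (mem_filter.1 hc).2, h.2⟩, fun c hc => ?_⟩
      have h1 := mem_sdiff.1 hc
      exact (mem_filter.1 (h.1 h1.1)).2.resolve_right fun h' => h1.2 (mem_filter.2 ⟨h1.1, h'⟩)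
    · have hs := mem_powerset.1 hY'
      have hcard := card_sdiff_add_card_eq_card hs
      rcases le_total Y.card (2 * Y'.card) with h | h
      · refine (WR_mono C.W.hp1 hb fun _ _ _ h => h.1).trans
          ((C.pts h0 hy H hm b2 b1 hs).trans (mul_le_mul_of_nonneg_right ?_ hZ))
        rw [← pow_mul]
        exact pow_le_pow_of_le_one hε.1.le hε.2 h
      · refine (WR_mono C.W.hp1 hb fun _ _ _ h => h.2).trans ((C.fasts h0 hy (Y := Y \ Y')
          fun c hc c' hc' => b2.1 c (mem_sdiff.1 hc).1 c' (mem_sdiff.1 hc').1).trans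
          (mul_le_mul_of_nonneg_right ?_ hZ))
        rw [← pow_mul]
        exact pow_le_pow_of_le_one hε.1.le hε.2 (by omega)
    · rw [sum_const, card_powerset, nsmul_eq_mul, b1, mul_pow]; push_cast; ring
  · rw [sum_const, nsmul_eq_mul, ← mul_assoc]
    refine mul_le_mul_of_nonneg_right (le_trans ?_ (C.N.tree m hm)) hZ
    exact mul_le_mul_of_nonneg_right (by exact_mod_cast a1) (by have := hε.1; positivity)

/-- the density of the red set. -/
theorem Ctx.dense {y : ℝ} (h0 : 0 < y) (hy : y ≤ S.y0) (H : Rare ex ey p Q S 2 y) :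
    WR ex ey p (Top.bt y) (fun _ R => 2 * Q.N < n0 R) ≤ S.δ y * DL.Zt ex ey p (Top.bt y) := by
  classical
  have hb := bt_mem (T := T) (Λ := Tor 3 L × Fin n) h0.le (C.lt hy)
  have hZ := C.Zpos h0.le
  obtain ⟨k, a1, a2, a3⟩ := C.N.h3 y h0 hy
  have hmt := C.N.mt
  set t := Q.P.mt - 1
  set d := Q.P.σ t / 4
  set r := S.c1 + k * (S.γD t + S.τ t + (S.μ y + 2 * S.δ y)) with hr
  have g0 : 0 ≤ S.γD t + S.τ t + (S.μ y + 2 * S.δ y) := by
    have := C.N.nn.2.2.1 t; have := C.N.nn.2.2.2.1 t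
    have := C.N.nn.2.2.2.2.1 y; have := C.N.δ0 y h0.le hy; positivity
  have r0 : 0 < r := by have := C.c1_pos; positivity
  set I := univ.filter fun f : Fin k → Tor 3 L × Fin n => ∀ a b, a ≠ b → d < tdist (f a).1 (f b).1
  have e1 := WR_markov C.W.hp1 hb I (ex := ex) (ey := ey) (E := fun _ R => 2 * Q.N < n0 R)
    (E' := fun f _ R => univ.image (fun a => ((0 : Fin T), f a)) ⊆ R) (M := Q.N ^ k)
    fun ξ R _ h => (C.gen.1 L n k d Q.N _ h.le a2).trans (card_le_card fun f hf => by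
      simp only [I, mem_filter, mem_univ, true_and] at hf ⊢
      exact ⟨hf.1, image_subset_iff.2 fun a _ => hf.2 a⟩)
  have e2 : ∀ f ∈ I, WR ex ey p (Top.bt y) (fun _ R => univ.image (fun a => ((0 : Fin T), f a)) ⊆ R) ≤
      (2 * Real.exp 1 * r) ^ k * DL.Zt ex ey p (Top.bt y) := fun f hf => by
    have hf' := (mem_filter.1 hf).2
    have inj : Function.Injective fun a => ((0 : Fin T), f a) := fun a b h => by
      by_contra hne
      have := hf' a b hne
      rw [(Prod.mk.inj h).2, tdist_self] at this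
      omega
    have := ((C.bas _ T ex ey p C.W.hp).2.2.2 y h0.le (C.lt hy)).2.2.2.2.2.2
      (univ.image fun a => ((0 : Fin T), f a)) (fun _ => r) (fun _ _ => r0) fun v hv => by
      obtain ⟨a, -, rfl⟩ := mem_image.1 hv
      rw [sum_image fun _ _ _ _ h => inj h, ← add_sum_erase _ _ (mem_univ a), hr, add_mul]
      refine add_le_add (C.same h0 hy H rfl) ((sum_le_sum fun b hb => C.far h0 hy H (t := t)
        (by omega) (by omega) (hf' b a (mem_erase.1 hb).1).le).trans ?_)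
      rw [sum_const, nsmul_eq_mul, mul_assoc]
      refine mul_le_mul_of_nonneg_right ?_ (by positivity)
      have := card_le_univ (univ.erase a)
      rw [Fintype.card_fin] at this
      exact_mod_cast this
    rwa [prod_const, card_image_of_injective _ inj, card_univ, Fintype.card_fin] at this
  have e3 := e1.trans (sum_le_sum e2)
  rw [sum_const, nsmul_eq_mul] at e3
  have e4 : (I.card : ℝ) ≤ (n * (L : ℝ) ^ 3) ^ k := by
    have := card_le_univ I
    rw [Fintype.card_fun, Fintype.card_prod, card_Tor, Fintype.card_fin, Fintype.card_fin,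
      mul_comm] at this
    exact_mod_cast this
  have hN : (0 : ℝ) < Q.N := by exact_mod_cast C.N.hN
  have e5 : (n * (L : ℝ) ^ 3) ^ k * (2 * Real.exp 1 * r) ^ k ≤ (Q.N : ℝ) ^ k * Real.exp (-k) := by
    rw [← mul_pow, show (-k : ℝ) = k * (-1) by ring, Real.exp_nat_mul, ← mul_pow]
    refine pow_le_pow_left₀ (by positivity) ?_ _
    have e : Real.exp 2 * Real.exp (-1) = Real.exp 1 := by rw [← Real.exp_add]; norm_num
    have := mul_le_mul_of_nonneg_right a3 (Real.exp_pos (-1)).le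
    calc _ = 2 * Real.exp 2 * (n * (L : ℝ) ^ 3) * r * Real.exp (-1) := by rw [← e]; ring
      _ ≤ _ := this
  refine le_of_mul_le_mul_left (a := (Q.N : ℝ) ^ k) ?_ (by positivity)
  push_cast at e3
  calc _ ≤ _ := e3
    _ ≤ (n * (L : ℝ) ^ 3) ^ k * ((2 * Real.exp 1 * r) ^ k * DL.Zt ex ey p (Top.bt y)) :=
      mul_le_mul_of_nonneg_right e4 (by positivity)
    _ ≤ (Q.N : ℝ) ^ k * Real.exp (-k) * DL.Zt ex ey p (Top.bt y) := by
      rw [← mul_assoc]; exact mul_le_mul_of_nonneg_right e5 hZ.le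
    _ ≤ _ := by
      rw [mul_assoc]
      exact mul_le_mul_of_nonneg_left (mul_le_mul_of_nonneg_right a1 hZ.le) (by positivity)

/-- **core theorem.** -/
theorem Ctx.rare {y : ℝ} (h0 : 0 ≤ y) (hy : y ≤ S.y0) : Rare ex ey p Q S 1 y := by
  classical
  have hB := C.bas _ T ex ey p C.W.hp
  dsimp only at hB
  set φ : Option (Fin Q.P.mt × Tor 3 L) → ℝ → ℝ := fun i y => match i with
    | none => WR ex ey p (Top.bt y) (fun _ R => 2 * Q.N < n0 R) /
        (S.δ y * DL.Zt ex ey p (Top.bt y))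
    | some q => WR ex ey p (Top.bt y) (fun ξ R => q.2 ∈ UU ex ey Q ξ R (q.1 + 1) ∧
        n0 R ≤ 2 * Q.N) / (S.pm (q.1 + 1) * DL.Zt ex ey p (Top.bt y)) with hφ
  have iff : ∀ s y, 0 ≤ y → y ≤ S.y0 → (∀ i, φ i y ≤ s) → Rare ex ey p Q S s y := fun s y h0 hy h => by
    have hZ := C.Zpos h0
    refine ⟨fun m h1 h2 x => ?_, ?_⟩
    · obtain ⟨m, rfl⟩ := Nat.exists_eq_add_of_le' h1
      have := h (some (⟨m, h2⟩, x))
      rwa [hφ, div_le_iff₀ (mul_pos (C.N.pm _) hZ), ← mul_assoc] at this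
    · have := h none
      rwa [hφ, div_le_iff₀ (mul_pos (C.N.δ0 y h0 hy) hZ), ← mul_assoc] at this
  refine iff 1 y h0 hy (C.gen.2 _ φ S.y0 (fun i => ?_) (fun i => ?_) (fun y h0 hy H i => ?_) y h0 hy)
  · rcases i with _ | q
    · exact (hB.1 _).continuousOn.div (C.N.δc.mul hB.2.1.continuousOn) fun y hy =>
        (mul_pos (C.N.δ0 y hy.1 hy.2) (C.Zpos hy.1)).ne'
    · exact (hB.1 _).continuousOn.div (continuousOn_const.mul hB.2.1.continuousOn) fun y hy =>
        (mul_pos (C.N.pm _) (C.Zpos hy.1)).ne'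
  · rcases i with _ | q
    · simp only [hφ]
      rw [hB.2.2.1 _ fun ξ R _ h => ?_, zero_div]
      · exact zero_le_one
      · obtain ⟨x, hx⟩ := card_pos.1 ((Nat.zero_le _).trans_lt h)
        exact ⟨_, (mem_filter.1 hx).2⟩
    · exact (div_le_one (mul_pos (C.N.pm _) (C.Zpos le_rfl))).2
        (C.level le_rfl C.N.hy.1 (fun y' a b => absurd a (not_lt.2 b)) q.1.2 q.2)
  · have H' : ∀ y', 0 < y' → y' ≤ y → Rare ex ey p Q S 2 y' := fun y' a b =>
      iff 2 y' a.le (b.trans hy) (H y' a.le b)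
    rcases i with _ | q
    · exact (div_le_one (mul_pos (C.N.δ0 y h0.le hy) (C.Zpos h0.le))).2
        (C.dense h0 hy (H' y h0 le_rfl))
    · exact (div_le_one (mul_pos (C.N.pm _) (C.Zpos h0.le))).2 (C.level h0.le hy H' q.1.2 q.2)

end Crest.Agent.N337.RR
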