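import Crest.Agent.N337.R.Par

/-!
# Row 337, RARE (helper4): annealed Green bounds under the bootstrap hypothesis
-/

set_option autoImplicit false
set_option linter.unusedSectionVars false

namespace Crest.Agent.N337.RR

open Finset Equiv Crest.MathPhysics.SpinModel Crest.Agent.N337.Rep Free KV G1

section gen
variable {Λ : Type} [Fintype Λ] [DecidableEq Λ] {T : ℕ} [NeZero T] {ex ey : Fin T → Λ}
  {p : Fin T → ℝ} {b : Fin T × Λ → ℝ}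

abbrev Evt (T : ℕ) (Λ : Type) : Type := (Fin T → Bool) → Finset (Fin T × Λ) → Prop

theorem cmp_of {ξ : Fin T → Bool} {ω : Rep.Env T Λ} (h : Pw p ξ ≠ 0)
    (hi : ∀ v, ω (Sg ex ey ξ v) = ω v) : Cmp ex ey p ξ (red ω) :=
  ⟨h, fun v => by simp [red, hi]⟩

open Classical in
/-- counting form of the union bound. -/
theorem WR_markov (hp : ∀ s, 0 ≤ p s ∧ p s ≤ 1) (hb : ∀ v, 0 ≤ b v ∧ b v ≤ 1) {ι : Type}
    (I : Finset ι) {E : Evt T Λ} {E' : ι → Evt T Λ} {M : ℕ}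
    (h : ∀ ξ R, Cmp ex ey p ξ R → E ξ R → M ≤ (I.filter fun i => E' i ξ R).card) :
    M * WR ex ey p b E ≤ ∑ i ∈ I, WR ex ey p b (E' i) := by
  unfold WR
  rw [sum_comm, mul_sum]
  refine sum_le_sum fun ξ _ => ?_
  rw [← mul_sum, mul_left_comm]
  by_cases h0 : Pw p ξ = 0
  · simp [h0]
  refine mul_le_mul_of_nonneg_left ?_ (Pw_nonneg hp ξ)
  rw [sum_comm, mul_sum]
  refine sum_le_sum fun ω _ => ?_
  have hw : 0 ≤ zr b ω * (gm (Sg ex ey ξ) b ω).det :=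
    mul_nonneg (zr_nonneg (fun v => (hb v).1) ω)
      (det_gm_nonneg (fun v => (hb v).1) (fun v => (hb v).2) _ ω)
  split_ifs with h1
  · have h2 := h ξ _ (cmp_of h0 h1.1) h1.2
    simp only [h1.1, implies_true, true_and]
    rw [← sum_filter, sum_const, nsmul_eq_mul]
    exact mul_le_mul_of_nonneg_right (by exact_mod_cast h2) hw
  · rw [mul_zero]
    exact sum_nonneg fun i _ => by split_ifs; exacts [hw, le_rfl]

theorem WR_union (hp : ∀ s, 0 ≤ p s ∧ p s ≤ 1) (hb : ∀ v, 0 ≤ b v ∧ b v ≤ 1) {ι : Type}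
    (I : Finset ι) {E : Evt T Λ} {E' : ι → Evt T Λ}
    (h : ∀ ξ R, Cmp ex ey p ξ R → E ξ R → ∃ i ∈ I, E' i ξ R) :
    WR ex ey p b E ≤ ∑ i ∈ I, WR ex ey p b (E' i) := by
  classical
  have := WR_markov hp hb I (E := E) (E' := E') (M := 1) fun ξ R hc hE => by
    obtain ⟨i, hi, h'⟩ := h ξ R hc hE
    exact card_pos.2 ⟨i, mem_filter.2 ⟨hi, h'⟩⟩
  simpa using this

theorem WR_mono (hp : ∀ s, 0 ≤ p s ∧ p s ≤ 1) (hb : ∀ v, 0 ≤ b v ∧ b v ≤ 1) {E E' : Evt T Λ}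
    (h : ∀ ξ R, Cmp ex ey p ξ R → E ξ R → E' ξ R) : WR ex ey p b E ≤ WR ex ey p b E' := by
  simpa using WR_union hp hb ({()} : Finset Unit) (E := E) (E' := fun _ => E')
    fun ξ R hc hE => ⟨(), mem_singleton_self _, h ξ R hc hE⟩

theorem WR_or (hp : ∀ s, 0 ≤ p s ∧ p s ≤ 1) (hb : ∀ v, 0 ≤ b v ∧ b v ≤ 1) {E E1 E2 : Evt T Λ}
    (h : ∀ ξ R, Cmp ex ey p ξ R → E ξ R → E1 ξ R ∨ E2 ξ R) :
    WR ex ey p b E ≤ WR ex ey p b E1 + WR ex ey p b E2 := by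
  have := WR_union hp hb (univ : Finset Bool) (E := E) (E' := fun i => if i then E1 else E2)
    fun ξ R hc hE => by
      rcases h ξ R hc hE with h | h
      · exact ⟨true, mem_univ _, h⟩
      · exact ⟨false, mem_univ _, h⟩
  simpa using this

/-- union bound over product families. -/
theorem WR_pi (hp : ∀ s, 0 ≤ p s ∧ p s ≤ 1) (hb : ∀ v, 0 ≤ b v ∧ b v ≤ 1) {ι α : Type}
    [Fintype ι] [DecidableEq ι] (𝒜 : ι → Finset α) {E : Evt T Λ} {E' : (ι → α) → Evt T Λ}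
    (wt : α → ℝ) {Z : ℝ}
    (h : ∀ ξ R, Cmp ex ey p ξ R → E ξ R → ∃ g, (∀ i, g i ∈ 𝒜 i) ∧ E' g ξ R)
    (hw : ∀ g, (∀ i, g i ∈ 𝒜 i) → WR ex ey p b (E' g) ≤ (∏ i, wt (g i)) * Z) :
    WR ex ey p b E ≤ (∏ i, ∑ A ∈ 𝒜 i, wt A) * Z := by
  rw [prod_univ_sum, sum_mul]
  refine (WR_union hp hb (Fintype.piFinset 𝒜) (E' := E') fun ξ R hc hE => ?_).trans
    (sum_le_sum fun g hg => hw g (Fintype.mem_piFinset.1 hg))
  obtain ⟨g, hg, h'⟩ := h ξ R hc hE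
  exact ⟨g, Fintype.mem_piFinset.2 hg, h'⟩

theorem bt_mem {y : ℝ} (h0 : 0 ≤ y) (h1 : y < 1) (v : Fin T × Λ) :
    0 ≤ (Top.bt y v : ℝ) ∧ (Top.bt y v : ℝ) ≤ 1 := by
  unfold Top.bt; split_ifs
  exacts [⟨h0, h1.le⟩, ⟨zero_le_one, le_rfl⟩]

theorem bt_lt {y : ℝ} (h1 : y < 1) (x : Λ) : Top.bt y ((0 : Fin T), x) < 1 := by
  simpa [Top.bt] using h1

end gen

variable {L n T : ℕ} [NeZero L] [NeZero T] {ex ey : Fin T → Tor 3 L × Fin n} {p : Fin T → ℝ}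
  {Q : Par} {S : RPar}

theorem cntR_mono {R R' : Finset (Fin T × (Tor 3 L × Fin n))} (h : R ⊆ R') (k : ℕ) (z : Tor 3 L)
    (A : ℕ) : cntR R k z A ≤ cntR R' k z A :=
  card_le_card fun y hy => by
    simp only [mem_filter, mem_univ, true_and] at hy ⊢
    exact ⟨h hy.1, hy.2⟩

theorem Pt.mono {D D' i k h ρ A : ℕ} {x : Tor 3 L} {R R' : Finset (Fin T × (Tor 3 L × Fin n))}
    (hR : R ⊆ R') (H : Pt D D' i k h ρ A x R) : Pt D D' i k h ρ A x R' := fun b hb => by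
  obtain ⟨z, h1, h2⟩ := H b hb
  exact ⟨z, h1, h2.trans (cntR_mono hR _ _ _)⟩

theorem UU_mono (hT : TreeStmt) (hN : Num L n Q S) (ξ : Fin T → Bool)
    {R R' : Finset (Fin T × (Tor 3 L × Fin n))} (h : R ⊆ R') (m : ℕ) :
    UU ex ey Q ξ R m ⊆ UU ex ey Q ξ R' m := by
  refine (hT L Q.P Q.a hN.ha hN.hs).1 _ _ (fun c hc => ?_) m
  simp only [U1, mem_filter, mem_univ, true_and] at hc ⊢
  rcases hc with hc | ⟨i, hi, hc⟩ | ⟨i, hi, hc⟩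
  exacts [Or.inl hc, Or.inr (Or.inl ⟨i, hi, hc.mono h⟩), Or.inr (Or.inr ⟨i, hi, hc.mono h⟩)]

theorem BadD.mono (hT : TreeStmt) (hN : Num L n Q S) {ξ : Fin T → Bool}
    {R R' : Finset (Fin T × (Tor 3 L × Fin n))} (h : R ⊆ R') {t d : ℕ} {x : Tor 3 L}
    (H : BadD ex ey Q ξ R t d x) : BadD ex ey Q ξ R' t d x := by
  rcases H with H | H
  · left
    obtain ⟨c, hc⟩ := nonempty_iff_ne_empty.2 H
    exact nonempty_iff_ne_empty.1 ⟨c, UU_mono hT hN ξ h _ hc⟩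
  · exact Or.inr fun H' => H fun m h1 h2 y hy => H' m h1 h2 y (UU_mono hT hN ξ h _ hy)

theorem Word.hp1 {E w B : ℕ} {θ : ℝ} (hW : Word ex ey p E w B θ) (s : Fin T) :
    0 ≤ p s ∧ p s ≤ 1 := ⟨(hW.hp s).1, (hW.hp s).2.trans (by norm_num)⟩

/-- weight of the bad events. -/
theorem Rare.bad {s y : ℝ} (hp : ∀ s, 0 ≤ p s ∧ p s ≤ 1) (h0 : 0 ≤ y) (h1 : y < 1) (hs : 0 ≤ s)
    (hpm : ∀ m, 0 < S.pm m) (hmt : 1 ≤ Q.P.mt) (H : Rare ex ey p Q S s y) {t : ℕ} (ht : 1 ≤ t)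
    (d : ℕ) (x : Tor 3 L) :
    WR ex ey p (Top.bt y) (fun ξ R => BadD ex ey Q ξ R t d x) ≤
      (s * ∑ m ∈ Ico t Q.P.mt, (2 * ((d + 2 * Q.P.η m : ℕ) : ℝ) + 1) ^ 3 * S.pm m +
        s * (L : ℝ) ^ 3 * S.pm Q.P.mt + s * S.δ y) * DL.Zt ex ey p (Top.bt y) := by
  classical
  have hb := bt_mem (T := T) (Λ := Tor 3 L × Fin n) h0 h1
  have hZ : 0 ≤ DL.Zt ex ey p (Top.bt y) := (DL.Zt_pos ex ey hp fun v => (hb v).1).le
  set Z := DL.Zt ex ey p (Top.bt y)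
  have e1 : WR ex ey p (Top.bt y) (fun ξ R => UU ex ey Q ξ R Q.P.mt ≠ ∅ ∧ n0 R ≤ 2 * Q.N) ≤
      s * (L : ℝ) ^ 3 * S.pm Q.P.mt * Z := by
    refine (WR_union hp hb univ (E' := fun x ξ R => x ∈ UU ex ey Q ξ R Q.P.mt ∧ n0 R ≤ 2 * Q.N)
      fun ξ R _ h => ?_).trans ((sum_le_sum fun x _ => H.1 _ hmt le_rfl x).trans (le_of_eq ?_))
    · obtain ⟨c, hc⟩ := nonempty_iff_ne_empty.2 h.1
      exact ⟨c, mem_univ _, hc, h.2⟩
    · rw [sum_const, card_univ, card_Tor, nsmul_eq_mul]; push_cast; ring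
  have e2 : WR ex ey p (Top.bt y)
      (fun ξ R => ¬ Clean Q.P (UU ex ey Q ξ R) x t d ∧ n0 R ≤ 2 * Q.N) ≤
      (s * ∑ m ∈ Ico t Q.P.mt, (2 * ((d + 2 * Q.P.η m : ℕ) : ℝ) + 1) ^ 3 * S.pm m) * Z := by
    refine (WR_union hp hb (Ico t Q.P.mt) (E' := fun m ξ R =>
      (∃ c ∈ Geo.bl x (d + 2 * Q.P.η m), c ∈ UU ex ey Q ξ R m) ∧ n0 R ≤ 2 * Q.N)
      fun ξ R _ h => ?_).trans ?_
    · obtain ⟨h, h'⟩ := h
      unfold Clean at h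
      push Not at h
      obtain ⟨m, a1, a2, c, a3, a4⟩ := h
      exact ⟨m, mem_Ico.2 ⟨a1, a2⟩, ⟨c, Geo.mem_bl.2 a4, a3⟩, h'⟩
    rw [mul_sum, sum_mul]
    refine sum_le_sum fun m hm => ?_
    have hm' := mem_Ico.1 hm
    refine (WR_union hp hb (Geo.bl x (d + 2 * Q.P.η m)) (E' := fun c ξ R =>
      c ∈ UU ex ey Q ξ R m ∧ n0 R ≤ 2 * Q.N) fun ξ R _ h => ?_).trans
      ((sum_le_sum fun c _ => H.1 m (ht.trans hm'.1) hm'.2.le c).trans ?_)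
    · obtain ⟨⟨c, a1, a2⟩, h'⟩ := h
      exact ⟨c, a1, a2, h'⟩
    · rw [sum_const, nsmul_eq_mul]
      have := Geo.card_bl x (d + 2 * Q.P.η m)
      have h3 : 0 ≤ s * S.pm m * Z := by have := hpm m; positivity
      calc _ ≤ ((2 * (d + 2 * Q.P.η m) + 1 : ℕ) : ℝ) ^ 3 * (s * S.pm m * Z) :=
            mul_le_mul_of_nonneg_right this h3
        _ = _ := by push_cast; ring
  have e3 := WR_or hp hb (ex := ex) (ey := ey)
    (E := fun ξ R => BadD ex ey Q ξ R t d x ∧ n0 R ≤ 2 * Q.N)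
    (E1 := fun ξ R => UU ex ey Q ξ R Q.P.mt ≠ ∅ ∧ n0 R ≤ 2 * Q.N)
    (E2 := fun ξ R => ¬ Clean Q.P (UU ex ey Q ξ R) x t d ∧ n0 R ≤ 2 * Q.N)
    fun ξ R _ h => h.1.imp (fun a => ⟨a, h.2⟩) fun a => ⟨a, h.2⟩
  have e4 := WR_or hp hb (ex := ex) (ey := ey) (E := fun ξ R => BadD ex ey Q ξ R t d x)
    (E1 := fun ξ R => BadD ex ey Q ξ R t d x ∧ n0 R ≤ 2 * Q.N) (E2 := fun _ R => 2 * Q.N < n0 R)
    fun ξ R _ h => (le_or_gt (n0 R) (2 * Q.N)).imp (fun a => ⟨h, a⟩) id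
  have := H.2
  linarith

/-- all hypotheses of the core theorem. -/
structure Ctx (ex ey : Fin T → Tor 3 L × Fin n) (p : Fin T → ℝ) (Q : Par) (S : RPar) : Prop where
  bas : BasStmt
  ann : AnnStmt
  tree : TreeStmt
  fast : FastStmt
  pt : PtStmt
  gen : GenStmt
  W : Word ex ey p Q.E Q.w Q.B S.θ
  G : GB ex ey p Q S
  N : Num L n Q S

variable (C : Ctx ex ey p Q S) {y : ℝ} (h0 : 0 < y) (hy : y ≤ S.y0)
include C

theorem Ctx.lt (hy : y ≤ S.y0) : y < 1 := hy.trans_lt C.N.hy.2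

theorem Ctx.Zpos (h0 : 0 ≤ y) : 0 < DL.Zt ex ey p (Top.bt y) :=
  DL.Zt_pos ex ey C.W.hp1 fun v => by unfold Top.bt; split_ifs; exacts [h0, zero_le_one]

include h0 hy

theorem Ctx.badD (H : Rare ex ey p Q S 2 y) {t : ℕ} (ht : 1 ≤ t) (ht' : t < Q.P.mt) (x : Tor 3 L) :
    WR ex ey p (Top.bt y) (fun ξ R => BadD ex ey Q ξ R t (Q.P.σ t / 4) x) ≤
      (S.τ t + 2 * S.δ y) * DL.Zt ex ey p (Top.bt y) := by
  refine (H.bad C.W.hp1 h0.le (C.lt hy) zero_le_two C.N.pm (by have := C.N.mt; omega) ht _ x).trans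
    (mul_le_mul_of_nonneg_right ?_ (C.Zpos h0.le).le)
  have := C.N.τ t ht ht'
  linarith

theorem Ctx.far (H : Rare ex ey p Q S 2 y) {t : ℕ} (ht : 1 ≤ t) (ht' : t < Q.P.mt)
    {v u : Fin T × (Tor 3 L × Fin n)} (hd : Q.P.σ t / 4 ≤ tdist u.2.1 v.2.1) :
    AG ex ey p (Top.bt y) v u ≤
      (S.γD t + S.τ t + (S.μ y + 2 * S.δ y)) * DL.Zt ex ey p (Top.bt y) := by
  have := C.ann _ T ex ey p (Top.bt y) C.W.hp1 (bt_mem h0.le (C.lt hy)) (bt_lt (C.lt hy))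
    (fun ξ R => BadD ex ey Q ξ R t (Q.P.σ t / 4) v.2.1)
    (fun ξ R R' h H => H.mono C.tree C.N h) v u (S.γD t + S.μ y)
    (add_nonneg (C.N.nn.2.2.1 t) (C.N.nn.2.2.2.2.1 y))
    fun ξ ω a1 a2 a3 a4 a5 => C.G.far y h0 hy ξ ω a1 a2 v u a4 a5 t ht ht' hd a3
  have h2 := C.badD h0 hy H ht ht' v.2.1
  linarith

theorem Ctx.same (H : Rare ex ey p Q S 2 y) {v u : Fin T × (Tor 3 L × Fin n)} (hd : u.1 = v.1) :
    AG ex ey p (Top.bt y) v u ≤ S.c1 * DL.Zt ex ey p (Top.bt y) := by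
  have := C.ann _ T ex ey p (Top.bt y) C.W.hp1 (bt_mem h0.le (C.lt hy)) (bt_lt (C.lt hy))
    (fun ξ R => BadD ex ey Q ξ R 1 (Q.P.σ 1 / 4) v.2.1)
    (fun ξ R R' h H => H.mono C.tree C.N h) v u (S.γT + S.μ y)
    (add_nonneg C.N.nn.1 (C.N.nn.2.2.2.2.1 y))
    fun ξ ω a1 a2 a3 a4 a5 => C.G.same y h0 hy ξ ω a1 a2 v u a4 a5 hd a3
  have h2 := C.badD h0 hy H le_rfl (by have := C.N.mt; omega) v.2.1
  have h3 := mul_le_mul_of_nonneg_right (C.N.h1 y h0 hy) (C.Zpos h0.le).le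
  have h4 := mul_le_mul_of_nonneg_right C.N.c1 (C.Zpos h0.le).le
  linarith

omit h0 hy in
theorem Ctx.c1_pos : 0 < S.c1 := by
  have := C.N.c1; have := C.N.nn.1; have := C.N.nn.2.2.2.1 1; have := C.N.nn.2.2.2.2.2.1
  linarith

omit h0 in
theorem Ctx.fast1 (h0 : 0 ≤ y) (ρ : ℕ) (x : Tor 3 L) :
    WR ex ey p (Top.bt y) (fun ξ _ => Fast ex ey Q.D Q.B Q.f ρ x ξ) ≤
      Q.B * (2 * (ρ : ℝ) + 1) ^ 3 * Real.exp (80 * S.θ * Q.w - Q.f) * DL.Zt ex ey p (Top.bt y) := by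
  obtain ⟨𝒮, -, a2, a3⟩ := C.fast L n T ex ey p _ _ _ _ C.W C.N.hθ Q.f ρ x
  have hB := ((C.bas _ T ex ey p C.W.hp).2.2.2 y h0 (C.lt hy)).2.2.2.2.1
  refine (WR_union C.W.hp1 (bt_mem h0 (C.lt hy)) 𝒮 (E' := fun S ξ _ => ∀ s ∈ S, ξ s = true)
    fun ξ _ _ h => a3 ξ h).trans ((sum_le_sum fun S _ => hB S).trans ?_)
  rw [← sum_mul]
  exact mul_le_mul_of_nonneg_right a2 (C.Zpos h0).le

theorem Ctx.cl (H : Rare ex ey p Q S 2 y) (x : Tor 3 L) (i : ℕ) :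
    WR ex ey p (Top.bt y) (fun ξ R => Cl ex ey Q ξ R x i) ≤ S.π6 * DL.Zt ex ey p (Top.bt y) := by
  have hb := bt_mem (T := T) (Λ := Tor 3 L × Fin n) h0.le (C.lt hy)
  have hZ := (C.Zpos h0.le).le
  have hB' : 2 * (1 * Q.D') ≤ Q.B :=
    le_trans (Nat.mul_le_mul_left 2 (Nat.mul_le_mul_right _ C.N.hk)) C.N.hB
  obtain ⟨𝒳, a1, a2, a3⟩ := C.pt L n T Q.D Q.B Q.D' i 1 6 Q.r Q.A x
    (by rw [C.W.hT, mul_assoc]) C.N.hD hB'
  have hB := ((C.bas _ T ex ey p C.W.hp).2.2.2 y h0.le (C.lt hy)).2.2.2.2.2.2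
  have hc := C.c1_pos
  have e1 : WR ex ey p (Top.bt y) (fun _ R => Pt Q.D Q.D' i 1 6 Q.r Q.A x R) ≤
      (2 * (Q.r : ℝ) + 1) ^ 3 * (n * (2 * (Q.A : ℝ) + 1) ^ 3) ^ 6 *
        (2 * Real.exp 1 * (6 * S.c1)) ^ 6 * DL.Zt ex ey p (Top.bt y) := by
    refine (WR_union C.W.hp1 hb 𝒳 (E' := fun X _ R => X ⊆ R) fun _ R _ h => a3 R h).trans ?_
    have e : ∀ X ∈ 𝒳, WR ex ey p (Top.bt y) (fun _ R => X ⊆ R) ≤
        (2 * Real.exp 1 * (6 * S.c1)) ^ 6 * DL.Zt ex ey p (Top.bt y) := fun X hX => by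
      have := hB X (fun _ => 6 * S.c1) (fun _ _ => by positivity) fun v hv => by
        refine (sum_le_sum fun u hu => C.same h0 hy H (((a2 X hX).2 v hv).2.2 u hu |>.2 rfl)).trans ?_
        rw [sum_const, (a2 X hX).1, nsmul_eq_mul]
        exact le_of_eq (by push_cast; ring)
      rwa [prod_const, (a2 X hX).1] at this
    refine (sum_le_sum e).trans ?_
    rw [sum_const, nsmul_eq_mul, mul_assoc _ _ (DL.Zt ex ey p (Top.bt y))]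
    refine mul_le_mul_of_nonneg_right ?_ (by positivity)
    rw [pow_one] at a1
    exact_mod_cast a1
  have e2 := C.fast1 hy h0.le Q.r x
  have e3 := WR_or C.W.hp1 hb (ex := ex) (ey := ey) (E := fun ξ R => Cl ex ey Q ξ R x i)
    (E1 := fun ξ _ => Fast ex ey Q.D Q.B Q.f Q.r x ξ)
    (E2 := fun _ R => Pt Q.D Q.D' i 1 6 Q.r Q.A x R) fun _ _ _ h => h
  have e4 := mul_le_mul_of_nonneg_right C.N.π6 hZ
  linarith

omit h0 hy in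
theorem Ctx.π6_nonneg : 0 ≤ S.π6 := le_trans (by have := C.c1_pos; positivity) C.N.π6

theorem Ctx.short (H : Rare ex ey p Q S 2 y) {v u : Fin T × (Tor 3 L × Fin n)}
    (hv : Q.D ∣ v.1.val) (hd : Q.D' * Q.D ≤ lag u.1 v.1) :
    AG ex ey p (Top.bt y) v u ≤ S.cS * DL.Zt ex ey p (Top.bt y) := by
  have hb := bt_mem (T := T) (Λ := Tor 3 L × Fin n) h0.le (C.lt hy)
  have hZ := (C.Zpos h0.le).le
  obtain ⟨I, hI, hG⟩ := C.G.short v u hv hd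
  have := C.ann _ T ex ey p (Top.bt y) C.W.hp1 hb (bt_lt (C.lt hy))
    (fun ξ R => BadD ex ey Q ξ R 1 (Q.P.σ 1 / 4) v.2.1 ∨ ∃ i ∈ I, Cl ex ey Q ξ R v.2.1 i)
    (fun ξ R R' h H => H.imp (fun H => H.mono C.tree C.N h)
      fun ⟨i, hi, H⟩ => ⟨i, hi, H.imp id fun H => H.mono h⟩) v u (S.γS + S.μ y)
    (add_nonneg C.N.nn.2.1 (C.N.nn.2.2.2.2.1 y))
    fun ξ ω a1 a2 a3 a4 a5 => hG y h0 hy ξ ω a1 a2 a4 a5 (fun h => a3 (Or.inl h))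
      fun i hi h => a3 (Or.inr ⟨i, hi, h⟩)
  have h2 := C.badD h0 hy H le_rfl (by have := C.N.mt; omega) v.2.1
  have h3 := mul_le_mul_of_nonneg_right (C.N.h1 y h0 hy) hZ
  have h4 := mul_le_mul_of_nonneg_right C.N.cS hZ
  have h5 : WR ex ey p (Top.bt y) (fun ξ R => ∃ i ∈ I, Cl ex ey Q ξ R v.2.1 i) ≤
      Q.D' * S.π6 * DL.Zt ex ey p (Top.bt y) := by
    refine (WR_union C.W.hp1 hb I (E' := fun i ξ R => Cl ex ey Q ξ R v.2.1 i)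
      fun _ _ _ h => h).trans ((sum_le_sum fun i _ => C.cl h0 hy H v.2.1 i).trans ?_)
    rw [sum_const, nsmul_eq_mul, mul_assoc]
    exact mul_le_mul_of_nonneg_right (by exact_mod_cast hI) (mul_nonneg C.π6_nonneg hZ)
  have h6 := WR_or C.W.hp1 hb (ex := ex) (ey := ey)
    (E := fun ξ R => BadD ex ey Q ξ R 1 (Q.P.σ 1 / 4) v.2.1 ∨ ∃ i ∈ I, Cl ex ey Q ξ R v.2.1 i)
    (E1 := fun ξ R => BadD ex ey Q ξ R 1 (Q.P.σ 1 / 4) v.2.1)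
    (E2 := fun ξ R => ∃ i ∈ I, Cl ex ey Q ξ R v.2.1 i) fun _ _ _ h => h
  linarith

end Crest.Agent.N337.RR
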