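import Crest.Agent.N337.R.Cfg

/-! # Row 337, RARE: the conditions that depend on the fugacity (helper66) -/

set_option autoImplicit false

namespace Crest.Agent.N337.RR

open Finset Filter G1 Real

namespace Fl

theorem nat {n g mt L : ℕ} (hg : 2 ≤ g) (hn : n ≤ g) (hm : 2 ≤ mt)
    (hL : (scl g mt).η (mt - 1) ^ 10 ≤ L) : 2 ≤ L ∧ 175000 * 128 ^ mt * g ^ 100 ≤ L ^ 3 ∧
    175000 * 128 ^ mt * (n * (2 * ((scl g mt).σ (mt - 1) / 4) + 1) ^ 3) ≤ L ^ 3 / g ^ 75 ∧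
    1 ≤ L ^ 3 / g ^ 75 ∧ L ^ 3 ≤ 2 * (L ^ 3 / g ^ 75) * g ^ 75 := by
  obtain ⟨m, rfl⟩ := Nat.exists_eq_add_of_le' hm
  have h0 : m + 1 < 48 ^ (m + 1) := Nat.lt_pow_self (by norm_num)
  have h1 : (scl g (m + 2)).σ (m + 1) ≤ g ^ (22 * 48 ^ (m + 1)) :=
    Nat.pow_le_pow_right (by omega) (by rw [pow_succ, Nat.add_sub_cancel]; omega)
  have h2 : g ^ 22 ≤ g ^ (22 * 48 ^ (m + 1)) := Nat.pow_le_pow_right (by omega) (by omega)
  have h3 : 175000 * 128 ^ (m + 2) ≤ g ^ (22 * 48 ^ (m + 1)) :=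
    calc _ ≤ 2 ^ 18 * (2 ^ 7) ^ (m + 2) := by gcongr <;> norm_num
      _ = 2 ^ (18 + 7 * (m + 2)) := by rw [← pow_mul, ← pow_add]
      _ ≤ 2 ^ (22 * 48 ^ (m + 1)) := Nat.pow_le_pow_right two_pos (by omega)
      _ ≤ _ := Nat.pow_le_pow_left hg _
  change (g ^ (22 * 48 ^ (m + 1))) ^ 10 ≤ L at hL
  change _ ∧ _ ∧ _ * (n * (2 * ((scl g (m + 2)).σ (m + 1) / 4) + 1) ^ 3) ≤ _ ∧ _
  generalize g ^ (22 * 48 ^ (m + 1)) = η at *
  have h4 : g ≤ η := (Nat.le_self_pow (by norm_num) g).trans h2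
  have h5 : ∀ i ≤ 10, η ^ i ≤ L := fun i hi => (Nat.pow_le_pow_right (by omega) hi).trans hL
  have h6 : ∀ i ≤ 110, g ^ i ≤ η ^ 5 := fun i hi => (Nat.pow_le_pow_right (by omega) hi).trans
    (by rw [show 110 = 22 * 5 from rfl, pow_mul]; exact Nat.pow_le_pow_left h2 _)
  have h7 : 2 ≤ L := hg.trans (h4.trans (by simpa using h5 1 (by norm_num)))
  have h8 : L ≤ L ^ 3 / g ^ 75 := (Nat.le_div_iff_mul_le (by positivity)).2 <|
    calc L * g ^ 75 ≤ L * L ^ 2 := Nat.mul_le_mul_left _ ((h6 75 (by norm_num)).trans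
          ((h5 5 (by norm_num)).trans (Nat.le_self_pow (by norm_num) L)))
      _ = _ := by ring
  refine ⟨h7, ?_, le_trans ?_ ((h5 5 (by norm_num)).trans h8), by omega, ?_⟩
  · calc _ ≤ η * η ^ 5 := Nat.mul_le_mul h3 (h6 100 (by norm_num))
      _ = η ^ 6 := by ring
      _ ≤ _ := (h5 6 (by norm_num)).trans (Nat.le_self_pow (by norm_num) L)
  · calc _ ≤ η * (η * η ^ 3) := by gcongr <;> omega
      _ = _ := by ring
  · have := Nat.lt_mul_div_succ (L ^ 3) (show 0 < g ^ 75 by positivity)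
    nlinarith [Nat.mul_le_mul_left (g ^ 75) ((one_le_two.trans h7).trans h8)]

theorem mu_le {u V y0 : ℝ} (hu : 0 < u) (hV : 0 < V) (h : 1 / 2 ≤ y0) (hy : exp (-(u / V)) ≤ y0) :
    1 / (1 - min (max (exp (-(u / V))) (1 / 2)) y0) / V ≤ 2 / V + 1 / u := by
  rw [min_eq_left (max_le hy h), show 2 / V + 1 / u = (2 + (u / V)⁻¹) / V by field_simp]
  have ht := div_pos hu hV
  generalize u / V = t at *
  gcongr
  have h0 := inv_pos.2 ht
  rcases max_choice (exp (-t)) (1 / 2) with e | e <;> rw [e]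
  · have h1 : exp (-t) < 1 := exp_lt_one_iff.2 (by linarith)
    have h2 : exp (-t) * (t + 1) ≤ 1 :=
      calc _ ≤ exp (-t) * exp t := by gcongr; exact add_one_le_exp t
        _ = 1 := by rw [← exp_add]; simp
    rw [div_le_iff₀ (by linarith), ← mul_le_mul_iff_right₀ ht]
    field_simp
    nlinarith
  · norm_num; linarith

theorem main {G C x A K k u V e a m : ℝ} (hC : 1 ≤ C) (hG : 1000 * C ≤ G) (hx : 0 ≤ x) (hA : x ≤ A)
    (hu : 0 < u) (hV : 0 < V) (he : 0 ≤ e) (k0 : 0 ≤ k) (k1 : k ≤ K) (k2 : k ≤ A * u)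
    (k3 : k * a ≤ A) (h1 : K ≤ x * V) (h2 : K * e ≤ x) (h3 : K * exp (-K) ≤ x)
    (hm : m ≤ 2 / V + 1 / u) : k * (C * (m + e) + 2 * max a (exp (-K))) ≤ G * A := by
  have a1 : k / V ≤ x := (div_le_iff₀ hV).2 (k1.trans h1)
  have a2 : k / u ≤ A := (div_le_iff₀ hu).2 k2
  have a3 : k * e ≤ x := (mul_le_mul_of_nonneg_right k1 he).trans h2
  have a4 : k * max a (exp (-K)) ≤ A := by
    rw [mul_max_of_nonneg _ _ k0]
    exact max_le k3 ((mul_le_mul_of_nonneg_right k1 (exp_pos _).le).trans (h3.trans hA))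
  have a5 : k * (m + e) ≤ 4 * A :=
    calc _ ≤ k * (2 / V + 1 / u + e) := by gcongr
      _ = 2 * (k / V) + k / u + k * e := by ring
      _ ≤ _ := by linarith
  calc _ = C * (k * (m + e)) + 2 * (k * max a (exp (-K))) := by ring
    _ ≤ C * (4 * A) + 2 * A := by gcongr
    _ ≤ _ := by nlinarith

theorem small {b x : ℝ} (hb : 0 < b) (hx : 0 < x) : ∀ᶠ u in atTop, u * exp (-(b * u)) ≤ x := by
  simpa using (tendsto_rpow_mul_exp_neg_mul_atTop_nhds_zero 1 b hb).eventually_le_const hx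

theorem last {n g N V c : ℝ} (h0 : 0 ≤ n) (hn : 1000 * n ≤ g) (hg : 2 ≤ g) (hN : 0 ≤ N) (hV : 0 ≤ V)
    (h : V ≤ 2 * N * g ^ 75) (hc : c ≤ 1 / g ^ 76) : 2 * exp 2 * (n * V) * (3 * c) ≤ N := by
  have h1 : exp 2 ≤ 8 := by
    rw [show (2 : ℝ) = 1 + 1 by norm_num, exp_add]; nlinarith [exp_one_lt_d9, exp_pos 1]
  calc _ ≤ 2 * exp 2 * (n * V) * (3 * (1 / g ^ 76)) := by gcongr
    _ ≤ 2 * 8 * (n * (2 * N * g ^ 75)) * (3 * (1 / g ^ 76)) := by gcongr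
    _ = 96 * n / g * N := by field_simp; ring
    _ ≤ _ := mul_le_of_le_one_left hN ((div_le_one (by linarith)).2 (by linarith))

end Fl

open Fl in
theorem fld : FldStmt := by
  intro n g C κ hC hg hκ hκ' hgC
  have hG : (2 : ℝ) ≤ g := by exact_mod_cast hg
  have hn0 : (0 : ℝ) ≤ n := n.cast_nonneg
  have hn : 1000 * (n : ℝ) ≤ g := by nlinarith
  have hCG : 1000 * C ≤ g := by nlinarith
  have pw : ∀ i j : ℕ, i ≤ j → 1 / (g : ℝ) ^ j ≤ 1 / (g : ℝ) ^ i := fun i j h =>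
    one_div_le_one_div_of_le (by positivity) (pow_le_pow_right₀ (by linarith) h)
  have ml : ∀ i : ℕ, g * (1 / (g : ℝ) ^ (i + 1)) = 1 / (g : ℝ) ^ i := fun i => by
    rw [pow_succ]; field_simp
  set x : ℝ := 1 / (g : ℝ) ^ 100 with hx
  have x0 : 0 < x := by positivity
  have x1 : x ≤ 1 := (pw 0 100 (by norm_num)).trans_eq (by simp)
  filter_upwards [eventually_forall_ge_atTop.2 ((small hκ (half_pos x0)).and
    (eventually_ge_atTop x⁻¹))] with u0 hu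
  have hK : Tendsto (fun mt : ℕ => ((175000 * 128 ^ mt : ℕ) : ℝ)) atTop atTop :=
    tendsto_natCast_atTop_atTop.comp
      ((tendsto_pow_atTop_atTop_of_one_lt (by norm_num)).const_mul_atTop' (by norm_num))
  filter_upwards [hK.eventually (small one_pos x0), eventually_ge_atTop 2] with mt hs hm L hL huL
  obtain ⟨n1, n2, n3, n4, n5⟩ := nat hg (by exact_mod_cast (by linarith : (n : ℝ) ≤ g)) hm hL
  simp only [one_mul] at hs
  set K : ℕ := 175000 * 128 ^ mt with hKe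
  have K1 : (1 : ℝ) ≤ K := by exact_mod_cast (by positivity : 0 < K)
  have L2 : (2 : ℝ) ≤ L := by exact_mod_cast n1
  have hV : (0 : ℝ) < L ^ 3 := by positivity
  have u0p : 0 < u0 := (inv_pos.2 x0).trans_le (hu u0 le_rfl).2
  have y1 : exp (-(u0 / (L : ℝ) ^ 3)) < 1 := exp_lt_one_iff.2 (neg_lt_zero.2 (div_pos u0p hV))
  have y2 : 1 / 2 ≤ exp (-(u0 / (L : ℝ) ^ 3)) := by
    have : u0 / (L : ℝ) ^ 3 ≤ 1 / 2 := (div_le_iff₀ hV).2 (by
      nlinarith [mul_le_mul_of_nonneg_left (pow_le_pow_left₀ zero_le_two L2 2) L.cast_nonneg])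
    linarith [add_one_le_exp (-(u0 / (L : ℝ) ^ 3))]
  refine ⟨x / K, by positivity, fun e e0 e1 E w B => ?_⟩
  have KV : (K : ℝ) ≤ x * L ^ 3 := by
    rw [hx, one_div, inv_mul_eq_div, le_div_iff₀ (by positivity)]; exact_mod_cast n2
  have key : ∀ y, 0 < y → y ≤ exp (-(u0 / (L : ℝ) ^ 3)) → ∃ u, y = exp (-(u / (L : ℝ) ^ 3)) ∧
      y ^ (κ * (L : ℝ) ^ 3) = exp (-(κ * u)) ∧ 1 ≤ u ∧ 1 ≤ x * u ∧ u * exp (-(κ * u)) ≤ x / 2 ∧
      ∀ k A : ℝ, x ≤ A → 0 ≤ k → k ≤ K → k ≤ A * u → k * exp (-(κ * u)) ≤ A →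
        k * ((rpar n g mt L w B C κ u0 e).μ y + 2 * (rpar n g mt L w B C κ u0 e).δ y) ≤ g * A := by
    intro y hy hy0
    obtain ⟨u, rfl⟩ : ∃ u, y = exp (-(u / (L : ℝ) ^ 3)) :=
      ⟨-(log y * L ^ 3), by rw [neg_div, neg_neg, mul_div_cancel_right₀ _ hV.ne', exp_log hy]⟩
    have h1 : u0 ≤ u := (div_le_div_iff_of_pos_right hV).1 (neg_le_neg_iff.1 (exp_le_exp.1 hy0))
    have h2 : exp (-(u / (L : ℝ) ^ 3)) ^ (κ * (L : ℝ) ^ 3) = exp (-(κ * u)) := by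
      rw [← exp_mul]; congr 1; field_simp
    have h3 : 1 ≤ x * u := (inv_le_iff_one_le_mul₀' x0).1 (hu u h1).2
    have h4 := u0p.trans_le h1
    refine ⟨u, rfl, h2, by nlinarith, h3, (hu u h1).1, fun k A a1 a2 a3 a4 a5 => ?_⟩
    exact main hC hCG x0.le a1 h4 hV e0 a2 a3 a4 (h2 ▸ a5) KV
      ((le_div_iff₀' (by positivity)).1 e1) hs (mu_le h4 hV y2 hy0)
  refine ⟨n4, ⟨(exp_pos _).le, y1⟩, y2, fun y => ?_, fun y _ _ => lt_max_of_lt_right (exp_pos _),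
    ((continuous_rpow_const (by positivity)).max continuous_const).continuousOn,
    fun y hy hy0 => ?_, fun y hy hy0 k hk hk' => ?_, fun y hy hy0 => ?_⟩
  · have : 0 < 1 - min (max y (1 / 2)) (exp (-(u0 / (L : ℝ) ^ 3))) :=
      sub_pos.2 ((min_le_right _ _).trans_lt y1)
    simp only [rpar]
    positivity
  all_goals obtain ⟨u, rfl, h2, h3, h4, h5, h6⟩ := key y hy hy0
  · have := h6 1 x le_rfl zero_le_one K1 h4 (by nlinarith [exp_pos (-(κ * u))])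
    rw [one_mul, ml 99] at this
    exact this.trans (pw 79 99 (by norm_num))
  · have hk1 : k ≤ K := by simpa [par, Par.k0, scl] using hk
    have N0 : (0 : ℝ) < (L ^ 3 / g ^ 75 : ℕ) := by exact_mod_cast n4
    have N1 : ((L ^ 3 / g ^ 75 : ℕ) : ℝ) ≤ 1 / (g : ℝ) ^ 75 * L ^ 3 := by
      rw [one_div, inv_mul_eq_div]; exact Nat.cast_div_le.trans_eq (by push_cast; rfl)
    have h7 : (k : ℝ) ≤ 1 / (g : ℝ) ^ 75 * u := by
      have := (div_le_div_iff₀ N0 hV).1 (neg_le_neg_iff.1 (exp_le_exp.1 hk'))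
      exact le_of_mul_le_mul_right (by nlinarith) hV
    refine (h6 k _ (pw 75 100 (by norm_num)) k.cast_nonneg (Nat.cast_le.2 hk1) h7 ?_).trans_eq (ml 74)
    calc _ ≤ 1 / (g : ℝ) ^ 75 * u * exp (-(κ * u)) := by gcongr
      _ = 1 / (g : ℝ) ^ 75 * (u * exp (-(κ * u))) := by ring
      _ ≤ _ := mul_le_of_le_one_right (by positivity) (by linarith)
  · have h7 : ⌈min (κ * u) K⌉₊ ≤ K := Nat.ceil_le.2 (min_le_right _ _)
    have h8 : (⌈min (κ * u) K⌉₊ : ℝ) ≤ κ * u + 1 :=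
      (Nat.ceil_lt_add_one (by positivity)).le.trans (by gcongr; exact min_le_left _ _)
    refine ⟨_, ?_, h7, (Nat.mul_le_mul_right _ h7).trans n3, (h6 _ (2 * x) (by linarith)
      (by positivity) (Nat.cast_le.2 h7) (by nlinarith) ?_).trans ?_, ?_⟩
    · refine (exp_le_exp.2 (neg_le_neg (Nat.le_ceil _))).trans ?_
      rcases min_choice (κ * u) K with e | e <;> rw [e]
      exacts [h2.ge.trans (le_max_left _ _), le_max_right _ _]
    · calc _ ≤ 2 * u * exp (-(κ * u)) := by gcongr; nlinarith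
        _ ≤ _ := by linarith
    · calc _ ≤ g * (g * x) := by gcongr
        _ ≤ _ := by rw [ml 99, ml 98]; exact pw 78 98 (by norm_num)
    · exact last hn0 hn hG (Nat.cast_nonneg _) hV.le (by exact_mod_cast n5) (pw 76 78 (by norm_num))

end Crest.Agent.N337.RR
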