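import Crest.Agent.N337.R.Defs

/-! # Row 337, RARE: generic tuples and the continuity argument (helper66) -/

set_option autoImplicit false

namespace Crest.Agent.N337.RR

open Finset Free Filter Topology

namespace Gn

theorem tuples {L n : ℕ} [NeZero L] {d N : ℕ} {S : Finset (Tor 3 L × Fin n)} (hS : 2 * N ≤ S.card)
    (k : ℕ) (hk : k * (n * (2 * d + 1) ^ 3) ≤ N) :
    N ^ k ≤ (univ.filter fun f : Fin k → Tor 3 L × Fin n =>
      (∀ a b, a ≠ b → d < tdist (f a).1 (f b).1) ∧ ∀ a, f a ∈ S).card := by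
  induction k with
  | zero => simp
  | succ k ih =>
    have hk' : k * (n * (2 * d + 1) ^ 3) ≤ N := (Nat.mul_le_mul_right _ k.le_succ).trans hk
    have ext : ∀ f : Fin k → Tor 3 L × Fin n,
        N ≤ (S.filter fun x => ∀ a, d < tdist (f a).1 x.1).card := fun f => by
      have h1 := card_filter_add_card_filter_not (s := S) fun x => ∀ a, d < tdist (f a).1 x.1
      have h2 : (S.filter fun x => ¬ ∀ a, d < tdist (f a).1 x.1).card ≤
          k * (n * (2 * d + 1) ^ 3) := by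
        refine (card_le_card (t := univ.biUnion fun a =>
          (univ.filter fun y => tdist (f a).1 y ≤ d) ×ˢ univ) fun x hx => ?_).trans
          ((card_biUnion_le_card_mul _ _ (n * (2 * d + 1) ^ 3) fun a _ => ?_).trans (by simp))
        · simpa using (mem_filter.1 hx).2
        · rw [card_product, card_univ, Fintype.card_fin, mul_comm]
          exact Nat.mul_le_mul_left _ (card_ball_le _ _)
      omega
    refine le_trans ?_ (card_le_card_of_injOn (s := (univ.filter fun f : Fin k → Tor 3 L × Fin n =>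
      (∀ a b, a ≠ b → d < tdist (f a).1 (f b).1) ∧ ∀ a, f a ∈ S).sigma fun f =>
        S.filter fun x => ∀ a, d < tdist (f a).1 x.1) (fun p => Fin.cons p.2 p.1) ?_ ?_)
    · rw [card_sigma, pow_succ]
      exact (Nat.mul_le_mul_right _ (ih hk')).trans (card_nsmul_le_sum _ _ _ fun f _ => ext f)
    · rintro ⟨f, x⟩ hp
      obtain ⟨h1, h2⟩ := mem_sigma.1 hp
      obtain ⟨-, h3, h4⟩ := mem_filter.1 h1
      obtain ⟨h5, h6⟩ := mem_filter.1 h2
      refine mem_filter.2 ⟨mem_univ _, Fin.forall_fin_succ.2 ⟨Fin.forall_fin_succ.2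
        ⟨fun e => absurd rfl e, fun b _ => ?_⟩, fun a => Fin.forall_fin_succ.2 ⟨fun _ => h6 a,
          fun b e => h3 a b fun e' => e (by rw [e'])⟩⟩, Fin.forall_fin_succ.2 ⟨h5, h4⟩⟩
      rw [tdist_comm]; exact h6 b
    · rintro ⟨f, x⟩ - ⟨g, y⟩ - e
      obtain ⟨rfl, rfl⟩ := Fin.cons_injective2 e
      rfl

end Gn

theorem gen : GenStmt := by
  refine ⟨fun L n _ k d N S hS hk => Gn.tuples hS k hk, fun ι _ φ y0 hc h0 h y hy hy0 => ?_⟩
  refine IsClosed.Icc_subset_of_forall_mem_nhdsGT_of_Icc_subset (s := {y | ∀ i, φ i y ≤ 1})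
    (a := 0) (b := y0) ?_ h0 (fun t ht hs => ?_) ⟨hy, hy0⟩
  · rw [Set.inter_comm]
    exact (continuousOn_pi.2 hc).preimage_isClosed_of_isClosed isClosed_Icc (isClosed_Iic (a := 1))
  have h1 := Icc_mem_nhdsGT_of_mem ht
  have h2 : ∀ᶠ z in 𝓝[>] t, ∀ i, φ i z < 2 := eventually_all.2 fun i =>
    ((hc i t (Set.Ico_subset_Icc_self ht)).mono_of_mem_nhdsWithin h1).eventually_lt_const
      ((hs ⟨ht.1, le_rfl⟩ i).trans_lt one_lt_two)
  obtain ⟨u, hu, h3⟩ := mem_nhdsGT_iff_exists_Ioc_subset.1 (inter_mem h1 h2)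
  refine mem_of_superset (Ioc_mem_nhdsGT hu) fun z hz =>
    h z (ht.1.trans_lt hz.1) (h3 hz).1.2 fun w w0 wz i => ?_
  rcases le_or_gt w t with e | e
  · exact (hs ⟨w0, e⟩ i).trans one_le_two
  · exact ((h3 ⟨e, wz.trans hz.2⟩).2 i).le

end Crest.Agent.N337.RR
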