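import Crest.Agent.N337.R.Cfg
import Crest.Agent.N337.Top.BDefs

/-!
# Row 337, RARE (helper4): the two statements that depend on the interface of G1
-/

set_option autoImplicit false

namespace Crest.Agent.N337.RR

open Finset Filter Crest.MathPhysics.SpinModel G1

/-- **(Good)** the junk sets are good as soon as the top level is empty. -/
def GoodStmt : Prop :=
  ∀ n : ℕ, ∀ᶠ g : ℕ in atTop, ∀ (L T : ℕ) [NeZero L] [NeZero T]
    (ex ey : Fin T → Tor 3 L × Fin n) (p0 : Fin T → ℝ) (E w B mt : ℕ) (θ : ℝ),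
    Word ex ey p0 E w B θ → (scl g mt).Ok L → ∀ ξ R, Cmp ex ey p0 ξ R →
    UU ex ey (par g mt L E w B) ξ R mt = ∅ →
    ZM.Good ex ey p0 E w (scl g mt) (g ^ 2) A6 (25000 * g ^ 18) (g ^ 22) ξ R
      (UU ex ey (par g mt L E w B) ξ R)

/-- **(GB)** the quenched Green bounds. -/
def GBStmt : Prop :=
  ∀ n : ℕ, ∃ C : ℝ, 1 ≤ C ∧ ∀ᶠ g : ℕ in atTop, ∀ (L T : ℕ) [NeZero L] [NeZero T]
    (ex ey : Fin T → Tor 3 L × Fin n) (p : Fin T → ℝ) (E w B mt : ℕ) (κ u0 e q : ℝ)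
    (Bd : Finset ℕ), g ^ 400 ≤ B → B ≤ g ^ 401 → 2 ≤ mt → (scl g mt).η (mt - 1) ^ 10 ≤ L →
    let Q := par g mt L E w B
    let S := rpar n g mt L w B C κ u0 e
    1 / 2 ≤ S.y0 → S.y0 < 1 → Word ex ey p E w B S.θ →
    (∀ y : ℝ, 1 / 2 ≤ y → y ≤ 1 →
      Clock ex ey p (fun s => if s = 0 then y else 1) E w B q (8 * n ^ 2) Bd ∧
      Pers ex ey p (fun s => if s = 0 then y else 1) E w (8 * n ^ 2)) →
    2 * (Bd.card + L ^ 3 * g ^ 2 + 1) ≤ w → err q S.y0 L n B ≤ e → GB ex ey p Q S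

end Crest.Agent.N337.RR
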