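import Crest.Agent.N337.R.Cfg

/-!
# Row 337, RARE, leaf `Pol` (helper40): the polynomial inequalities in `g`
-/

set_option autoImplicit false

namespace Crest.Agent.N337.RR

open Finset Filter G1 Topology

namespace PolP

theorem K_nonneg (P : Scales) (m : ℕ) : 0 ≤ P.K m := by
  have h : 1 ≤ kS :=
    (Geo.shell (d := 3) (by norm_num) (Asy.coup_nn 3)).choose_spec.choose_spec.2.1
  exact prod_nonneg fun l _ => add_nonneg zero_le_one
    (mul_nonneg (zero_le_one.trans h) (by positivity))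

theorem K_zero (g mt : ℕ) : (scl g mt).K 0 = (scl 0 0).K 0 := by
  have ha : (scl g mt).a 0 = (scl 0 0).a 0 := rfl
  have hσ : (scl g mt).σ 0 = (scl 0 0).σ 0 := rfl
  have hρ : (scl g mt).ρ 0 = (scl 0 0).ρ 0 := by rw [Scales.ρ, Scales.ρ, ha, hσ]
  rw [Scales.K, Scales.K, zero_add, prod_range_one, prod_range_one, hρ]

/-- `0 ≤ z ≤ x ^ k` -/
def Bd (x z : ℝ) (k : ℤ) : Prop := 0 ≤ z ∧ z ≤ x ^ k

variable {x z z' : ℝ} {k l : ℤ}

theorem Bd.mul (hx : 2 ≤ x) (h : Bd x z k) (h' : Bd x z' l) : Bd x (z * z') (k + l) :=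
  ⟨mul_nonneg h.1 h'.1, by
    rw [zpow_add₀ (by linarith)]
    exact mul_le_mul h.2 h'.2 h'.1 (h.1.trans h.2)⟩

theorem Bd.pow (h : Bd x z k) (m : ℕ) : Bd x (z ^ m) (k * m) :=
  ⟨pow_nonneg h.1 m, by
    rw [zpow_mul, zpow_natCast]
    exact pow_le_pow_left₀ h.1 h.2 m⟩

theorem Bd.mono (hx : 2 ≤ x) (h : Bd x z k) (hk : k ≤ l) : Bd x z l :=
  ⟨h.1, h.2.trans (zpow_le_zpow_right₀ (by linarith) hk)⟩

theorem Bd.of_le (h : Bd x z k) (h0 : 0 ≤ z') (h1 : z' ≤ z) : Bd x z' k := ⟨h0, h1.trans h.2⟩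

theorem Bd.const (h0 : 0 ≤ z) (h1 : z ≤ x) : Bd x z 1 := ⟨h0, by rwa [zpow_one]⟩

theorem Bd.inv (hx : 2 ≤ x) (m : ℕ) : Bd x (1 / x ^ m) (-m) :=
  ⟨by have : 0 < x := by linarith
      positivity, by rw [zpow_neg, zpow_natCast, one_div]⟩

theorem Bd.le_inv {m : ℕ} (h : Bd x z (-m)) : z ≤ 1 / x ^ m := by
  have := h.2
  rwa [zpow_neg, zpow_natCast, ← one_div] at this

theorem Bd.npow (hx : 2 ≤ x) (m : ℕ) : Bd x (x ^ m) m :=
  ⟨by have : 0 < x := by linarith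
      positivity, by rw [zpow_natCast]⟩

/-- `z ≤ c x ^ k` with `c ≤ x` -/
theorem Bd.up (hx : 2 ≤ x) {c : ℝ} (hc : c ≤ x) (h0 : 0 ≤ z) (h : z ≤ c * x ^ k) :
    Bd x z (k + 1) := by
  have h1 : 0 < x := by linarith
  refine ⟨h0, h.trans ?_⟩
  rw [zpow_add_one₀ h1.ne', mul_comm]
  exact mul_le_mul_of_nonneg_left hc (zpow_pos h1 k).le

theorem Bd.add (hx : 2 ≤ x) (h : Bd x z k) (h' : Bd x z' k) : Bd x (z + z') (k + 1) :=
  Bd.up hx hx (add_nonneg h.1 h'.1) (by linarith [h.2, h'.2])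

theorem Bd.div (hx : 2 ≤ x) {d : ℝ} {m : ℕ} (h : Bd x z k) (hd : x ^ m ≤ d) :
    Bd x (z / d) (k + -m) := by
  have h1 : 0 < x ^ m := pow_pos (by linarith) m
  rw [div_eq_mul_one_div]
  exact h.mul hx ((Bd.inv hx m).of_le (by have := h1.trans_le hd; positivity)
    (one_div_le_one_div_of_le h1 hd))

/-- `c (2 z + 1) ^ 3` -/
theorem Bd.cube (hx : 2 ≤ x) {c b : ℝ} (m : ℕ) (hc : 0 ≤ c) (h0 : 0 ≤ z) (hz : 2 * z + 1 ≤ b * x ^ m)
    (hb : c * b ^ 3 ≤ x) : Bd x (c * (2 * z + 1) ^ 3) (m * 3 + 1) := by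
  refine Bd.up hx hb (by positivity) ?_
  rw [zpow_mul, zpow_natCast, zpow_ofNat, mul_assoc, ← mul_pow]
  exact mul_le_mul_of_nonneg_left (pow_le_pow_left₀ (by positivity) hz 3) hc

theorem cm {g c i j : ℕ} (hg : 1 ≤ g) (hc : c ≤ g) (hij : i < j) : c * g ^ i ≤ g ^ j :=
  (Nat.mul_le_mul_right _ hc).trans (by
    rw [← pow_succ']
    exact Nat.pow_le_pow_right hg hij)

theorem ev_exp (a : ℝ) (m : ℕ) :
    ∀ᶠ g : ℕ in atTop, Real.exp (a - g) ≤ 1 / (g : ℝ) ^ m := by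
  have h := ((Real.tendsto_pow_mul_exp_neg_atTop_nhds_zero m).comp
    tendsto_natCast_atTop_atTop).eventually (gt_mem_nhds (Real.exp_pos (-a)))
  filter_upwards [h, eventually_ge_atTop 1] with g h1 hg
  have h0 : (0 : ℝ) < g := by exact_mod_cast hg
  simp only [Function.comp] at h1
  rw [le_div_iff₀ (pow_pos h0 m), sub_eq_add_neg, Real.exp_add]
  have h2 : Real.exp a * Real.exp (-a) = 1 := by rw [← Real.exp_add]; simp
  have h3 := mul_le_mul_of_nonneg_left h1.le (Real.exp_pos a).le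
  rw [h2] at h3
  calc Real.exp a * Real.exp (-g) * (g : ℝ) ^ m = Real.exp a * ((g : ℝ) ^ m * Real.exp (-g)) := by
        ring
    _ ≤ 1 := h3

theorem ev_log (m : ℕ) :
    ∀ᶠ g : ℕ in atTop, ∀ d : ℕ, d ≤ g ^ m → 1 + (Nat.log 2 d : ℝ) ≤ g := by
  have h := (tendsto_pow_const_div_const_pow_of_one_lt m (r := 2) one_lt_two).eventually
    (gt_mem_nhds one_pos)
  filter_upwards [h, eventually_ge_atTop 1] with g h1 hg d hd
  rw [div_lt_one (by positivity)] at h1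
  have h2 : g ^ m < 2 ^ g := by exact_mod_cast h1
  have h3 := (Nat.log_mono_right (b := 2) hd).trans_lt
    (Nat.log_lt_of_lt_pow (pow_pos hg m).ne' h2)
  have h4 : 1 + Nat.log 2 d ≤ g := by omega
  exact_mod_cast h4

/-- the integer inequalities -/
theorem nat_part {g n a B : ℕ} (h1 : 100000 * (n ^ 2 + 1) ≤ g) (h2 : 100000 * (a + 1) ≤ g)
    (hB : g ^ 400 ≤ B) :
    (8 * (g ^ 23 + (a + g) + g + 2) ≤ g ^ 176 ∧ 2 * (25000 * g ^ 18) ≤ B ∧
      24999 * (g + 1) * (n ^ 2 + 1) + 1 ≤ g ^ 2 ∧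
      (25000 * g ^ 18 + 1) * (g ^ 2 * (2 * a + 1)) + a < g ^ 22 ∧
      8 * g ^ 22 + a + g + 2 ≤ g ^ 23 ∧ 4 * g ^ 42 + 4 * a + g + 1 ≤ g ^ 43 ∧
      4 * g ^ 22 ≤ g ^ 42 ∧ 16 * g ^ 42 ≤ g ^ 176 / 8 ∧ 1 ≤ B / (25000 * g ^ 18 + 2)) ∧
    g ^ 380 ≤ B / (25000 * g ^ 18 + 2) ∧ g ^ 175 ≤ g ^ 176 / 8 := by
  have hg : 100000 ≤ g := by omega
  have g1 : 1 ≤ g := by omega
  have lp : ∀ i, 1 ≤ i → g ≤ g ^ i := fun i hi => Nat.le_self_pow (by omega) g
  have e1 : g ^ 380 ≤ B / (25000 * g ^ 18 + 2) := by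
    rw [Nat.le_div_iff_mul_le (by omega)]
    have a1 := lp 18 (by norm_num)
    have a2 := cm (c := 25002) (i := 18) (j := 20) g1 (by omega) (by norm_num)
    calc g ^ 380 * (25000 * g ^ 18 + 2) ≤ g ^ 380 * g ^ 20 := Nat.mul_le_mul_left _ (by omega)
      _ = g ^ 400 := by rw [← pow_add]
      _ ≤ B := hB
  have e2 : g ^ 175 ≤ g ^ 176 / 8 := by
    rw [Nat.le_div_iff_mul_le (by norm_num), mul_comm]
    exact cm g1 (by omega) (by norm_num)
  refine ⟨⟨?_, ?_, ?_, ?_, ?_, ?_, ?_, ?_, ?_⟩, e1, e2⟩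
  · have a1 := lp 23 (by norm_num)
    have a2 := cm (c := 40) (i := 23) (j := 176) g1 (by omega) (by norm_num)
    omega
  · have a2 := cm (c := 50000) (i := 18) (j := 400) g1 (by omega) (by norm_num)
    omega
  · generalize n ^ 2 + 1 = N at h1
    have a1 : 100000 * N * g ≤ g * g := Nat.mul_le_mul_right _ h1
    have a2 : N * 1 ≤ N * g := Nat.mul_le_mul_left _ g1
    have a3 : 100000 * 1 ≤ g * g := Nat.mul_le_mul hg g1
    nlinarith
  · have a1 := lp 18 (by norm_num)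
    have a2 := lp 21 (by norm_num)
    have a3 := cm (c := 25001 * (2 * a + 1)) (i := 20) (j := 21) g1 (by omega) (by norm_num)
    have a4 := cm (c := 3) (i := 21) (j := 22) g1 (by omega) (by norm_num)
    have a5 : (25000 * g ^ 18 + 1) * (g ^ 2 * (2 * a + 1)) ≤ 25001 * (2 * a + 1) * g ^ 20 :=
      calc (25000 * g ^ 18 + 1) * (g ^ 2 * (2 * a + 1))
          ≤ (25001 * g ^ 18) * (g ^ 2 * (2 * a + 1)) := Nat.mul_le_mul_right _ (by omega)
        _ = 25001 * (2 * a + 1) * g ^ 20 := by ring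
    omega
  · have a1 := lp 22 (by norm_num)
    have a2 := cm (c := 11) (i := 22) (j := 23) g1 (by omega) (by norm_num)
    omega
  · have a1 := lp 42 (by norm_num)
    have a2 := cm (c := 7) (i := 42) (j := 43) g1 (by omega) (by norm_num)
    omega
  · exact cm g1 (by omega) (by norm_num)
  · exact (cm g1 (by omega) (by norm_num)).trans e2
  · exact (Nat.one_le_pow _ _ g1).trans e1

/-- the real inequalities; `t` is the exponential, `γ1, γ2, γ3, γ4` are the Green terms -/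
theorem real_part {x n a B t M γ1 γ2 γ3 γ4 : ℝ} (hx : 100000 ≤ x) (hn0 : 0 ≤ n) (hn : 125 * n ≤ x)
    (ha0 : 0 ≤ a) (ha : a ≤ x) (hB : Bd x B 401) (ht : Bd x t (-30000)) (hM : 2 * M + 3 ≤ x)
    (he : 2 * Real.exp 3 * 150001 ≤ x) (h1 : Bd x γ1 (-379)) (h2 : Bd x γ2 (-150))
    (h3 : 0 ≤ γ3 ∧ γ3 ≤ M * x ^ (-18 : ℤ)) (h4 : 0 ≤ γ4 ∧ γ4 ≤ M * x ^ (-18 : ℤ)) :
    (0 ≤ γ1 + γ2 ∧ γ1 + γ2 + 1 / x ^ 700 + 1 / x ^ 79 ≤ 1 / x ^ 78) ∧
    (B * (2 * x ^ 43 + 1) ^ 3 * t + (2 * x ^ 43 + 1) ^ 3 * (n * (2 * (a + x) + 1) ^ 3) ^ 6 *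
      (2 * Real.exp 1 * (6 * (1 / x ^ 78))) ^ 6 ≤ 1 / x ^ 100) ∧
    (0 ≤ γ3 + γ4 ∧ γ3 + γ4 + 1 / x ^ 700 + 1 / x ^ 79 + x ^ 18 * (1 / x ^ 100) ≤ 1 / x ^ 17) ∧
    B * (2 * x ^ 23 + 1) ^ 3 * t ≤ (1 / x ^ 12000) ^ 2 ∧
    B * (n * (2 * x ^ 23 + 1) ^ 3 *
        (2 * Real.exp 3 * (25000 * (1 / x ^ 78) + 1 / x ^ 73))) ^ 25000 +
      B * ((2 * x ^ 23 + 1) ^ 3 * (n * (2 * (a + x) + 1) ^ 3 *
        (2 * Real.exp 3 * (6 * 25000 * (1 / x ^ 17) + 1 / x ^ 73))) ^ 6) ^ 25000 ≤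
      (1 / x ^ 12000) ^ 2 := by
  have x2 : 2 ≤ x := by linarith
  have x0 : 0 < x := by linarith
  have op : ∀ m : ℕ, 1 ≤ x ^ m := fun m => one_le_pow₀ (by linarith)
  have c43 : Bd x ((2 * x ^ 43 + 1) ^ 3) 130 := by
    have := Bd.cube x2 (c := 1) (b := 3) (z := x ^ 43) 43 zero_le_one (by positivity)
      (by linarith [op 43]) (by linarith)
    rw [one_mul] at this
    exact this.mono x2 (by norm_num)
  have c23 : Bd x ((2 * x ^ 23 + 1) ^ 3) 70 := by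
    have := Bd.cube x2 (c := 1) (b := 3) (z := x ^ 23) 23 zero_le_one (by positivity)
      (by linarith [op 23]) (by linarith)
    rw [one_mul] at this
    exact this.mono x2 (by norm_num)
  have n23 : Bd x (n * (2 * x ^ 23 + 1) ^ 3) 70 :=
    (Bd.cube x2 (c := n) (b := 3) (z := x ^ 23) 23 hn0 (by positivity)
      (by linarith [op 23]) (by linarith)).mono x2 (by norm_num)
  have nA : Bd x (n * (2 * (a + x) + 1) ^ 3) 4 :=
    (Bd.cube x2 (c := n) (b := 5) (z := a + x) 1 hn0 (by positivity)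
      (by rw [pow_one]; linarith) (by linarith)).mono x2 (by norm_num)
  have iv : ∀ (m : ℕ) (k : ℤ), -(m : ℤ) ≤ k → Bd x (1 / x ^ m) k := fun m k h =>
    (Bd.inv x2 m).mono x2 h
  have e0 := Real.exp_pos 3
  have e13 : Real.exp 1 ≤ Real.exp 3 := Real.exp_le_exp.2 (by norm_num)
  have sq : (1 / x ^ 12000) ^ 2 = 1 / x ^ 24000 := by
    rw [div_pow, one_pow, ← pow_mul]
  have b1 : Bd x (2 * Real.exp 1 * (6 * (1 / x ^ 78))) (-78 + 1) :=
    Bd.up x2 he (by positivity) (by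
      have := (iv 78 (-78) (by norm_num))
      generalize 1 / x ^ 78 = u at this
      have h5 := this.1
      have h6 := this.2
      generalize x ^ (-78 : ℤ) = v at h6
      nlinarith [Real.exp_pos 1])
  have b2 : Bd x (2 * Real.exp 3 * (25000 * (1 / x ^ 78) + 1 / x ^ 73)) (-73 + 1) :=
    Bd.up x2 he (by positivity) (by
      have h5 := (iv 78 (-73) (by norm_num)).2
      have h6 := (iv 73 (-73) (by norm_num)).2
      have h7 := zpow_pos x0 (-73)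
      rw [mul_assoc (2 * Real.exp 3)]
      exact mul_le_mul_of_nonneg_left (by linarith) (by positivity))
  have b3 : Bd x (2 * Real.exp 3 * (6 * 25000 * (1 / x ^ 17) + 1 / x ^ 73)) (-17 + 1) :=
    Bd.up x2 he (by positivity) (by
      have h5 := (iv 17 (-17) (by norm_num)).2
      have h6 := (iv 73 (-17) (by norm_num)).2
      rw [mul_assoc (2 * Real.exp 3)]
      exact mul_le_mul_of_nonneg_left (by linarith) (by positivity))
  refine ⟨⟨add_nonneg h1.1 h2.1, ?_⟩, ?_, ⟨add_nonneg h3.1 h4.1, ?_⟩, ?_, ?_⟩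
  · refine Bd.le_inv (Bd.mono x2 (Bd.up (k := -79) (c := 4) x2 (by linarith) ?_ ?_) (by norm_num))
    · have := h1.1
      have := h2.1
      positivity
    · linarith [(h1.mono x2 (l := -79) (by norm_num)).2, (h2.mono x2 (l := -79) (by norm_num)).2,
        (iv 700 (-79) (by norm_num)).2, (iv 79 (-79) (by norm_num)).2]
  · exact Bd.le_inv (Bd.mono x2 (Bd.add (k := -101) x2
      (((hB.mul x2 c43).mul x2 ht).mono x2 (by norm_num))
      (((c43.mul x2 (nA.pow 6)).mul x2 (b1.pow 6)).mono x2 (by norm_num))) (by norm_num))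
  · refine Bd.le_inv (Bd.mono x2 (Bd.up (k := -18) x2 hM ?_ ?_) (by norm_num))
    · have := h3.1
      have := h4.1
      positivity
    · have h5 := (((Bd.npow x2 18).mul x2 (Bd.inv x2 100)).mono x2 (l := -18) (by norm_num)).2
      have h6 := (iv 700 (-18) (by norm_num)).2
      have h7 := (iv 79 (-18) (by norm_num)).2
      have h8 := h3.2
      have h9 := h4.2
      generalize x ^ (-18 : ℤ) = v at *
      rw [add_mul, mul_assoc]
      linarith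
  · rw [sq]
    exact Bd.le_inv (((hB.mul x2 c23).mul x2 ht).mono x2 (by norm_num))
  · rw [sq]
    exact Bd.le_inv (Bd.mono x2 (Bd.add (k := -24001) x2
      ((hB.mul x2 ((n23.mul x2 b2).pow 25000)).mono x2 (by norm_num))
      ((hB.mul x2 ((c23.mul x2 ((nA.mul x2 b3).pow 6)).pow 25000)).mono x2 (by norm_num)))
      (by norm_num))

end PolP

open PolP in
theorem pol : PolStmt := by
  intro n C hC
  have hK0 := K_nonneg (scl 0 0) 0
  have hKe := K_zero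
  generalize (scl 0 0).K 0 = K at hK0 hKe
  have tn := tendsto_natCast_atTop_atTop (R := ℝ)
  filter_upwards [eventually_ge_atTop (100000 * (n ^ 2 + 1)), eventually_ge_atTop (100000 * (A6 + 1)),
    eventually_ge_atTop (125 * n), tn.eventually_ge_atTop (2 * (C * K) + 3),
    tn.eventually_ge_atTop (2 * Real.exp 3 * 150001), ev_exp (240 * n ^ 2) 30000, ev_log 176]
    with g h1 h2 h3 h4 h5 h6 h7 B hB1 hB2 mt L E w κ u0 e hw Q S
  obtain ⟨hN, e1, e2⟩ := nat_part h1 h2 hB1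
  have hg : 100000 ≤ g := by omega
  have hx : (100000 : ℝ) ≤ g := by exact_mod_cast hg
  have x2 : (2 : ℝ) ≤ g := by linarith
  have hCK : 0 ≤ C * K := by positivity
  have bCK : Bd g (C * K) 1 := Bd.const hCK (by linarith)
  have hθ : 80 * S.θ * Q.w - Q.f = 240 * (n : ℝ) ^ 2 - g := by
    have : (w : ℝ) ≠ 0 := by positivity
    show 80 * (3 * (n : ℝ) ^ 2 / w) * w - g = _
    field_simp
    ring
  have hη : (scl g mt).η 0 = g ^ 22 := rfl
  have hgam : ∀ d : ℕ, gam C (scl g mt) 1 d =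
      C * K * ((1 + (Nat.log 2 d : ℝ)) ^ 2 * (g : ℝ) ^ 22 / d) := fun d => by
    rw [gam, Nat.sub_self, hKe, hη, Nat.cast_pow]
    ring
  have bl : ∀ (d m : ℕ), d ≤ g ^ 176 → g ^ m ≤ d →
      Bd g ((1 + (Nat.log 2 d : ℝ)) ^ 2 * (g : ℝ) ^ 22 / d) (24 + -m) := fun d m hd hm =>
    ((((Bd.const (by positivity) (h7 d hd)).pow 2).mul x2 (Bd.npow x2 22)).mono x2
      (by norm_num)).div x2 (by exact_mod_cast hm)
  have hA : A6 ≤ g := by
    generalize A6 = a at h2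
    omega
  have hR := real_part (x := g) (n := n) (a := A6) (B := B)
    (t := Real.exp (240 * (n : ℝ) ^ 2 - g)) (M := C * K)
    (γ1 := C * (K / (B / (25000 * g ^ 18 + 2) : ℕ))) (γ2 := gam C (scl g mt) 1 (g ^ 176 / 8))
    (γ3 := C * (K / (g ^ 18 : ℕ))) (γ4 := gam C (scl g mt) 1 (g ^ 42))
    hx (Nat.cast_nonneg n) (by exact_mod_cast h3) (Nat.cast_nonneg _)
    (Nat.cast_le.2 hA)
    ((Bd.npow x2 401).of_le (Nat.cast_nonneg B) (by exact_mod_cast hB2))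
    ((Bd.inv x2 30000).of_le (Real.exp_pos _).le h6) h4 h5
    (by
      rw [← mul_div_assoc]
      exact (bCK.div x2 (m := 380) (by exact_mod_cast e1)).mono x2 (by norm_num))
    (by
      rw [hgam]
      exact (bCK.mul x2 (bl _ 175 (Nat.div_le_self _ _) e2)).mono x2 (by norm_num))
    (by
      rw [← mul_div_assoc, Nat.cast_pow, div_eq_mul_one_div]
      have := Bd.inv x2 18
      exact ⟨mul_nonneg hCK this.1, mul_le_mul_of_nonneg_left this.2 hCK⟩)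
    (by
      rw [hgam]
      have := (bl (g ^ 42) 42 (Nat.pow_le_pow_right (by omega) (by norm_num)) le_rfl).mono x2
        (l := -18) (by norm_num)
      exact ⟨mul_nonneg hCK this.1, mul_le_mul_of_nonneg_left this.2 hCK⟩)
  have q1 : (Q.r : ℝ) = (g : ℝ) ^ 43 := Nat.cast_pow g 43
  have q2 : (Q.ρ : ℝ) = (g : ℝ) ^ 23 := Nat.cast_pow g 23
  have q3 : (Q.A : ℝ) = (A6 : ℝ) + g := Nat.cast_add A6 g
  have q4 : (Q.D' : ℝ) = (g : ℝ) ^ 18 := Nat.cast_pow g 18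
  have q5 : Q.P.a 0 + 1 = 25000 := rfl
  have q6 : (Q.P.a 0 : ℝ) + 1 = 25000 := by exact_mod_cast q5
  have q7 : Q.k = 25000 := rfl
  have q8 : S.γT = C * (K / (B / (25000 * g ^ 18 + 2) : ℕ)) + gam C (scl g mt) 1 (g ^ 176 / 8) := by
    rw [← hKe g mt]; rfl
  have q9 : S.γS = C * (K / (g ^ 18 : ℕ)) + gam C (scl g mt) 1 (g ^ 42) := by
    rw [← hKe g mt]; rfl
  have q10 : S.τ 1 = 1 / (g : ℝ) ^ 700 := rfl
  refine ⟨hN, ?_⟩
  rw [hθ, q1, q2, q3, q4, q5, q6, q7, q8, q9, q10, Nat.cast_ofNat]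
  exact hR

end Crest.Agent.N337.RR
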