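import Crest.Agent.N337.R.Cfg

/-!
# Row 337, RARE: arithmetic of the scales (helper37)
-/

set_option autoImplicit false

namespace Crest.Agent.N337.RR

open Finset Filter G1

namespace Sc

variable {g mt m : ℕ}

/-- the scale `η`. -/
def et (g m : ℕ) : ℕ := g ^ (22 * 48 ^ m)

theorem eta_eq (g mt m : ℕ) : (scl g mt).η m = et g m := rfl

theorem et_succ (g m : ℕ) : et g (m + 1) = et g m ^ 48 := by
  rw [et, et, ← pow_mul, pow_succ, mul_assoc]

theorem sig_succ (g mt m : ℕ) : (scl g mt).σ (m + 1) = et g m ^ 8 := by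
  rw [et, ← pow_mul, show 22 * 48 ^ m * 8 = 176 * 48 ^ m by ring]; rfl

theorem a_succ (g mt m : ℕ) : (scl g mt).a (m + 1) = 127 := rfl

theorem rho0 (g mt : ℕ) : (scl g mt).ρ 0 = (scl 0 0).ρ 0 := by
  rw [Scales.ρ, Scales.ρ, show (scl g mt).a 0 = (scl 0 0).a 0 from rfl,
    show (scl g mt).σ 0 = (scl 0 0).σ 0 from rfl]

theorem K0 (g mt : ℕ) : (scl g mt).K 0 = (scl 0 0).K 0 := by
  rw [Scales.K, Scales.K, zero_add, prod_range_one, prod_range_one, rho0]

theorem f0 (g mt : ℕ) : (scl g mt).f 0 = (scl 0 0).f 0 := by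
  rw [Scales.f, Scales.f, rho0, show (scl g mt).a 0 = (scl 0 0).a 0 from rfl,
    show (scl g mt).σ 0 = (scl 0 0).σ 0 from rfl]

/-- `g` is large. -/
structure H (g : ℕ) : Prop where
  big : 2000 ≤ g
  r0 : (scl 0 0).ρ 0 ≤ g
  k0 : |(scl 0 0).K 0| ≤ g
  f0 : (scl 0 0).f 0 ≤ g
  r1 : 3 ^ 127 * (2 * tS + 1) + tS ≤ g
  ks : |kS| ≤ g

theorem evH : ∀ᶠ g : ℕ in atTop, H g := by
  have h := tendsto_natCast_atTop_atTop (R := ℝ)
  filter_upwards [eventually_ge_atTop 2000, eventually_ge_atTop ((scl 0 0).ρ 0),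
    h.eventually_ge_atTop |(scl 0 0).K 0|, eventually_ge_atTop ((scl 0 0).f 0),
    eventually_ge_atTop (3 ^ 127 * (2 * tS + 1) + tS), h.eventually_ge_atTop |kS|]
    with g h1 h2 h3 h4 h5 h6 using ⟨h1, h2, h3, h4, h5, h6⟩

theorem lt48 (m : ℕ) : m < 48 ^ m := Nat.lt_pow_self (by norm_num)

theorem H.pos (h : H g) : 0 < g := by have := h.big; omega

theorem H.le_et (_h : H g) (m : ℕ) : g ≤ et g m := Nat.le_self_pow (by positivity) g

theorem H.big' (h : H g) (m : ℕ) : 2000 ≤ et g m := h.big.trans (h.le_et m)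

theorem H.mono (h : H g) {m m' : ℕ} (e : m ≤ m') : et g m ≤ et g m' :=
  Nat.pow_le_pow_right h.pos (Nat.mul_le_mul_left _ (Nat.pow_le_pow_right (by norm_num) e))

theorem H.two (h : H g) (m : ℕ) : 2 ^ (m + 4) ≤ et g m :=
  (Nat.pow_le_pow_left (by have := h.big; omega) _).trans
    (Nat.pow_le_pow_right h.pos (by have := lt48 m; omega))

theorem H.pw (h : H g) (m : ℕ) {i j : ℕ} (e : i ≤ j) : et g m ^ i ≤ et g m ^ j :=
  Nat.pow_le_pow_right (by have := h.big' m; omega) e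

theorem H.cpw (h : H g) (m i : ℕ) (j : ℕ := i + 1) (e : j = i + 1 := by rfl) :
    2000 * et g m ^ i ≤ et g m ^ j := by
  rw [e, pow_succ']; exact Nat.mul_le_mul_right _ (h.big' m)

theorem H.one (h : H g) (m i : ℕ) : 1 ≤ et g m ^ i := by simpa using h.pw m (Nat.zero_le i)

theorem H.rho (h : H g) (mt m : ℕ) : (scl g mt).ρ (m + 1) ≤ et g m ^ 9 := by
  have h1 := h.r1
  have h2 := h.one m 8
  rw [Scales.ρ, a_succ, sig_succ, pow_succ' _ 8]
  generalize 3 ^ 127 = c at *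
  generalize et g m ^ 8 = s at *
  calc c * (2 * tS + s) + tS ≤ c * (2 * tS * s + s) + tS * s := by
        exact add_le_add (Nat.mul_le_mul_left _ (Nat.add_le_add_right
          (Nat.le_mul_of_pos_right _ h2) _)) (Nat.le_mul_of_pos_right _ h2)
    _ = (c * (2 * tS + 1) + tS) * s := by ring
    _ ≤ _ := Nat.mul_le_mul_right _ (h1.trans (h.le_et m))

theorem H.fac (h : H g) (mt m : ℕ) :
    |1 + kS * (2 * ((scl g mt).ρ (m + 1) : ℝ) + 1) ^ 9| ≤ (et g m : ℝ) ^ 92 := by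
  have h1 : 2 * (scl g mt).ρ (m + 1) + 1 ≤ et g m ^ 10 := by
    have := h.rho mt m; have := h.cpw m 9 10; have := h.one m 9; omega
  have h2 : 1 + et g m * (et g m ^ 10) ^ 9 ≤ et g m ^ 92 := by
    rw [← pow_mul, ← pow_succ']
    have := h.cpw m 91; have := h.one m 91; norm_num at *; omega
  have h3 : |kS| ≤ et g m := h.ks.trans (by exact_mod_cast h.le_et m)
  have h4 : 1 + (et g m : ℝ) * (et g m ^ 10) ^ 9 ≤ et g m ^ 92 := by exact_mod_cast h2
  refine (abs_add_le _ _).trans (le_trans ?_ h4)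
  rw [abs_one, abs_mul, abs_of_nonneg (a := _ ^ 9) (by positivity)]
  gcongr
  exact_mod_cast h1

theorem H.K1 (h : H g) (mt m : ℕ) (e : |(scl g mt).K m| ≤ (et g m : ℝ) ^ 2) :
    |(scl g mt).K (m + 1)| ≤ (et g m : ℝ) ^ 94 := by
  rw [Scales.K, prod_range_succ, abs_mul, show 94 = 2 + 92 from rfl, pow_add]
  exact mul_le_mul e (h.fac mt m) (abs_nonneg _) (by positivity)

theorem H.K (h : H g) (mt m : ℕ) : |(scl g mt).K m| ≤ (et g m : ℝ) ^ 2 := by
  induction m with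
  | zero =>
    rw [K0]
    exact h.k0.trans (by exact_mod_cast (h.le_et 0).trans (Nat.le_self_pow (by norm_num) _))
  | succ m ih =>
    refine (h.K1 mt m ih).trans ?_
    rw [et_succ]
    exact_mod_cast (h.pw m (by norm_num)).trans_eq (pow_mul _ 48 2)

theorem H.f (h : H g) (mt m : ℕ) : (scl g mt).f (m + 1) ≤ et g m ^ 31 := by
  have h1 : 2 * (et g m ^ 8 + (scl g mt).ρ (m + 1)) + 1 ≤ et g m ^ 10 := by
    have := h.rho mt m; have := h.cpw m 9 10; have := h.one m 9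
    have := h.pw m (show 8 ≤ 9 by norm_num); omega
  rw [Scales.f, a_succ, sig_succ]
  refine (Nat.mul_le_mul_left _ (Nat.pow_le_pow_left h1 3)).trans ?_
  rw [← pow_mul]
  have := h.cpw m 30; norm_num at *; omega

theorem H.ok (h : H g) (mt L : ℕ) (h1 : 1 ≤ mt) (h2 : 2 * et g (mt - 1) < L) :
    (scl g mt).Ok L := by
  refine ⟨h1, rfl, fun m _ => ?_, fun m hm => ?_, fun m _ => ?_, fun m _ => ?_⟩
  · rcases m with _ | m
    · exact (rho0 g mt).le.trans (h.r0.trans (h.le_et 0))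
    · rw [eta_eq, et_succ]; exact (h.rho mt m).trans (h.pw m (by norm_num))
  · have := h.mono (show m ≤ mt - 1 from Nat.le_sub_one_of_lt hm)
    rw [eta_eq]; omega
  · refine (mul_le_mul_of_nonneg_right (mul_le_mul_of_nonneg_left (le_abs_self _)
      (by positivity)) (Nat.cast_nonneg _)).trans ?_
    rw [eta_eq]
    rcases m with _ | m
    · have a1 : (g : ℝ) ≤ et g 0 := by exact_mod_cast h.le_et 0
      have a2 : (2 : ℝ) ^ (0 + 3) ≤ et g 0 := by
        exact_mod_cast (show 2 ^ (0 + 3) ≤ 2000 by norm_num).trans (h.big' 0)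
      have a3 : ((scl 0 0).f 0 : ℝ) ≤ et g 0 := by exact_mod_cast h.f0.trans (h.le_et 0)
      rw [K0, Sc.f0, pow_three' (et g 0 : ℝ)]
      exact mul_le_mul (mul_le_mul a2 (h.k0.trans a1) (abs_nonneg _) (Nat.cast_nonneg _)) a3
        (Nat.cast_nonneg _) (mul_nonneg (Nat.cast_nonneg _) (Nat.cast_nonneg _))
    · have a1 := h.K1 mt m (h.K mt m)
      have a2 : (2 : ℝ) ^ (m + 1 + 3) ≤ et g m := by exact_mod_cast h.two m
      have a3 : ((scl g mt).f (m + 1) : ℝ) ≤ (et g m : ℝ) ^ 31 := by exact_mod_cast h.f mt m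
      calc _ ≤ (et g m : ℝ) * et g m ^ 94 * et g m ^ 31 := by gcongr
        _ = ((et g m ^ 126 : ℕ) : ℝ) := by push_cast; ring
        _ ≤ _ := by
          rw [et_succ]
          exact_mod_cast (h.pw m (by norm_num)).trans_eq (pow_mul _ 48 3)
  · rw [a_succ, sig_succ, eta_eq, eta_eq, et_succ]
    have := h.rho mt m; have := h.cpw m 9; have := h.one m 9
    have := h.pw m (show 8 ≤ 9 by norm_num)
    have := h.pw m (show 1 ≤ 9 by norm_num)
    have := h.pw m (show 9 + 1 ≤ 48 by norm_num)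
    rw [pow_one] at *
    omega

theorem H.nt (h : H g) (mt m : ℕ) :
    NT (scl g mt) 127 m * g ^ (6760 * 48 ^ m) ≤ g ^ (6760 * 128 ^ m) := by
  induction m with
  | zero => simp [NT]
  | succ m ih =>
    have h1 : (8 * et g (m + 1) + 1) ^ 3 ≤ g ^ (4224 * 48 ^ m) := by
      have := h.big' (m + 1)
      calc _ ≤ (9 * et g (m + 1)) ^ 3 := Nat.pow_le_pow_left (by omega) _
        _ ≤ et g (m + 1) ^ (3 + 1) := by have := h.cpw (m + 1) 3; rw [mul_pow]; omega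
        _ = _ := by rw [et, ← pow_mul]; congr 1; ring
    calc _ ≤ (g ^ (4224 * 48 ^ m) * NT (scl g mt) 127 m) ^ 128 * g ^ (6760 * 48 ^ (m + 1)) := by
          rw [NT, eta_eq]; gcongr
      _ = NT (scl g mt) 127 m ^ 128 * g ^ (4224 * 48 ^ m * 128 + 6760 * 48 ^ (m + 1)) := by
          rw [mul_pow, ← pow_mul, pow_add g, mul_comm (g ^ _) (_ ^ 128), mul_assoc]
      _ ≤ NT (scl g mt) 127 m ^ 128 * g ^ (6760 * 48 ^ m * 128) :=
          Nat.mul_le_mul_left _ (Nat.pow_le_pow_right h.pos (by rw [pow_succ]; omega))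
      _ ≤ (g ^ (6760 * 128 ^ m)) ^ 128 := by
          rw [pow_mul g _ 128, ← mul_pow]; exact Nat.pow_le_pow_left ih _
      _ = _ := by rw [← pow_mul, pow_succ, mul_assoc]

theorem H.rp (h : H g) {i j : ℕ} (e : i ≤ j) : (g : ℝ) ^ i ≤ (g : ℝ) ^ j := by
  exact_mod_cast Nat.pow_le_pow_right h.pos e

theorem H.ent (h : H g) (mt m : ℕ) :
    NT (scl g mt) 127 m * (2 * (1 / (g : ℝ) ^ 12000)) ^ (127 + 1) ^ m ≤ pmf g (m + 1) := by
  have g0 : (0 : ℝ) < g := by exact_mod_cast h.pos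
  have g2 : (2 : ℝ) ≤ g := by exact_mod_cast (show 2 ≤ 2000 by norm_num).trans h.big
  have h1 : (NT (scl g mt) 127 m : ℝ) ≤ ((g : ℝ) ^ 6760) ^ 128 ^ m := by
    rw [← pow_mul]
    exact_mod_cast (Nat.le_mul_of_pos_right _ (pow_pos h.pos _)).trans (h.nt mt m)
  have h2 : (g : ℝ) ^ 6760 * (2 * (1 / (g : ℝ) ^ 12000)) ≤ 1 / (g : ℝ) ^ 5000 := by
    rw [← mul_assoc, mul_one_div, div_le_div_iff₀ (by positivity) (by positivity), one_mul]
    calc _ ≤ (g : ℝ) ^ 6760 * g * g ^ 5000 := by gcongr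
      _ = (g : ℝ) ^ (6760 + 1 + 5000) := by rw [pow_add, pow_add, pow_one]
      _ ≤ _ := h.rp (by norm_num)
  rw [pmf, Nat.add_sub_cancel, pow_mul, ← one_div_pow ((g : ℝ) ^ 5000)]
  refine (mul_le_mul_of_nonneg_right h1 (by positivity)).trans ?_
  rw [← mul_pow]
  exact pow_le_pow_left₀ (by positivity) h2 _

theorem H.term (h : H g) {t m : ℕ} (e : t ≤ m) {x : ℝ}
    (hx : x ≤ (g : ℝ) ^ (4224 * 128 ^ m)) : x * pmf g (m + 1) ≤ tauf g (t + 1) * (1 / 2) ^ (m + 1) := by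
  have g0 : (0 : ℝ) < g := by exact_mod_cast h.pos
  have g2 : (2 : ℝ) ≤ g := by exact_mod_cast (show 2 ≤ 2000 by norm_num).trans h.big
  have h1 : m < 128 ^ m := Nat.lt_pow_self (by norm_num)
  have h2 : 128 ^ t ≤ 128 ^ m := Nat.pow_le_pow_right (by norm_num) e
  rw [pmf, tauf, Nat.add_sub_cancel, Nat.add_sub_cancel, one_div_pow, mul_one_div, div_mul_div_comm,
    div_le_div_iff₀ (by positivity) (by positivity), one_mul, one_mul]
  calc _ ≤ (g : ℝ) ^ (4224 * 128 ^ m) * (g ^ (700 * 128 ^ t) * g ^ (m + 1)) := by gcongr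
    _ ≤ _ := by rw [← pow_add, ← pow_add]; exact h.rp (by omega)

theorem H.tail (h : H g) (mt t d : ℕ) (ht : 1 ≤ t) (hd : d ≤ et g t) :
    4 * ∑ m ∈ Ico t mt, (2 * ((d + 2 * et g m : ℕ) : ℝ) + 1) ^ 3 * pmf g m ≤ tauf g t := by
  obtain ⟨t, rfl⟩ : ∃ s, t = s + 1 := ⟨t - 1, by omega⟩
  have h0 : 0 ≤ tauf g (t + 1) := by unfold tauf; positivity
  rw [mul_sum]
  calc _ ≤ ∑ m ∈ Ico (t + 1) mt, tauf g (t + 1) * (1 / 2) ^ m := by
        refine sum_le_sum fun m hm => ?_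
        have hm := (mem_Ico.1 hm).1
        have h1 := hd.trans (h.mono hm)
        obtain ⟨m, rfl⟩ : ∃ s, m = s + 1 := ⟨m - 1, by omega⟩
        rw [← mul_assoc]
        refine h.term (by omega) ?_
        have := h.big' (m + 1)
        have h2 : 4 * (2 * (d + 2 * et g (m + 1)) + 1) ^ 3 ≤ g ^ (4224 * 128 ^ m) :=
          calc _ ≤ 4 * (7 * et g (m + 1)) ^ 3 := by gcongr; omega
            _ ≤ et g (m + 1) ^ (3 + 1) := by have := h.cpw (m + 1) 3; rw [mul_pow]; omega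
            _ = g ^ (4224 * 48 ^ m) := by rw [et, ← pow_mul]; congr 1; ring
            _ ≤ _ := Nat.pow_le_pow_right h.pos
              (Nat.mul_le_mul_left _ (Nat.pow_le_pow_left (by norm_num) _))
        exact_mod_cast h2
    _ ≤ _ := by
        rw [← mul_sum]
        refine mul_le_of_le_one_right h0 ((geom_sum_Ico_le_of_lt_one (by norm_num)
          (by norm_num)).trans ?_)
        have : (1 / 2 : ℝ) ^ t ≤ 1 := pow_le_one₀ (by norm_num) (by norm_num)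
        rw [pow_succ, div_le_one (by norm_num)]; linarith

theorem H.gam (h : H g) {C : ℝ} (hC : 1 ≤ C) (hg : 175000 * (9 * C) ≤ g) (mt t : ℕ) (ht : 1 ≤ t) :
    175000 * 256 ^ (t + 1) * (gam C (scl g mt) t ((scl g mt).σ t / 4) + tauf g t) ≤
      1 / (g : ℝ) ^ 80 := by
  obtain ⟨s, rfl⟩ : ∃ s, t = s + 1 := ⟨t - 1, by omega⟩
  have g0 : (0 : ℝ) < g := by exact_mod_cast h.pos
  obtain ⟨u, hu⟩ : ∃ u, u = g ^ 48 ^ s := ⟨_, rfl⟩
  have e1 : et g s = u ^ 22 := by rw [hu, et, ← pow_mul, mul_comm]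
  have u1 : g ≤ u := hu ▸ Nat.le_self_pow (by positivity) g
  have u2 : 2000 ≤ u := h.big.trans u1
  have u0 : (1 : ℝ) ≤ u := by exact_mod_cast (show 1 ≤ u by omega)
  have hK := (le_abs_self _).trans (h.K mt s)
  rw [RR.gam, Nat.add_sub_cancel, sig_succ, eta_eq, e1, ← pow_mul]
  rw [e1] at hK
  obtain ⟨d, hd⟩ : ∃ d, d = u ^ (22 * 8) / 4 := ⟨_, rfl⟩
  rw [← hd]
  have d0 : u ≤ u ^ (22 * 8) := Nat.le_self_pow (by norm_num) u
  have d1 : u ^ (22 * 8) ≤ 8 * d := by omega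
  have d2 : 1 + Nat.log 2 d ≤ u ^ 2 := by
    have : Nat.log 2 d < u * (22 * 8) := Nat.log_lt_of_lt_pow (by omega) (by
      rw [pow_mul 2]
      exact lt_of_le_of_lt (by omega) (Nat.pow_lt_pow_left Nat.lt_two_pow_self (by norm_num)))
    nlinarith
  have d3 : (u : ℝ) ^ (22 * 8) / 8 ≤ d := by
    rw [div_le_iff₀' (by norm_num)]; exact_mod_cast d1
  have d4 : 1 + (Nat.log 2 d : ℝ) ≤ (u : ℝ) ^ 2 := by exact_mod_cast d2
  have a1 : (scl g mt).K s * (1 + (Nat.log 2 d : ℝ)) ^ 2 * (u ^ 22 : ℕ) / d ≤ 8 / (u : ℝ) ^ 106 := by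
    push_cast at hK ⊢
    calc _ ≤ ((u : ℝ) ^ 22) ^ 2 * (u ^ 2) ^ 2 * u ^ 22 / (u ^ (22 * 8) / 8) := by gcongr
      _ = _ := by field_simp
  have a2 : tauf g (s + 1) ≤ C / (u : ℝ) ^ 106 := by
    rw [tauf, Nat.add_sub_cancel, hu]
    push_cast
    rw [← pow_mul]
    have : 48 ^ s ≤ 128 ^ s := Nat.pow_le_pow_left (by norm_num) _
    exact div_le_div₀ (by linarith) hC (by positivity) (h.rp (by omega))
  have a3 : (256 : ℝ) ^ (s + 1 + 1) ≤ (u : ℝ) ^ 2 := by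
    have : 256 ^ (s + 1 + 1) ≤ u ^ 2 := by
      rw [hu, ← pow_mul]
      exact (Nat.pow_le_pow_left (by have := h.big; omega) _).trans
        (Nat.pow_le_pow_right h.pos (by have := lt48 s; omega))
    exact_mod_cast this
  have u3 : (g : ℝ) ≤ u := by exact_mod_cast u1
  calc _ ≤ 175000 * (u : ℝ) ^ 2 * (C * (8 / (u : ℝ) ^ 106) + C / (u : ℝ) ^ 106) := by
        have : 0 ≤ tauf g (s + 1) := by unfold tauf; positivity
        refine (mul_le_mul_of_nonneg_left (add_le_add (mul_le_mul_of_nonneg_left a1 (by linarith))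
          a2) (by positivity)).trans ?_
        gcongr
    _ = 175000 * (9 * C) / (u : ℝ) ^ 104 := by field_simp; norm_num
    _ ≤ u / (u : ℝ) ^ 104 := by gcongr; exact hg.trans u3
    _ = 1 / (u : ℝ) ^ 103 := by field_simp
    _ ≤ _ := one_div_le_one_div_of_le (by positivity)
        ((pow_le_pow_left₀ g0.le u3 _).trans (pow_le_pow_right₀ u0 (by norm_num)))

theorem H.last (h : H g) (q M : ℕ) : ∀ᶠ L : ℕ in atTop, ∃ mt, M ≤ mt ∧
    et g (mt - 1) ^ q ≤ L ∧ 4 * (L : ℝ) ^ 3 * pmf g mt ≤ tauf g mt := by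
  have g0 : (0 : ℝ) < g := by exact_mod_cast h.pos
  filter_upwards [eventually_ge_atTop (et g (M + q + 1) ^ (q + 1))] with L hL
  obtain ⟨k, h1, h2⟩ := Nat.exists_not_and_succ_of_not_zero_of_exists
    (p := fun k => L < et g (M + q + 1 + k) ^ (q + 1)) (not_lt.2 hL) ⟨L, by
      have a1 := h.two (M + q + 1 + L)
      have a2 : M + q + 1 + L + 4 < 2 ^ (M + q + 1 + L + 4) := Nat.lt_two_pow_self
      have a3 := Nat.le_self_pow (show q + 1 ≠ 0 by omega) (et g (M + q + 1 + L))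
      omega⟩
  obtain ⟨m, hm⟩ : ∃ m, m = M + q + 1 + k := ⟨_, rfl⟩
  rw [← add_assoc, ← hm] at h2
  rw [← hm] at h1
  refine ⟨m + 1, by omega, (h.pw _ (Nat.le_succ q)).trans (not_lt.1 h1), ?_⟩
  have a1 : (q + 1) * 48 ^ m ≤ 128 ^ m :=
    calc _ ≤ 2 ^ m * 48 ^ m := Nat.mul_le_mul_right _
          ((show q + 1 ≤ m by omega).trans Nat.lt_two_pow_self.le)
      _ ≤ _ := by rw [← mul_pow]; exact Nat.pow_le_pow_left (by norm_num) _
  have a2 : 0 < 128 ^ m := by positivity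
  have a3 : 4 * L ^ 3 ≤ g ^ (4300 * 128 ^ m) :=
    calc _ ≤ g * (et g (m + 1) ^ (q + 1)) ^ 3 := by gcongr; have := h.big; omega
      _ = g ^ (3168 * ((q + 1) * 48 ^ m) + 1) := by
          rw [et, ← pow_mul, ← pow_mul, ← pow_succ']; congr 2; ring
      _ ≤ _ := Nat.pow_le_pow_right h.pos (by omega)
  rw [pmf, tauf, Nat.add_sub_cancel, mul_one_div, div_le_div_iff₀ (by positivity) (by positivity),
    one_mul, show 5000 * 128 ^ m = 4300 * 128 ^ m + 700 * 128 ^ m by ring, pow_add]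
  gcongr
  exact_mod_cast a3

end Sc

theorem sclS : SclStmt := by
  intro C hC
  filter_upwards [Sc.evH, (tendsto_natCast_atTop_atTop (R := ℝ)).eventually_ge_atTop
    (175000 * (9 * C))] with g h hg
  refine ⟨fun mt m => ?_, h.ok, fun mt m => (le_abs_self _).trans (h.K mt m), h.ent, h.tail,
    h.gam hC hg, h.last⟩
  rw [Sc.sig_succ, Sc.eta_eq, Sc.eta_eq, Sc.et_succ]
  have h1 := h.cpw m 1
  have h2 := h.pw m (show 1 + 1 ≤ 8 by norm_num)
  rw [pow_one] at h1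
  exact ⟨by omega, h.pw m (by norm_num)⟩

end Crest.Agent.N337.RR
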