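import Crest.Agent.N337.R.Itf
import Crest.Agent.N337.R.Core
import Crest.Agent.N337.R.Scl
import Crest.Agent.N337.R.Fld
import Crest.Agent.N337.R.Pol
import Crest.Agent.N337.R.Word
import Crest.Agent.N337.R.Bas
import Crest.Agent.N337.R.Ann
import Crest.Agent.N337.R.Tree
import Crest.Agent.N337.R.Fast
import Crest.Agent.N337.R.Pt
import Crest.Agent.N337.R.Gen
import Crest.Agent.N337.Top.BArc

/-!
# Row 337, RARE (helper4): assembly, `ZM.RareStmt` from `GoodStmt` and `GBStmt`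
-/

set_option autoImplicit false

namespace Crest.Agent.N337.RR

open Finset Filter Topology Crest.MathPhysics.SpinModel G1

namespace Mn

theorem succ_pow {g : ℕ} (hg : 400 ≤ g) : (g + 1) ^ 400 ≤ g ^ 401 := by
  have h0 : (400 : ℝ) ≤ g := by exact_mod_cast hg
  have h1 : (g : ℝ) + 1 ≤ g * Real.exp (1 / g) := by
    have := mul_le_mul_of_nonneg_left (Real.add_one_le_exp (1 / (g : ℝ))) (by linarith : (0 : ℝ) ≤ g)
    rw [mul_add, mul_one_div_cancel (by linarith)] at this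
    linarith
  have h2 : Real.exp (1 / g) ^ 400 ≤ g := by
    rw [← Real.exp_nat_mul]
    refine (Real.exp_le_exp.2 (?_ : _ ≤ (1 : ℝ))).trans (by linarith [Real.exp_one_lt_d9])
    rw [mul_one_div, div_le_one (by linarith)]
    exact_mod_cast hg
  have h3 : ((g : ℝ) + 1) ^ 400 ≤ (g : ℝ) ^ 401 := by
    refine (pow_le_pow_left₀ (by linarith) h1 400).trans ?_
    rw [mul_pow, pow_succ (g : ℝ) 400]
    exact mul_le_mul_of_nonneg_left h2 (by positivity)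
  exact_mod_cast h3

/-- the small scale. -/
theorem scale (g0 : ℕ) : ∃ β0 : ℝ, ∀ β : ℝ, β0 ≤ β → 1 ≤ β ∧ ∃ g : ℕ, g0 ≤ g ∧
    g ^ 400 ≤ ⌊β⌋₊ + 1 ∧ ⌊β⌋₊ + 1 ≤ g ^ 401 ∧ β ^ (-(1 / 4 : ℝ)) ≤ 1 / (g : ℝ) ^ 100 := by
  refine ⟨((g0 + 400) ^ 400 : ℕ), fun β hβ => ?_⟩
  have h1 : (g0 + 400) ^ 400 ≤ ⌊β⌋₊ := Nat.le_floor hβ
  have h2 := (Nat.le_nthRoot_iff (by norm_num)).2 h1
  have h3 : Nat.nthRoot 400 ⌊β⌋₊ ^ 400 ≤ ⌊β⌋₊ := Nat.pow_nthRoot_le_iff.2 (Or.inl (by norm_num))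
  have h4 := Nat.lt_pow_nthRoot_add_one (n := 400) (by norm_num) ⌊β⌋₊
  set g := Nat.nthRoot 400 ⌊β⌋₊
  have hβ1 : 1 ≤ β := le_trans (by exact_mod_cast Nat.one_le_pow _ _ (by omega)) hβ
  refine ⟨hβ1, g, by omega, by omega, le_trans h4 (succ_pow (by omega)), ?_⟩
  have hg : (0 : ℝ) < g := by exact_mod_cast (by omega : 0 < g)
  have h5 : ((g : ℝ) ^ 100) ^ 4 ≤ β := by
    rw [← pow_mul]
    exact le_trans (by rw [← Nat.cast_pow]; exact Nat.cast_le.2 h3)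
      (Nat.floor_le (zero_le_one.trans hβ1))
  have h6 : 0 < (g : ℝ) ^ 100 := pow_pos hg _
  clear h1 h2 h3 h4 hβ
  generalize (g : ℝ) ^ 100 = x at h5 h6
  rw [Real.rpow_neg (by linarith), one_div x]
  refine inv_anti₀ h6 ?_
  have := Real.rpow_le_rpow (by positivity) h5 (by norm_num : (0 : ℝ) ≤ 1 / 4)
  rwa [one_div, show (4 : ℝ) = (4 : ℕ) by norm_num, Real.pow_rpow_inv_natCast h6.le
    (by norm_num), show ((4 : ℕ) : ℝ) = 4 by norm_num, ← one_div] at this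

theorem gam_nonneg {C : ℝ} (hC : 0 ≤ C) (P : Scales) (t d : ℕ) : 0 ≤ gam C P t d := by
  have := zero_le_one.trans (one_le_K P (t - 1))
  unfold gam; positivity

theorem tauf_nonneg (g t : ℕ) : 0 ≤ tauf g t := by unfold tauf; positivity

theorem tauf_anti {g : ℕ} (hg : 2 ≤ g) {t t' : ℕ} (h : t ≤ t') : tauf g t' ≤ tauf g t := by
  have h0 : (1 : ℝ) ≤ g := by exact_mod_cast (by omega : 1 ≤ g)
  exact one_div_le_one_div_of_le (by positivity) (pow_le_pow_right₀ h0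
    (Nat.mul_le_mul_left _ (Nat.pow_le_pow_right (by norm_num) (by omega))))

theorem eta_ge {g : ℕ} (hg : 2 ≤ g) (mt m : ℕ) : m + 4 ≤ (scl g mt).η m := by
  have h1 : m < 48 ^ m := Nat.lt_pow_self (by norm_num)
  have h2 : 22 * 48 ^ m < g ^ (22 * 48 ^ m) := Nat.lt_pow_self (by omega)
  show _ ≤ g ^ (22 * 48 ^ m)
  omega

theorem sig_eq (g mt : ℕ) {t : ℕ} (ht : 1 ≤ t) : (scl g mt).σ t = (scl g mt).η (t - 1) ^ 8 := by
  show (if t = 0 then 0 else g ^ (176 * 48 ^ (t - 1))) = (g ^ (22 * 48 ^ (t - 1))) ^ 8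
  rw [if_neg (by omega), ← pow_mul]
  congr 1; ring

theorem sum_half (m : ℕ) : ∑ t ∈ Icc 1 m, (1 / 2 : ℝ) ^ t ≤ 1 - (1 / 2) ^ m := by
  induction m with
  | zero => simp
  | succ m ih => rw [sum_Icc_succ_top (by omega), pow_succ]; linarith

/-- the clean scale `d = η ^ 8 / 4`. -/
theorem clean_num {η : ℕ} {K ε : ℝ} (hη : 4 ≤ η) (hK : K ≤ (η : ℝ) ^ 2) (hε : 648 ≤ ε * η) :
    4 * η ≤ η ^ 8 / 4 ∧
      K * (1 + (Nat.log 2 (η ^ 8 / 4) : ℝ)) ^ 2 * (η : ℝ) ^ 2 ≤ ε * (η ^ 8 / 4 : ℕ) := by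
  have h1 : 16 * η ≤ η ^ 8 := by
    calc 16 * η ≤ η ^ 2 * η := Nat.mul_le_mul_right _ (by nlinarith)
      _ = η ^ 3 := by ring
      _ ≤ η ^ 8 := Nat.pow_le_pow_right (by omega) (by norm_num)
  refine ⟨by omega, ?_⟩
  have h2 : Nat.log 2 (η ^ 8 / 4) ≤ 8 * η := by
    refine (Nat.log_lt_of_lt_pow' (by omega) ?_).le
    rw [mul_comm, pow_mul]
    exact (Nat.div_le_self _ _).trans_lt (Nat.pow_lt_pow_left Nat.lt_two_pow_self (by norm_num))
  have h3 : η ^ 8 ≤ 8 * (η ^ 8 / 4) := by omega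
  have h4 : (η : ℝ) ^ 8 ≤ 8 * (η ^ 8 / 4 : ℕ) := by exact_mod_cast h3
  have h5 : (Nat.log 2 (η ^ 8 / 4) : ℝ) ≤ 8 * η := by exact_mod_cast h2
  have h6 : (4 : ℝ) ≤ η := by exact_mod_cast hη
  have h7 : (1 + (Nat.log 2 (η ^ 8 / 4) : ℝ)) ^ 2 ≤ (9 * η) ^ 2 :=
    pow_le_pow_left₀ (by positivity) (by linarith) 2
  have hε0 : 0 ≤ ε := by by_contra h; nlinarith
  calc _ ≤ (η : ℝ) ^ 2 * (9 * η) ^ 2 * (η : ℝ) ^ 2 := by gcongr
    _ = 648 * (η : ℝ) ^ 6 / 8 := by ring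
    _ ≤ ε * η * (η : ℝ) ^ 7 / 8 := by gcongr <;> linarith
    _ = ε * ((η : ℝ) ^ 8 / 8) := by ring
    _ ≤ _ := mul_le_mul_of_nonneg_left (by linarith) hε0

end Mn

open Mn

theorem rare_of (hG : GoodStmt) (hB : GBStmt) : ZM.RareStmt := by
  intro n _
  obtain ⟨C, hC, hB⟩ := hB n
  have hev : ∀ᶠ g : ℕ in atTop, 1000 * (n + 1) * C ≤ (g : ℝ) :=
    tendsto_natCast_atTop_atTop.eventually_ge_atTop _
  obtain ⟨g0, hg0⟩ := eventually_atTop.1 (hB.and ((hG n).and ((sclS C hC).and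
    ((pol n C hC).and (hev.and (eventually_ge_atTop 2))))))
  obtain ⟨β0, hβ0⟩ := scale g0
  refine ⟨β0, fun β hβ => ?_⟩
  obtain ⟨hβ1, g, hg, hB1, hB2, hκ⟩ := hβ0 β hβ
  obtain ⟨hB, hG, ⟨s1, s2, s3, s4, s5, s6, s7⟩, hP, hgC, hg2⟩ := hg0 g hg
  clear hg0 hev hβ0
  set κ := β ^ (-(1 / 4 : ℝ))
  have hκ0 : 0 < κ := Real.rpow_pos_of_pos (by linarith) _
  have hg1 : (2 : ℝ) ≤ g := by exact_mod_cast hg2
  obtain ⟨u0, hu0⟩ := eventually_atTop.1 (fld n g C κ hC hg2 hκ0 hκ hgC)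
  refine ⟨1, u0, fun u hu ε hε => ?_⟩
  obtain ⟨m0, hm0⟩ := eventually_atTop.1 (hu0 u hu)
  have hγ := fun mt t d => gam_nonneg (zero_le_one.trans hC) (scl g mt) t d
  have s8 : ∀ mt t, 1 ≤ t → 175000 * 128 ^ (t + 1) *
      (gam C (scl g mt) t ((scl g mt).σ t / 4) + tauf g t) ≤ (1 / 2) ^ t * (1 / (g : ℝ) ^ 80) := by
    intro mt t ht
    have h := s6 mt t ht
    have e : (128 : ℝ) ^ (t + 1) = (1 / 2) ^ (t + 1) * 256 ^ (t + 1) := by
      rw [← mul_pow]; norm_num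
    have h0 : (0 : ℝ) ≤ 1 / (g : ℝ) ^ 80 := by positivity
    calc _ = (1 / 2) ^ (t + 1) * (175000 * 256 ^ (t + 1) *
          (gam C (scl g mt) t ((scl g mt).σ t / 4) + tauf g t)) := by rw [e]; ring
      _ ≤ (1 / 2) ^ (t + 1) * (1 / (g : ℝ) ^ 80) := by gcongr
      _ ≤ _ := mul_le_mul_of_nonneg_right
          (pow_le_pow_of_le_one (by norm_num) (by norm_num) (by omega)) h0
  have g80 : 1 / (g : ℝ) ^ 80 ≤ 1 :=
    (div_le_one (by positivity)).2 (one_le_pow₀ (by linarith))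
  -- the clean level `t`
  obtain ⟨t, ht1, ht2, ht3⟩ : ∃ t : ℕ, 1 ≤ t ∧ 648 ≤ ε * t ∧ (1 / 2 : ℝ) ^ t ≤ ε / 2 := by
    have a1 : ∀ᶠ t : ℕ in atTop, 648 ≤ ε * t :=
      (tendsto_natCast_atTop_atTop.const_mul_atTop hε).eventually_ge_atTop _
    have a2 : ∀ᶠ t : ℕ in atTop, (1 / 2 : ℝ) ^ t ≤ ε / 2 :=
      (tendsto_pow_atTop_nhds_zero_of_lt_one (by norm_num) (by norm_num)).eventually
        (ge_mem_nhds (by linarith))
    exact ((eventually_ge_atTop 1).and (a1.and a2)).exists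
  have hτ : tauf g t ≤ ε / 2 := by
    have h := s8 0 t ht1
    have h1 : (1 : ℝ) ≤ 175000 * 128 ^ (t + 1) :=
      one_le_mul_of_one_le_of_one_le (by norm_num) (one_le_pow₀ (by norm_num))
    have h2 := le_mul_of_one_le_left (add_nonneg (hγ 0 t ((scl g 0).σ t / 4)) (tauf_nonneg g t)) h1
    have h3 := mul_le_of_le_one_right (by positivity : (0 : ℝ) ≤ (1 / 2) ^ t) g80
    linarith [hγ 0 t ((scl g 0).σ t / 4)]
  refine ⟨(scl g 0).σ t / 4, ?_⟩
  have hL := (tendsto_add_atTop_nat 1).eventually ((s7 30 (m0 + t + 1)).and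
    (tendsto_natCast_atTop_atTop.eventually_ge_atTop u))
  filter_upwards [hL] with L ⟨⟨mt, hmt, hη, htop⟩, huL⟩
  have hη4 := eta_ge hg2 mt (mt - 1)
  have hη10 : (scl g mt).η (mt - 1) ^ 10 ≤ L + 1 :=
    (Nat.pow_le_pow_right (by omega) (by norm_num)).trans hη
  have hηL : 2 * (scl g mt).η (mt - 1) < L + 1 := by
    have : (scl g mt).η (mt - 1) ^ 2 ≤ L + 1 :=
      (Nat.pow_le_pow_right (by omega) (by norm_num)).trans hη
    nlinarith
  have hok := s2 mt (L + 1) (by omega) hηL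
  obtain ⟨e, he0, he⟩ := hm0 mt (by omega) (L + 1) hη10 huL
  have hcl := clean_num (η := (scl g mt).η (t - 1)) (ε := ε) (le_trans (by omega) (eta_ge hg2 mt _))
    (s3 mt (t - 1)) (ht2.trans (mul_le_mul_of_nonneg_left
      (by exact_mod_cast le_trans (by omega) (eta_ge hg2 mt (t - 1))) hε.le))
  rw [← sig_eq g mt ht1] at hcl
  refine ⟨scl g mt, g ^ 2, A6, 25000 * g ^ 18, g ^ 22, t, ht1, show t ≤ mt by omega, hcl.1, hcl.2,
    ?_, fun sy hsy => ?_⟩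
  · have h1 : (scl g mt).K (mt - 1) * (scl g mt).η (mt - 1) ≤ ((scl g mt).η (mt - 1) : ℝ) ^ 3 := by
      rw [pow_succ]; exact mul_le_mul_of_nonneg_right (s3 _ _) (by positivity)
    refine (pow_le_pow_left₀ (mul_nonneg (zero_le_one.trans (one_le_K _ _)) (by positivity))
      h1 10).trans ?_
    rw [← pow_mul]
    exact_mod_cast hη
  have he := he e he0.le le_rfl (Top.lay sy).length
  have w1 : ∀ᶠ w : ℕ in atTop, err (β / (2 * Top.MM β w))
      (Real.exp (-(u / ((L + 1 : ℕ) : ℝ) ^ 3))) (L + 1) n (⌊β⌋₊ + 1) ≤ e := by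
    have a1 : Tendsto (fun w : ℕ => β / (2 * Top.MM β w : ℝ)) atTop (𝓝 0) := by
      refine tendsto_const_nhds.div_atTop (Tendsto.const_mul_atTop (by norm_num)
        (tendsto_natCast_atTop_atTop.comp (tendsto_atTop_mono (fun w => ?_) tendsto_id)))
      show w ≤ (⌊β⌋₊ + 1) * (w + 1)
      nlinarith
    have a2 : Continuous fun q : ℝ => err q (Real.exp (-(u / ((L + 1 : ℕ) : ℝ) ^ 3))) (L + 1) n
        (⌊β⌋₊ + 1) := by unfold err; fun_prop
    exact (a2.tendsto' 0 0 (by simp [err])).comp a1 |>.eventually (ge_mem_nhds he0)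
  filter_upwards [w1, eventually_ge_atTop (120 * n ^ 2),
    eventually_ge_atTop (2 * (2 + (L + 1) ^ 3 * g ^ 2 + 1))] with w hw1 hw2 hw3
  obtain ⟨hW, hCP⟩ := word n (L + 1) (by omega) β hβ1 sy hsy w
  obtain ⟨f1, f2, f3, f4, f5, f6, f7, f8, f9⟩ := he (w + 1) (⌊β⌋₊ + 1)
  obtain ⟨⟨p1, p2, -⟩, ⟨p3, p4⟩, p5, ⟨p6, p7⟩, p8, p9⟩ := hP _ hB1 hB2 mt (L + 1)
    (Top.lay sy).length (w + 1) κ u e (by omega)
  have hGB := hB (L + 1) _ _ _ _ _ _ _ mt κ u e _ _ hB1 hB2 (by omega) hη10 f3 f2.2 hW hCP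
    (le_trans (Nat.mul_le_mul_left 2 (by have := card_le_two (a := 0) (b := Top.MM β w - 1); omega))
      (hw3.trans (Nat.le_succ w))) hw1
  set Q := par g mt (L + 1) (Top.lay sy).length (w + 1) (⌊β⌋₊ + 1)
  set S := rpar n g mt (L + 1) (w + 1) (⌊β⌋₊ + 1) C κ u e
  have pw : ∀ m : ℕ, (0 : ℝ) < 1 / (g : ℝ) ^ m := fun m => by positivity
  have pa : ∀ {i j : ℕ}, i ≤ j → 1 / (g : ℝ) ^ j ≤ 1 / (g : ℝ) ^ i := fun h =>
    one_div_le_one_div_of_le (by positivity) (pow_le_pow_right₀ (by linarith) h)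
  have hσ : ∀ t, 1 ≤ t → (scl g mt).σ t / 4 ≤ (scl g mt).η t := fun t ht => by
    have := (s1 mt (t - 1)).2
    rw [Nat.sub_add_cancel ht] at this
    omega
  have hτ' : ∀ t, 1 ≤ t → t < mt → 2 * ∑ m ∈ Ico t mt,
      (2 * (((scl g mt).σ t / 4 + 2 * (scl g mt).η m : ℕ) : ℝ) + 1) ^ 3 * pmf g m +
        2 * ((L + 1 : ℕ) : ℝ) ^ 3 * pmf g mt ≤ tauf g t := fun t h1 h2 => by
    linarith [s5 mt t _ h1 (hσ t h1), tauf_anti hg2 h2.le]
  have hN : Num (L + 1) n Q S :=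
    { ha := fun m hm => if_neg (by omega)
      hs := s1 mt
      mt := show 2 ≤ mt by omega
      sep := p1
      hk := show 1 ≤ 25000 by norm_num
      hD := Nat.one_le_pow _ _ (by omega)
      hB := p2
      hN := f1
      hθ := by
        show 40 * (3 * (n : ℝ) ^ 2 / (w + 1 : ℕ)) ≤ 1
        rw [← mul_div_assoc, div_le_one (by positivity)]
        have : ((120 * n ^ 2 : ℕ) : ℝ) ≤ (w + 1 : ℕ) := by exact_mod_cast hw2.trans (Nat.le_succ w)
        push_cast at this ⊢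
        linarith
      hy := f2
      hε := ⟨pw _, (pa (Nat.zero_le 12000)).trans (by simp)⟩
      nn := ⟨p3, p6, fun t => hγ _ _ _, tauf_nonneg g, f4, pw _, (pw _).le⟩
      pm := fun m => pw _
      δ0 := f5
      δc := f6
      τ := hτ'
      c1 := p4
      π6 := p5
      cS := p7
      cF := by
        show ((24999 + 1 + 6 * 25000 : ℕ) : ℝ) * ∑ t ∈ Icc 1 (mt - 1), (((127 : ℕ) : ℝ) + 1) ^ t *
          (gam C (scl g mt) t ((scl g mt).σ t / 4) + tauf g t) + 1 / (g : ℝ) ^ 74 ≤ 1 / (g : ℝ) ^ 73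
        have h1 : ((24999 + 1 + 6 * 25000 : ℕ) : ℝ) * ∑ t ∈ Icc 1 (mt - 1),
            (((127 : ℕ) : ℝ) + 1) ^ t * (gam C (scl g mt) t ((scl g mt).σ t / 4) + tauf g t) ≤
            (∑ t ∈ Icc 1 (mt - 1), (1 / 2 : ℝ) ^ t) * (1 / (g : ℝ) ^ 80) := by
          rw [mul_sum, sum_mul]
          refine sum_le_sum fun t ht => le_trans ?_ (s8 mt t (mem_Icc.1 ht).1)
          have := add_nonneg (hγ mt t ((scl g mt).σ t / 4)) (tauf_nonneg g t)
          rw [← mul_assoc]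
          refine mul_le_mul_of_nonneg_right ?_ this
          norm_num
          exact pow_le_pow_right₀ (by norm_num) (by omega)
        have h2 := mul_le_of_le_one_left (pw 80).le ((sum_half (mt - 1)).trans
          (sub_le_self 1 (by positivity)))
        have h3 : 2 * (1 / (g : ℝ) ^ 74) ≤ 1 / (g : ℝ) ^ 73 := by
          rw [mul_one_div, div_le_div_iff₀ (by positivity) (by positivity), one_mul, pow_succ' _ 73]
          exact mul_le_mul_of_nonneg_right hg1 (by positivity)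
        linarith [pa (by norm_num : 74 ≤ 80)]
      eF := p8
      eP := p9
      tree := fun m _ => s4 mt m
      h1 := f7
      h2 := f8
      h3 := fun y h0 hy => by
        obtain ⟨k, k1, k2, k3, k4, k5⟩ := f9 y h0 hy
        refine ⟨k, k1, k3, le_trans (mul_le_mul_of_nonneg_left ?_ (by positivity)) k5⟩
        have h1 := s8 mt (mt - 1) (by omega)
        rw [Nat.sub_add_cancel (by omega)] at h1
        have h2 : (k : ℝ) ≤ 175000 * 128 ^ mt := by exact_mod_cast k2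
        have h3 := mul_le_mul_of_nonneg_right h2
          (add_nonneg (hγ mt (mt - 1) ((scl g mt).σ (mt - 1) / 4)) (tauf_nonneg g (mt - 1)))
        have h4 := mul_le_of_le_one_left (pw 80).le
          (pow_le_one₀ (by norm_num) (by norm_num) : (1 / 2 : ℝ) ^ (mt - 1) ≤ 1)
        have h5 : 1 / (g : ℝ) ^ 80 ≤ S.c1 := pa (by norm_num : 78 ≤ 80)
        have h6 : (k : ℝ) * (S.γD (Q.P.mt - 1) + S.τ (Q.P.mt - 1)) ≤ S.c1 :=
          h3.trans (h1.trans (h4.trans h5))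
        rw [mul_add]
        linarith }
  have X : Ctx _ _ _ Q S := ⟨bas, ann, tree, fast, pt, gen, hW, hGB, hN⟩
  have hb := bt_mem (T := Top.TT β w sy) (Λ := Top.Sl (L + 1) n) f2.1 f2.2
  have key : ∀ x, WR (Top.ex β w sy) (Top.ey β w sy) (Top.pp β w sy) (Top.bt S.y0)
      (fun ξ R => BadD (Top.ex β w sy) (Top.ey β w sy) Q ξ R t ((scl g 0).σ t / 4) x) ≤
      (ε + 1 * Real.exp (-(κ * u))) * Top.EW β w sy (Top.bt S.y0) fun _ _ => 1 := fun x => by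
    refine ((X.rare f2.1 le_rfl).bad hW.hp1 f2.1 f2.2 zero_le_one hN.pm
      (show 1 ≤ mt by omega) ht1 _ x).trans ?_
    rw [Top.EW, ZM.EE_one]
    refine mul_le_mul_of_nonneg_right ?_ (X.Zpos f2.1).le
    have h1 := hτ' t ht1 (by omega)
    have h2 : S.δ S.y0 ≤ Real.exp (-(κ * u)) + ε / 2 := by
      refine max_le ?_ ?_
      · have hV : (0 : ℝ) < ((L + 1 : ℕ) : ℝ) ^ 3 := by positivity
        show Real.exp _ ^ _ ≤ _
        rw [← Real.exp_mul, show -(u / ((L + 1 : ℕ) : ℝ) ^ 3) * (κ * ((L + 1 : ℕ) : ℝ) ^ 3) =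
          -(κ * u) by field_simp]
        linarith
      · refine le_add_of_nonneg_of_le (Real.exp_pos _).le (le_trans ?_ ht3)
        have a1 : t ≤ 175000 * 128 ^ mt := by
          have : mt < 128 ^ mt := Nat.lt_pow_self (by norm_num)
          omega
        refine (Real.exp_le_exp.2 (neg_le_neg (Nat.cast_le.2 a1))).trans ?_
        rw [← mul_neg_one, Real.exp_nat_mul]
        refine pow_le_pow_left₀ (Real.exp_pos _).le ?_ _
        rw [Real.exp_neg, one_div]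
        exact inv_anti₀ (by norm_num) (by linarith [Real.add_one_le_exp 1])
    have h3 : 0 ≤ tauf g t := tauf_nonneg g t
    show 1 * ∑ m ∈ Ico t mt, (2 * (((scl g mt).σ t / 4 + 2 * (scl g mt).η m : ℕ) : ℝ) + 1) ^ 3 *
      pmf g m + 1 * ((L + 1 : ℕ) : ℝ) ^ 3 * pmf g mt + 1 * S.δ S.y0 ≤ _
    linarith
  refine ⟨fun ξ R => UU (Top.ex β w sy) (Top.ey β w sy) Q ξ R, ?_, fun x => ?_⟩
  · exact le_trans (WR_mono hW.hp1 hb fun ξ R hc h => Or.inl fun h' =>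
      h (hG _ _ _ _ _ _ _ _ mt _ hW hok ξ R hc h')) (key 0)
  · exact le_trans (WR_mono hW.hp1 hb fun ξ R _ h => Or.inr h) (key x)

end Crest.Agent.N337.RR
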