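import Crest.Agent.N337.R.Defs

/-!
# Row 337, RARE (helper4): the junk sets of the red set, Green bounds and numerical conditions
-/

set_option autoImplicit false

namespace Crest.Agent.N337.RR

open Finset Equiv Crest.MathPhysics.SpinModel Crest.Agent.N337.Rep Free KV G1

/-- integer parameters. -/
structure Par where
  P : Scales
  a : ℕ
  E : ℕ
  w : ℕ
  B : ℕ
  f : ℕ
  ρ : ℕ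
  A : ℕ
  k : ℕ
  D' : ℕ
  r : ℕ
  N : ℕ

/-- steps per window. -/
abbrev Par.D (Q : Par) : ℕ := Q.w * Q.E
/-- points per base witness. -/
def Par.k0 (Q : Par) : ℕ := Q.P.a 0 + 1 + 6 * Q.k

section junk
variable {L n T : ℕ} [NeZero L] [NeZero T] (ex ey : Fin T → Tor 3 L × Fin n) (Q : Par)

/-- base junk read on the red points. -/
def PtEv (c : Tor 3 L) (R : Finset (Fin T × (Tor 3 L × Fin n))) : Prop :=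
  (∃ i < Q.B, Pt Q.D Q.D' i 1 (Q.P.a 0 + 1) 0 Q.ρ c R) ∨ ∃ i < Q.B, Pt Q.D Q.D' i Q.k 6 Q.ρ Q.A c R

variable (ξ : Fin T → Bool) (R : Finset (Fin T × (Tor 3 L × Fin n)))

open Classical in
/-- base junk. -/
noncomputable def U1 : Finset (Tor 3 L) :=
  univ.filter fun c => Fast ex ey Q.D Q.B Q.f Q.ρ c ξ ∨ PtEv Q c R
/-- the junk sets. -/
noncomputable def UU : ℕ → Finset (Tor 3 L) := Up Q.P (U1 ex ey Q ξ R)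
/-- junk at the top level, or of level `≥ t` near `x`. -/
def BadD (t d : ℕ) (x : Tor 3 L) : Prop :=
  UU ex ey Q ξ R Q.P.mt ≠ ∅ ∨ ¬ Clean Q.P (UU ex ey Q ξ R) x t d
/-- a possible cluster in window `i` near `x`. -/
def Cl (x : Tor 3 L) (i : ℕ) : Prop :=
  Fast ex ey Q.D Q.B Q.f Q.r x ξ ∨ Pt Q.D Q.D' i 1 6 Q.r Q.A x R

end junk

/-- real parameters. -/
structure RPar where
  θ : ℝ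
  y0 : ℝ
  ε : ℝ
  c1 : ℝ
  c3 : ℝ
  c4 : ℝ
  cS : ℝ
  cF : ℝ
  π6 : ℝ
  γT : ℝ
  γS : ℝ
  γD : ℕ → ℝ
  τ : ℕ → ℝ
  pm : ℕ → ℝ
  μ : ℝ → ℝ
  δ : ℝ → ℝ

/-- quenched Green bounds in the good environments. -/
structure GB {L n T : ℕ} [NeZero L] [NeZero T] (ex ey : Fin T → Tor 3 L × Fin n) (p : Fin T → ℝ)
    (Q : Par) (S : RPar) : Prop where
  far : ∀ y, 0 < y → y ≤ S.y0 → ∀ ξ ω, Pw p ξ ≠ 0 → (∀ v, ω (Sg ex ey ξ v) = ω v) →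
    ∀ v u, ω v = none → ω u = none → ∀ t, 1 ≤ t → t < Q.P.mt →
      Q.P.σ t / 4 ≤ tdist u.2.1 v.2.1 → ¬ BadD ex ey Q ξ (red ω) t (Q.P.σ t / 4) v.2.1 →
      DL.Ge ex ey p (Top.bt y) ω v u ≤ S.γD t + S.μ y
  same : ∀ y, 0 < y → y ≤ S.y0 → ∀ ξ ω, Pw p ξ ≠ 0 → (∀ v, ω (Sg ex ey ξ v) = ω v) →
    ∀ v u, ω v = none → ω u = none → u.1 = v.1 →
      ¬ BadD ex ey Q ξ (red ω) 1 (Q.P.σ 1 / 4) v.2.1 →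
      DL.Ge ex ey p (Top.bt y) ω v u ≤ S.γT + S.μ y
  short : ∀ v u : Fin T × (Tor 3 L × Fin n), Q.D ∣ v.1.val → Q.D' * Q.D ≤ lag u.1 v.1 →
    ∃ I : Finset ℕ, I.card ≤ Q.D' ∧
      ∀ y, 0 < y → y ≤ S.y0 → ∀ ξ ω, Pw p ξ ≠ 0 → (∀ v, ω (Sg ex ey ξ v) = ω v) →
        ω v = none → ω u = none → ¬ BadD ex ey Q ξ (red ω) 1 (Q.P.σ 1 / 4) v.2.1 →
        (∀ i ∈ I, ¬ Cl ex ey Q ξ (red ω) v.2.1 i) →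
        DL.Ge ex ey p (Top.bt y) ω v u ≤ S.γS + S.μ y

/-- numerical conditions (`V = L ^ 3`). -/
structure Num (L n : ℕ) (Q : Par) (S : RPar) : Prop where
  ha : ∀ m, 1 ≤ m → Q.P.a m = Q.a
  hs : ∀ m, 32 * Q.P.η m ≤ Q.P.σ (m + 1) ∧ Q.P.σ (m + 1) ≤ Q.P.η (m + 1)
  mt : 2 ≤ Q.P.mt
  sep : 8 * (Q.ρ + Q.A + Q.f + 2) ≤ Q.P.σ 1
  hk : 1 ≤ Q.k
  hD : 1 ≤ Q.D'
  hB : 2 * (Q.k * Q.D') ≤ Q.B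
  hN : 1 ≤ Q.N
  hθ : 40 * S.θ ≤ 1
  hy : 0 ≤ S.y0 ∧ S.y0 < 1
  hε : 0 < S.ε ∧ S.ε ≤ 1
  nn : 0 ≤ S.γT ∧ 0 ≤ S.γS ∧ (∀ t, 0 ≤ S.γD t) ∧ (∀ t, 0 ≤ S.τ t) ∧ (∀ y, 0 ≤ S.μ y) ∧ 0 < S.c4 ∧
    0 ≤ S.c3
  pm : ∀ m, 0 < S.pm m
  δ0 : ∀ y, 0 ≤ y → y ≤ S.y0 → 0 < S.δ y
  δc : ContinuousOn S.δ (Set.Icc 0 S.y0)
  τ : ∀ t, 1 ≤ t → t < Q.P.mt →
    2 * ∑ m ∈ Ico t Q.P.mt, (2 * ((Q.P.σ t / 4 + 2 * Q.P.η m : ℕ) : ℝ) + 1) ^ 3 * S.pm m +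
      2 * (L : ℝ) ^ 3 * S.pm Q.P.mt ≤ S.τ t
  c1 : S.γT + S.τ 1 + S.c4 ≤ S.c1
  π6 : Q.B * (2 * (Q.r : ℝ) + 1) ^ 3 * Real.exp (80 * S.θ * Q.w - Q.f) +
    (2 * (Q.r : ℝ) + 1) ^ 3 * (n * (2 * (Q.A : ℝ) + 1) ^ 3) ^ 6 * (2 * Real.exp 1 * (6 * S.c1)) ^ 6 ≤
      S.π6
  cS : S.γS + S.τ 1 + S.c4 + Q.D' * S.π6 ≤ S.cS
  cF : Q.k0 * ∑ t ∈ Icc 1 (Q.P.mt - 1), ((Q.a : ℝ) + 1) ^ t * (S.γD t + S.τ t) + S.c3 ≤ S.cF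
  eF : Q.B * (2 * (Q.ρ : ℝ) + 1) ^ 3 * Real.exp (80 * S.θ * Q.w - Q.f) ≤ S.ε ^ 2
  eP : Q.B * (n * (2 * (Q.ρ : ℝ) + 1) ^ 3 *
      (2 * Real.exp 3 * ((Q.P.a 0 + 1) * S.c1 + S.cF))) ^ (Q.P.a 0 + 1) +
    Q.B * ((2 * (Q.ρ : ℝ) + 1) ^ 3 * (n * (2 * (Q.A : ℝ) + 1) ^ 3 *
      (2 * Real.exp 3 * (6 * Q.k * S.cS + S.cF))) ^ 6) ^ Q.k ≤ S.ε ^ 2
  tree : ∀ m < Q.P.mt, NT Q.P Q.a m * (2 * S.ε) ^ (Q.a + 1) ^ m ≤ S.pm (m + 1)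
  h1 : ∀ y, 0 < y → y ≤ S.y0 → S.μ y + 2 * S.δ y ≤ S.c4
  h2 : ∀ y, 0 < y → y ≤ S.y0 → ∀ k : ℕ, k ≤ Q.k0 * (Q.a + 1) ^ Q.P.mt →
    y ≤ Real.exp (-(k / Q.N)) → k * (S.μ y + 2 * S.δ y) ≤ S.c3
  h3 : ∀ y, 0 < y → y ≤ S.y0 → ∃ k : ℕ, Real.exp (-k) ≤ S.δ y ∧
    k * (n * (2 * (Q.P.σ (Q.P.mt - 1) / 4) + 1) ^ 3) ≤ Q.N ∧
    2 * Real.exp 2 * (n * (L : ℝ) ^ 3) * (S.c1 + k * (S.γD (Q.P.mt - 1) + S.τ (Q.P.mt - 1) +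
      (S.μ y + 2 * S.δ y))) ≤ Q.N

/-- the conclusion at fugacity `y` with a factor `s`. -/
def Rare {L n T : ℕ} [NeZero L] [NeZero T] (ex ey : Fin T → Tor 3 L × Fin n) (p : Fin T → ℝ)
    (Q : Par) (S : RPar) (s y : ℝ) : Prop :=
  (∀ m, 1 ≤ m → m ≤ Q.P.mt → ∀ x, WR ex ey p (Top.bt y)
    (fun ξ R => x ∈ UU ex ey Q ξ R m ∧ n0 R ≤ 2 * Q.N) ≤ s * S.pm m * DL.Zt ex ey p (Top.bt y)) ∧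
  WR ex ey p (Top.bt y) (fun _ R => 2 * Q.N < n0 R) ≤ s * S.δ y * DL.Zt ex ey p (Top.bt y)

end Crest.Agent.N337.RR
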